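import Crest.Agent.R239.Defs

/-!
Row 239: API for `nrm`, `hs`, `Bessel`.
Hint: `nrm x = ‖(WithLp.toLp 2 x : EuclideanSpace ℝ ι)‖` (`EuclideanSpace.norm_eq`), and
`hs A = nrm (fun p : ι × κ => A p.1 p.2)` (`Fintype.sum_prod_type`).
`hs_sum_vecMulVec_le`: row `i` of the sum is `u = ∑ a k i • b k`; `u ⬝ u = ∑ a k i * (b k ⬝ u)
≤ √(∑ a k i ^ 2) * √(β * u ⬝ u)` (Cauchy-Schwarz `Finset.sum_mul_sq_le_sq_mul_sq`), so
`u ⬝ u ≤ β ∑ a k i ^ 2`; sum over `i`.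
`Bessel.trace`: `|D b|² = ∑ j, w j ^ 2 * (b ⬝ single j 1) ^ 2`, swap the sums.
-/

set_option autoImplicit false

namespace Crest.Agent.R239

open Matrix Finset

variable {ι κ δ : Type} [Fintype ι] [Fintype κ] [Fintype δ]

theorem dot_self_nonneg (x : ι → ℝ) : 0 ≤ x ⬝ᵥ x := by
  exact sum_nonneg fun i _ => mul_self_nonneg _

theorem dot_self_eq_sum (x : ι → ℝ) : x ⬝ᵥ x = ∑ i, x i ^ 2 := by
  simp only [dotProduct, sq]

theorem nrm_nonneg (x : ι → ℝ) : 0 ≤ nrm x := by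
  exact Real.sqrt_nonneg _

theorem nrm_sq (x : ι → ℝ) : nrm x ^ 2 = x ⬝ᵥ x := by
  exact Real.sq_sqrt (dot_self_nonneg x)

theorem nrm_eq_norm (x : ι → ℝ) : nrm x = ‖(WithLp.toLp 2 x : EuclideanSpace ℝ ι)‖ := by
  rw [EuclideanSpace.norm_eq, nrm, dot_self_eq_sum]
  simp

@[simp] theorem nrm_zero : nrm (0 : ι → ℝ) = 0 := by
  simp [nrm]

theorem nrm_neg (x : ι → ℝ) : nrm (-x) = nrm x := by
  simp [nrm]

theorem nrm_smul (c : ℝ) (x : ι → ℝ) : nrm (c • x) = |c| * nrm x := by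
  rw [nrm_eq_norm, nrm_eq_norm, WithLp.toLp_smul, norm_smul, Real.norm_eq_abs]

theorem nrm_add_le (x y : ι → ℝ) : nrm (x + y) ≤ nrm x + nrm y := by
  rw [nrm_eq_norm, nrm_eq_norm, nrm_eq_norm, WithLp.toLp_add]
  exact norm_add_le _ _

theorem abs_dot_le (x y : ι → ℝ) : |x ⬝ᵥ y| ≤ nrm x * nrm y := by
  refine abs_le_of_sq_le_sq' ?_ (mul_nonneg (nrm_nonneg _) (nrm_nonneg _)) |> abs_le.2
  rw [mul_pow, nrm_sq, nrm_sq, dot_self_eq_sum, dot_self_eq_sum]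
  exact sum_mul_sq_le_sq_mul_sq _ _ _

theorem dot_sq_le (x y : ι → ℝ) : (x ⬝ᵥ y) ^ 2 ≤ (x ⬝ᵥ x) * (y ⬝ᵥ y) := by
  rw [dot_self_eq_sum, dot_self_eq_sum]
  exact sum_mul_sq_le_sq_mul_sq _ _ _

theorem abs_apply_le_nrm (x : ι → ℝ) (i : ι) : |x i| ≤ nrm x := by
  refine Real.abs_le_sqrt ?_
  rw [dot_self_eq_sum]
  exact single_le_sum (f := fun i => x i ^ 2) (fun _ _ => sq_nonneg _) (mem_univ i)

theorem continuous_nrm : Continuous (nrm : (ι → ℝ) → ℝ) := by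
  unfold nrm dotProduct
  fun_prop

theorem basic_hs_eq (A : Matrix ι κ ℝ) : hs A = nrm (fun p : ι × κ => A p.1 p.2) := by
  rw [hs, nrm, dot_self_eq_sum, Fintype.sum_prod_type]

theorem basic_le_of_sq {a b : ℝ} (h : a ^ 2 ≤ b ^ 2) (hb : 0 ≤ b) : a ≤ b :=
  (abs_le_of_sq_le_sq' h hb).2

theorem hs_nonneg (A : Matrix ι κ ℝ) : 0 ≤ hs A := by
  exact Real.sqrt_nonneg _

theorem hs_sq (A : Matrix ι κ ℝ) : hs A ^ 2 = ∑ i, ∑ j, A i j ^ 2 := by
  exact Real.sq_sqrt (sum_nonneg fun _ _ => sum_nonneg fun _ _ => sq_nonneg _)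

theorem hs_sq_rows (A : Matrix ι κ ℝ) : hs A ^ 2 = ∑ i, A i ⬝ᵥ A i := by
  simp only [hs_sq, dot_self_eq_sum]

theorem hs_sq_trace (A : Matrix ι κ ℝ) : hs A ^ 2 = (A * Aᵀ).trace := by
  rw [hs_sq]
  simp only [Matrix.trace, Matrix.diag, Matrix.mul_apply, transpose_apply, sq]

@[simp] theorem hs_zero : hs (0 : Matrix ι κ ℝ) = 0 := by
  simp [hs]

theorem hs_eq_zero {A : Matrix ι κ ℝ} (h : hs A = 0) : A = 0 := by
  ext i j
  have := abs_apply_le_nrm (fun p : ι × κ => A p.1 p.2) (i, j)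
  rw [← basic_hs_eq, h] at this
  exact abs_nonpos_iff.1 this

theorem hs_neg (A : Matrix ι κ ℝ) : hs (-A) = hs A := by
  simp [hs]

theorem hs_smul (c : ℝ) (A : Matrix ι κ ℝ) : hs (c • A) = |c| * hs A := by
  rw [basic_hs_eq, basic_hs_eq, ← nrm_smul]
  rfl

theorem hs_transpose (A : Matrix ι κ ℝ) : hs Aᵀ = hs A := by
  rw [hs, hs, sum_comm]
  rfl

theorem hs_add_le (A B : Matrix ι κ ℝ) : hs (A + B) ≤ hs A + hs B := by
  rw [basic_hs_eq, basic_hs_eq, basic_hs_eq]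
  exact nrm_add_le _ _

theorem hs_sub_le (A B : Matrix ι κ ℝ) : hs (A - B) ≤ hs A + hs B := by
  rw [sub_eq_add_neg, ← hs_neg B]
  exact hs_add_le _ _

theorem hs_sum_le (S : Finset ℕ) (A : ℕ → Matrix ι κ ℝ) :
    hs (∑ k ∈ S, A k) ≤ ∑ k ∈ S, hs (A k) := by
  induction S using Finset.induction_on with
  | empty => simp
  | insert k S hk ih =>
    rw [sum_insert hk, sum_insert hk]
    exact (hs_add_le _ _).trans (by linarith)

theorem hs_vecMulVec (a : ι → ℝ) (b : κ → ℝ) : hs (vecMulVec a b) = nrm a * nrm b := by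
  rw [hs, nrm, nrm, ← Real.sqrt_mul (dot_self_nonneg a), dot_self_eq_sum, dot_self_eq_sum, sum_mul_sum]
  simp only [vecMulVec_apply, mul_pow]

theorem nrm_mulVec_le (A : Matrix ι κ ℝ) (x : κ → ℝ) : nrm (A *ᵥ x) ≤ hs A * nrm x := by
  refine basic_le_of_sq ?_ (mul_nonneg (hs_nonneg _) (nrm_nonneg _))
  rw [mul_pow, nrm_sq, nrm_sq, hs_sq_rows, dot_self_eq_sum, sum_mul]
  exact sum_le_sum fun i _ => dot_sq_le _ _

theorem hs_one [DecidableEq ι] : hs (1 : Matrix ι ι ℝ) ^ 2 = Fintype.card ι := by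
  simp [hs_sq_trace]

theorem hs_mul_diagonal_sq [DecidableEq κ] (A : Matrix ι κ ℝ) (w : κ → ℝ) :
    hs (A * diagonal w) ^ 2 = ∑ j, w j ^ 2 * nrm (A *ᵥ Pi.single j 1) ^ 2 := by
  simp only [hs_sq, mul_diagonal, nrm_sq, dot_self_eq_sum, mulVec_single_one, mul_sum]
  rw [sum_comm]
  refine sum_congr rfl fun j _ => sum_congr rfl fun i _ => ?_
  simp only [col, transpose_apply]
  ring

theorem Bessel.mono {S T : Finset ℕ} {b : ℕ → ι → ℝ} {β : ℝ} (h : Bessel T b β) (hST : S ⊆ T) :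
    Bessel S b β := by
  exact fun y => (sum_le_sum_of_subset_of_nonneg hST fun _ _ _ => sq_nonneg _).trans (h y)

/-- left factors arbitrary, right factors a Bessel family -/
theorem hs_sum_vecMulVec_le {S : Finset ℕ} (a : ℕ → ι → ℝ) {b : ℕ → κ → ℝ} {β : ℝ} (hβ : 0 ≤ β)
    (h : Bessel S b β) :
    hs (∑ k ∈ S, vecMulVec (a k) (b k)) ^ 2 ≤ β * ∑ k ∈ S, nrm (a k) ^ 2 := by
  simp only [hs_sq_rows, nrm_sq, dot_self_eq_sum (a _)]
  rw [sum_comm, mul_sum]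
  refine sum_le_sum fun i _ => ?_
  set u := (∑ k ∈ S, vecMulVec (a k) (b k)) i with hu
  have h1 : u ⬝ᵥ u = ∑ k ∈ S, a k i * (b k ⬝ᵥ u) := by
    have : u = ∑ k ∈ S, a k i • b k := by
      funext j
      simp [hu, Matrix.sum_apply, vecMulVec_apply]
    conv_lhs => enter [1]; rw [this]
    simp [sum_dotProduct]
  have h2 : (u ⬝ᵥ u) ^ 2 ≤ (∑ k ∈ S, a k i ^ 2) * (β * (u ⬝ᵥ u)) := by
    conv_lhs => rw [h1]
    exact (sum_mul_sq_le_sq_mul_sq _ _ _).trans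
      (mul_le_mul_of_nonneg_left (h u) (sum_nonneg fun _ _ => sq_nonneg _))
  rcases (dot_self_nonneg u).eq_or_lt with h0 | h0
  · rw [← h0]
    exact mul_nonneg hβ (sum_nonneg fun _ _ => sq_nonneg _)
  · nlinarith

/-- left factors a Bessel family, right factors arbitrary -/
theorem hs_sum_vecMulVec_le' {S : Finset ℕ} {a : ℕ → ι → ℝ} (b : ℕ → κ → ℝ) {β : ℝ} (hβ : 0 ≤ β)
    (h : Bessel S a β) :
    hs (∑ k ∈ S, vecMulVec (a k) (b k)) ^ 2 ≤ β * ∑ k ∈ S, nrm (b k) ^ 2 := by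
  rw [← hs_transpose, transpose_sum]
  simp only [transpose_vecMulVec]
  exact hs_sum_vecMulVec_le b hβ h

theorem Bessel.trace [DecidableEq ι] {S : Finset ℕ} {b : ℕ → ι → ℝ} {β : ℝ} (h : Bessel S b β)
    (w : ι → ℝ) :
    ∑ k ∈ S, (diagonal w *ᵥ b k) ⬝ᵥ (diagonal w *ᵥ b k) ≤ β * ∑ j, w j ^ 2 := by
  simp only [dot_self_eq_sum, mulVec_diagonal, mul_pow]
  rw [sum_comm, mul_sum]
  refine sum_le_sum fun j _ => ?_
  have := h (Pi.single j 1)
  simp only [dotProduct_single, mul_one, Pi.single_eq_same] at this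
  rw [← mul_sum, mul_comm β]
  exact mul_le_mul_of_nonneg_left this (sq_nonneg _)

section nn
variable [DecidableEq ι] (w : ι → ℝ) (τ : ℝ)

theorem nn_nonneg (A : Matrix ι ι ℝ) : 0 ≤ nn w τ A := by
  exact add_nonneg (hs_nonneg _) (div_nonneg (hs_nonneg _) (Real.sqrt_nonneg _))

theorem nn_add_le (A B : Matrix ι ι ℝ) : nn w τ (A + B) ≤ nn w τ A + nn w τ B := by
  unfold nn
  rw [Matrix.add_mul]
  have h1 := hs_add_le A B
  have h2 := div_le_div_of_nonneg_right (hs_add_le (A * diagonal w) (B * diagonal w))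
    (Real.sqrt_nonneg τ)
  rw [add_div] at h2
  linarith

theorem nn_neg (A : Matrix ι ι ℝ) : nn w τ (-A) = nn w τ A := by
  rw [nn, nn, Matrix.neg_mul, hs_neg, hs_neg]

theorem hs_le_nn (A : Matrix ι ι ℝ) : hs A ≤ nn w τ A := by
  exact le_add_of_nonneg_right (div_nonneg (hs_nonneg _) (Real.sqrt_nonneg _))

theorem nn_eq_zero {A : Matrix ι ι ℝ} (h : nn w τ A = 0) : A = 0 := by
  exact hs_eq_zero (le_antisymm (h ▸ hs_le_nn w τ A) (hs_nonneg _))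

theorem hs_mul_hs_le_nn (hτ : 0 < τ) (A : Matrix ι ι ℝ) :
    hs A ^ 2 * hs (A * diagonal w) ^ 2 ≤ τ * nn w τ A ^ 4 := by
  have h0 := Real.sqrt_pos.2 hτ
  have h1 : hs (A * diagonal w) / √τ ≤ nn w τ A := le_add_of_nonneg_left (hs_nonneg _)
  rw [div_le_iff₀ h0] at h1
  have h2 := pow_le_pow_left₀ (hs_nonneg _) h1 2
  rw [mul_pow, Real.sq_sqrt hτ.le] at h2
  have h3 := pow_le_pow_left₀ (hs_nonneg _) (hs_le_nn w τ A) 2
  calc _ ≤ nn w τ A ^ 2 * (nn w τ A ^ 2 * τ) :=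
        mul_le_mul h3 h2 (sq_nonneg _) (sq_nonneg _)
    _ = _ := by ring

end nn

/-- a sum of nonnegative terms over a union is at most the sum of the sums -/
theorem sum_biUnion_le_of_nonneg {α β : Type*} [DecidableEq β] (s : Finset α) (t : α → Finset β)
    (g : β → ℝ) (hg : ∀ b, 0 ≤ g b) :
    ∑ b ∈ s.biUnion t, g b ≤ ∑ a ∈ s, ∑ b ∈ t a, g b := by
  classical
  induction s using Finset.induction_on with
  | empty => simp
  | insert a s ha ih =>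
    rw [biUnion_insert, sum_insert ha]
    have := sum_union_inter (s₁ := t a) (s₂ := s.biUnion t) (f := g)
    have h2 : 0 ≤ ∑ b ∈ t a ∩ s.biUnion t, g b := sum_nonneg fun b _ => hg b
    linarith

end Crest.Agent.R239
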