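import Crest.Agent.R239.Basic

/-!
Row 239: abstract multi-scale chaining (one level).

Plan.  `ε j = 256⁻¹ ^ j`.  First passage time `σ a = Nat.find/sInf {k | a ≤ m k}` (used only for
`a ≤ m T`), `π j t = σ (ε j * ⌊m t / ε j⌋₊)`.  Then `π j t ≤ π (j+1) t ≤ t`, and
`m t - m (π j t) < ε j`, so `n (F u - F (π j t)) ≤ 22 / 16^j` for `π j t ≤ u ≤ t`.
`⌊m t / ε j⌋₊ = ⌊m t / ε (j+1)⌋₊ / 256` (`Nat.floor_div_natCast`).
Choose `J` (eventually in `j`, finitely many conditions) with `ε J < m t - m s` whenever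
`s, t ≤ T`, `m s < m t`, and `16⁻¹ ^ J < n (F t)` whenever `t ≤ T`, `0 < n (F t)`; then
`F (π J t) = F t` by `hz`.
Every operator `Δ` used at scale `j` gets the threshold `θ j Δ = 2⁻¹ ^ j + 8 ^ j * n Δ`, so
`(n Δ / θ) ^ 4 ≤ 4096⁻¹ ^ j`.  Operators at scale `j ≤ J`: the bases `F (σ (ε j * l))`,
`1 ≤ l ≤ ⌊m T / ε j⌋₊`, and the increments `F (σ (ε (j+1) * l)) - F (σ (ε j * (l / 256)))`,
`1 ≤ l ≤ ⌊m T / ε (j+1)⌋₊`: at most `257 * 256 ^ j * m T` of them, total cost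
`≤ 257 * (16/15) * m T` (`sum_biUnion_le_of_nonneg`, `Finset.sum_image_le_of_nonneg` or
`card_image_le`).  For `l = 0` the operator is `F 0 = 0` (`σ 0 = 0`), where `e 0 = 0`.
For every `j₀ ≤ J` (downward induction / telescoping from `j₀` to `J`):
`e (F t) ≤ 8 ^ j₀ * n (F t) + 69 / 2 ^ j₀`.  If `n (F t) = 0` then `F t = 0`; if `n (F t) ≥ 1` take
`j₀ = 0`; otherwise `16⁻¹ ^ (j₀+1) < n (F t) ≤ 16⁻¹ ^ j₀` (`exists_nat_pow_near_of_lt_one`), and then
`8 ^ j₀ * n ≤ 2⁻¹ ^ j₀ ≤ 2 * √√n`.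
-/

set_option autoImplicit false

namespace Crest.Agent.R239

open Matrix Finset

theorem chain_cost {G : Type} [DecidableEq G] (n : G → ℝ) (hn0 : ∀ a, 0 ≤ n a)
    (A : ℕ → Finset G) (M : ℝ) (hM : 0 ≤ M)
    (hA : ∀ j, ((A j).card : ℝ) ≤ 257 * 256 ^ j * M) (J : ℕ) :
    ∑ c ∈ (range J).biUnion (fun j => (A j).image fun Δ => (Δ, (2 : ℝ)⁻¹ ^ j + 8 ^ j * n Δ)),
      (n c.1 / c.2) ^ 4 ≤ 300 * M := by
  classical
  refine (sum_biUnion_le_of_nonneg _ _ _ fun c => by positivity).trans ?_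
  have h1 : ∀ j, ∑ c ∈ (A j).image (fun Δ => (Δ, (2 : ℝ)⁻¹ ^ j + 8 ^ j * n Δ)),
      (n c.1 / c.2) ^ 4 ≤ 257 * M * (16 : ℝ)⁻¹ ^ j := by
    intro j
    have h2 : ∀ c ∈ (A j).image (fun Δ => (Δ, (2 : ℝ)⁻¹ ^ j + 8 ^ j * n Δ)),
        (n c.1 / c.2) ^ 4 ≤ (4096 : ℝ)⁻¹ ^ j := by
      intro c hc
      obtain ⟨Δ, -, rfl⟩ := mem_image.1 hc
      have h0 := hn0 Δ
      have h3 : n Δ / ((2 : ℝ)⁻¹ ^ j + 8 ^ j * n Δ) ≤ (8 : ℝ)⁻¹ ^ j := by
        rw [div_le_iff₀ (by positivity), mul_add, ← mul_assoc, ← mul_pow _ (8 : ℝ),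
          inv_mul_cancel₀ (by norm_num), one_pow, one_mul]
        exact le_add_of_nonneg_left (by positivity)
      calc _ ≤ ((8 : ℝ)⁻¹ ^ j) ^ 4 := pow_le_pow_left₀ (by positivity) h3 4
        _ = _ := by rw [← pow_mul, mul_comm, pow_mul]; norm_num
    refine (sum_le_card_nsmul _ _ _ h2).trans ?_
    rw [nsmul_eq_mul]
    have h4 : (((A j).image (fun Δ => (Δ, (2 : ℝ)⁻¹ ^ j + 8 ^ j * n Δ))).card : ℝ) ≤
        257 * 256 ^ j * M := le_trans (by exact_mod_cast card_image_le) (hA j)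
    refine (mul_le_mul_of_nonneg_right h4 (by positivity)).trans (le_of_eq ?_)
    have : (256 : ℝ) ^ j * 4096⁻¹ ^ j = 16⁻¹ ^ j := by rw [← mul_pow]; norm_num
    rw [← this]; ring
  refine (sum_le_sum fun j _ => h1 j).trans ?_
  rw [← mul_sum]
  have h5 : ∑ j ∈ range J, (16 : ℝ)⁻¹ ^ j ≤ 16 / 15 - 16 / 15 * 16⁻¹ ^ J := by
    induction J with
    | zero => simp
    | succ J ih => rw [sum_range_succ, pow_succ]; linarith
  have h6 : (0 : ℝ) ≤ 16⁻¹ ^ J := by positivity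
  nlinarith

theorem chain_near {d : ℝ} {j : ℕ} (h0 : 0 ≤ d) (h : 256 ^ j * d < 1) :
    11 * (√d + d) ≤ 22 * (16 : ℝ)⁻¹ ^ j := by
  have hx : (0 : ℝ) < 16⁻¹ ^ j := by positivity
  have hx1 : (16 : ℝ)⁻¹ ^ j ≤ 1 := pow_le_one₀ (by norm_num) (by norm_num)
  have h1 : (256 : ℝ) ^ j * ((16 : ℝ)⁻¹ ^ j) ^ 2 = 1 := by
    rw [← pow_mul, mul_comm j 2, pow_mul, ← mul_pow]; norm_num
  have h2 : d ≤ ((16 : ℝ)⁻¹ ^ j) ^ 2 := by
    have h3 : (0 : ℝ) < 256 ^ j := by positivity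
    exact le_of_mul_le_mul_left (by linarith) h3
  have h4 : √d ≤ (16 : ℝ)⁻¹ ^ j := Real.sqrt_le_iff.2 ⟨hx.le, h2⟩
  nlinarith

theorem chain_final {x y : ℝ} {J : ℕ} (hx : 0 < x) (hJ : (16 : ℝ)⁻¹ ^ J < x)
    (h : ∀ j, j ≤ J → y ≤ 8 ^ j * x + 73 * (2 : ℝ)⁻¹ ^ j) : y ≤ 200 * (x + √(√x)) := by
  have hs : 0 ≤ √(√x) := Real.sqrt_nonneg _
  rcases le_total 1 x with h1 | h1
  · have := h 0 (Nat.zero_le _)
    simp only [pow_zero] at this
    linarith
  · obtain ⟨j, hj1, hj2⟩ := exists_nat_pow_near_of_lt_one hx h1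
      (show (0 : ℝ) < 16⁻¹ by norm_num) (by norm_num)
    have hjJ : j ≤ J := by
      by_contra hc
      have : (16 : ℝ)⁻¹ ^ j ≤ 16⁻¹ ^ J :=
        pow_le_pow_of_le_one (by norm_num) (by norm_num) (by omega)
      linarith
    have h2 := h j hjJ
    have h3 : (8 : ℝ) ^ j * x ≤ 2⁻¹ ^ j := by
      have : (8 : ℝ) ^ j * 16⁻¹ ^ j = 2⁻¹ ^ j := by rw [← mul_pow]; norm_num
      rw [← this]
      exact mul_le_mul_of_nonneg_left hj2 (by positivity)
    have h4 : (2 : ℝ)⁻¹ ^ (j + 1) ≤ √(√x) := by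
      refine Real.le_sqrt_of_sq_le (Real.le_sqrt_of_sq_le ?_)
      refine le_trans (le_of_eq ?_) hj1.le
      rw [← pow_mul, ← pow_mul, mul_comm (j + 1), pow_mul]
      norm_num
    rw [pow_succ] at h4
    linarith

theorem chain {G : Type} [AddCommGroup G] (n : G → ℝ) (hn0 : ∀ a, 0 ≤ n a)
    (hadd : ∀ a b, n (a + b) ≤ n a + n b) (hneg : ∀ a, n (-a) = n a) (hz : ∀ a, n a = 0 → a = 0)
    (F : ℕ → G) (hF0 : F 0 = 0) (T : ℕ) (m : ℕ → ℝ) (hm0 : m 0 = 0) (hmono : Monotone m)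
    (hinc : ∀ s t, s ≤ t → t ≤ T → n (F t - F s) ≤ 11 * (√(m t - m s) + (m t - m s))) :
    ∃ S : Finset (G × ℝ), (∀ c ∈ S, 0 < c.2 ∧ n c.1 ≤ c.2) ∧
      ∑ c ∈ S, (n c.1 / c.2) ^ 4 ≤ 300 * m T ∧
      ∀ e : G → ℝ, e 0 = 0 → (∀ a b, e (a + b) ≤ e a + e b) → (∀ c ∈ S, e c.1 ≤ c.2) →
        ∀ t, t ≤ T → e (F t) ≤ 200 * (n (F t) + √(√(n (F t)))) := by
  classical
  have hm : ∀ t, 0 ≤ m t := fun t => hm0 ▸ hmono (Nat.zero_le t)
  set L : ℕ → ℕ → ℕ := fun j t => ⌊(256 : ℝ) ^ j * m t⌋₊ with hL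
  set p : ℕ → ℕ → ℕ := fun j l => sInf {k | (l : ℝ) ≤ 256 ^ j * m k} with hp
  have hLle : ∀ j t, (L j t : ℝ) ≤ 256 ^ j * m t := fun j t =>
    Nat.floor_le (mul_nonneg (by positivity) (hm t))
  have hLmono : ∀ j t, t ≤ T → L j t ≤ L j T := fun j t ht =>
    Nat.floor_le_floor (mul_le_mul_of_nonneg_left (hmono ht) (by positivity))
  have hLdiv : ∀ j t, L (j + 1) t / 256 = L j t := by
    intro j t
    have := Nat.floor_div_natCast ((256 : ℝ) ^ (j + 1) * m t) 256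
    rw [hL]
    simp only
    rw [← this]
    congr 1
    push_cast
    rw [pow_succ]
    field_simp
  have hp0 : ∀ j, p j 0 = 0 := fun j =>
    Nat.eq_zero_of_le_zero (Nat.sInf_le (by simp [hm0]))
  have hple : ∀ j t, p j (L j t) ≤ t := fun j t => Nat.sInf_le (hLle j t)
  have hplt : ∀ j t, 256 ^ j * (m t - m (p j (L j t))) < 1 := by
    intro j t
    have h1 : (L j t : ℝ) ≤ 256 ^ j * m (p j (L j t)) :=
      Nat.sInf_mem (s := {k | (L j t : ℝ) ≤ 256 ^ j * m k}) ⟨t, hLle j t⟩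
    have h2 : (256 : ℝ) ^ j * m t < L j t + 1 := Nat.lt_floor_add_one _
    linarith
  have hnear : ∀ j t, t ≤ T → n (F t - F (p j (L j t))) ≤ 22 * (16 : ℝ)⁻¹ ^ j := fun j t ht =>
    (hinc _ _ (hple j t) ht).trans
      (chain_near (sub_nonneg.2 (hmono (hple j t))) (hplt j t))
  obtain ⟨J, hJ⟩ : ∃ J : ℕ, ∀ t ∈ range (T + 1),
      (∀ s ∈ range (T + 1), m s < m t → 1 < 256 ^ J * (m t - m s)) ∧
        (0 < n (F t) → (16 : ℝ)⁻¹ ^ J < n (F t)) := by
    refine Filter.Eventually.exists (f := Filter.atTop) ?_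
    refine (Filter.eventually_all_finset _).2 fun t _ => Filter.Eventually.and ?_ ?_
    · refine (Filter.eventually_all_finset _).2 fun s _ => ?_
      by_cases h : m s < m t
      · have := ((tendsto_pow_atTop_atTop_of_one_lt (show (1 : ℝ) < 256 by norm_num)).atTop_mul_const
          (sub_pos.2 h)).eventually_gt_atTop 1
        exact this.mono fun j hj _ => hj
      · exact Filter.Eventually.of_forall fun j hj => absurd hj h
    · by_cases h : 0 < n (F t)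
      · have := (tendsto_pow_atTop_nhds_zero_of_lt_one (show (0 : ℝ) ≤ 16⁻¹ by norm_num)
          (by norm_num)).eventually (gt_mem_nhds h)
        exact this.mono fun j hj _ => hj
      · exact Filter.Eventually.of_forall fun j hj => absurd hj h
  have hend : ∀ t, t ≤ T → F (p J (L J t)) = F t := by
    intro t ht
    have h1 := hple J t
    have h2 : m t - m (p J (L J t)) = 0 := by
      rcases (hmono h1).eq_or_lt with h | h
      · rw [h, sub_self]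
      · have := (hJ t (mem_range.2 (by omega))).1 _ (mem_range.2 (by omega)) h
        have := hplt J t
        linarith
    have h3 := hinc _ _ h1 ht
    rw [h2] at h3
    simp only [Real.sqrt_zero, add_zero, mul_zero] at h3
    exact (sub_eq_zero.1 (hz _ (le_antisymm h3 (hn0 _)))).symm
  set A : ℕ → Finset G := fun j => (Icc 1 (L j T)).image (fun l => F (p j l)) ∪
    (Icc 1 (L (j + 1) T)).image (fun l => F (p (j + 1) l) - F (p j (l / 256))) with hA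
  have hcard : ∀ j, ((A j).card : ℝ) ≤ 257 * 256 ^ j * m T := by
    intro j
    have h1 : (A j).card ≤ L j T + L (j + 1) T := by
      refine (card_union_le _ _).trans (add_le_add ?_ ?_) <;>
        exact card_image_le.trans (by simp)
    have h2 : ((A j).card : ℝ) ≤ L j T + L (j + 1) T := by exact_mod_cast h1
    have h3 := hLle j T
    have h4 := hLle (j + 1) T
    rw [pow_succ] at h4
    linarith
  refine ⟨(range (J + 1)).biUnion (fun j => (A j).image fun Δ =>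
    (Δ, (2 : ℝ)⁻¹ ^ j + 8 ^ j * n Δ)), ?_, chain_cost n hn0 A _ (hm T) hcard _, ?_⟩
  · intro c hc
    obtain ⟨j, -, hc⟩ := mem_biUnion.1 hc
    obtain ⟨Δ, -, rfl⟩ := mem_image.1 hc
    have h0 := hn0 Δ
    refine ⟨by positivity, ?_⟩
    have h1 : (1 : ℝ) ≤ 8 ^ j := one_le_pow₀ (by norm_num)
    have h2 : (0 : ℝ) ≤ 2⁻¹ ^ j := by positivity
    nlinarith
  intro e he0 headd hS t ht
  have hS' : ∀ j, j ≤ J → ∀ Δ, (Δ ∈ A j ∨ Δ = 0) → e Δ ≤ (2 : ℝ)⁻¹ ^ j + 8 ^ j * n Δ := by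
    rintro j hj Δ (h | rfl)
    · exact hS (Δ, _) (mem_biUnion.2 ⟨j, mem_range.2 (by omega), mem_image.2 ⟨Δ, h, rfl⟩⟩)
    · have := hn0 0
      rw [he0]
      positivity
  have h816 : ∀ j : ℕ, (8 : ℝ) ^ j * 16⁻¹ ^ j = 2⁻¹ ^ j := fun j => by
    rw [← mul_pow]; norm_num
  have hbase : ∀ j, j ≤ J → e (F (p j (L j t))) ≤ 8 ^ j * n (F t) + 23 * (2 : ℝ)⁻¹ ^ j := by
    intro j hj
    have h1 := hS' j hj (F (p j (L j t))) (by
      rcases Nat.eq_zero_or_pos (L j t) with h | h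
      · right; rw [h, hp0, hF0]
      · left
        exact mem_union_left _ (mem_image.2 ⟨_, mem_Icc.2 ⟨h, hLmono j t ht⟩, rfl⟩))
    have h2 : n (F (p j (L j t))) ≤ n (F t) + 22 * (16 : ℝ)⁻¹ ^ j := by
      have h3 := hadd (F t) (-(F t - F (p j (L j t))))
      rw [hneg] at h3
      have h4 := hnear j t ht
      have h5 : F t + -(F t - F (p j (L j t))) = F (p j (L j t)) := by abel
      rw [h5] at h3
      linarith
    have h6 := mul_le_mul_of_nonneg_left h2 (show (0 : ℝ) ≤ 8 ^ j by positivity)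
    have h7 := h816 j
    nlinarith
  have hstep : ∀ j, j ≤ J →
      e (F (p (j + 1) (L (j + 1) t)) - F (p j (L j t))) ≤ 25 * (2 : ℝ)⁻¹ ^ j := by
    intro j hj
    have h1 := hS' j hj (F (p (j + 1) (L (j + 1) t)) - F (p j (L j t))) (by
      rw [← hLdiv j t]
      rcases Nat.eq_zero_or_pos (L (j + 1) t) with h | h
      · right; rw [h, Nat.zero_div, hp0, hp0, sub_self]
      · left
        exact mem_union_right _ (mem_image.2 ⟨_, mem_Icc.2 ⟨h, hLmono (j + 1) t ht⟩, rfl⟩))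
    have h2 : n (F (p (j + 1) (L (j + 1) t)) - F (p j (L j t))) ≤ 24 * (16 : ℝ)⁻¹ ^ j := by
      have h3 := hadd (F t - F (p j (L j t))) (-(F t - F (p (j + 1) (L (j + 1) t))))
      rw [hneg] at h3
      have h4 := hnear j t ht
      have h4' := hnear (j + 1) t ht
      have h5 : F t - F (p j (L j t)) + -(F t - F (p (j + 1) (L (j + 1) t))) =
          F (p (j + 1) (L (j + 1) t)) - F (p j (L j t)) := by abel
      rw [h5] at h3
      rw [pow_succ] at h4'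
      have : (0 : ℝ) ≤ 16⁻¹ ^ j := by positivity
      linarith
    have h6 := mul_le_mul_of_nonneg_left h2 (show (0 : ℝ) ≤ 8 ^ j by positivity)
    have h7 := h816 j
    nlinarith
  have htel : ∀ j k, j ≤ k → k ≤ J → e (F (p k (L k t))) ≤
      e (F (p j (L j t))) + 50 * (2 : ℝ)⁻¹ ^ j - 50 * (2 : ℝ)⁻¹ ^ k := by
    intro j k hjk
    induction k, hjk using Nat.le_induction with
    | base => intro _; linarith
    | succ k hjk ih =>
      intro hk
      have h1 := ih (by omega)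
      have h2 := hstep k (by omega)
      have h3 := headd (F (p k (L k t))) (F (p (k + 1) (L (k + 1) t)) - F (p k (L k t)))
      rw [add_sub_cancel] at h3
      rw [pow_succ]
      linarith
  rcases (hn0 (F t)).eq_or_lt with h0 | h0
  · rw [← h0, hz _ h0.symm, he0]
    simp
  · refine chain_final h0 ((hJ t (mem_range.2 (by omega))).2 h0) fun j hj => ?_
    have h1 := htel j J hj le_rfl
    rw [hend t ht] at h1
    have h2 := hbase j hj
    have h3 : (0 : ℝ) ≤ 2⁻¹ ^ J := by positivity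
    linarith

end Crest.Agent.R239
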