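import Crest.Agent.R239.Basic

/-!
Row 239: pointwise inequalities for the cut-off `chi y = (1 - |y|⁴)₊`.

Put `p = y ⬝ y`, `q = k ⬝ k`, `s = y ⬝ k`, `s² ≤ p q`, `A = |y+k|² = p + q + 2 s`, `B = p + q - 2 s`.
`chi_mid`: if both factors are positive, `(1 - A²)(1 - B²) ≤ (1 - (A² + B²)/2)² ≤ (1 - p²)²` as
`(A² + B²)/2 = (p + q)² + 4 s² ≥ p²`.
`chi_defect`: if `A, B ≤ 1` then `p + q ≤ 1` and with `u = 1 - p²`, `v = 1 - (A² + B²)/2`,
`d = (A² - B²)/2 = 4 s (p + q)`: `u² - (v² - d²) = (u - v)(u + v) + d² ≤ 2 (2 p q + q² + 4 s²) + 16 s²`.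
If `A > 1` (or `B > 1`) it suffices to bound `chi y ^ 2`; for `p < 1`,
`1 - p² ≤ 2 (1 - p) ≤ 2 (q + 2 |s|)`, so `chi² ≤ 8 q² + 32 s²`.
`prod_defect`: induction on the finset.
-/

set_option autoImplicit false

namespace Crest.Agent.R239

open Matrix Finset

variable {ι : Type} [Fintype ι]

theorem chi_mid_aux {p A B : ℝ} (h : p ^ 2 ≤ (A ^ 2 + B ^ 2) / 2) :
    max (1 - A ^ 2) 0 * max (1 - B ^ 2) 0 ≤ max (1 - p ^ 2) 0 ^ 2 := by
  rcases le_total (1 - A ^ 2) 0 with ha | ha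
  · rw [max_eq_right ha, zero_mul]; positivity
  rcases le_total (1 - B ^ 2) 0 with hb | hb
  · rw [max_eq_right hb, mul_zero]; positivity
  rw [max_eq_left ha, max_eq_left hb]
  have h1 : ((1 - A ^ 2) + (1 - B ^ 2)) / 2 ≤ max (1 - p ^ 2) 0 :=
    le_trans (by linarith) (le_max_left _ _)
  have h2 := pow_le_pow_left₀ (by linarith) h1 2
  nlinarith [sq_nonneg ((1 - A ^ 2) - (1 - B ^ 2))]

theorem chi_defect_far {p q s : ℝ} (hp : 0 ≤ p) (hq : 0 ≤ q) (hs : s ^ 2 ≤ p * q)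
    (h : 1 ≤ p + q + 2 * s) : max (1 - p ^ 2) 0 ^ 2 ≤ 32 * p * q + 8 * q ^ 2 := by
  rcases le_total (1 - p ^ 2) 0 with ha | ha
  · rw [max_eq_right ha]
    have : 0 ≤ p * q := mul_nonneg hp hq
    nlinarith [sq_nonneg q]
  rw [max_eq_left ha]
  have hp1 : p ≤ 1 := by nlinarith
  have h1 : 1 - p ^ 2 ≤ 2 * (q + 2 * s) := by nlinarith
  have h2 := pow_le_pow_left₀ ha h1 2
  nlinarith [sq_nonneg (q - 2 * s)]

theorem chi_defect_aux {p q s : ℝ} (hp : 0 ≤ p) (hq : 0 ≤ q) (hs : s ^ 2 ≤ p * q)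
    (hA : 0 ≤ p + q + 2 * s) (hB : 0 ≤ p + q - 2 * s) :
    max (1 - p ^ 2) 0 ^ 2 - max (1 - (p + q + 2 * s) ^ 2) 0 * max (1 - (p + q - 2 * s) ^ 2) 0
      ≤ 32 * p * q + 8 * q ^ 2 := by
  have h0 : 0 ≤ max (1 - (p + q + 2 * s) ^ 2) 0 * max (1 - (p + q - 2 * s) ^ 2) 0 :=
    mul_nonneg (le_max_right _ _) (le_max_right _ _)
  rcases le_total 1 (p + q + 2 * s) with ha | ha
  · linarith [chi_defect_far hp hq hs ha]
  rcases le_total 1 (p + q - 2 * s) with hb | hb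
  · have := chi_defect_far (s := -s) hp hq (by rwa [neg_sq]) (by linarith)
    linarith
  have hpq : p + q ≤ 1 := by linarith
  rw [max_eq_left (by nlinarith), max_eq_left (by nlinarith), max_eq_left (by nlinarith)]
  have hpq0 : 0 ≤ p * q := mul_nonneg hp hq
  have h1 : (1 - p ^ 2) ^ 2 - (1 - (p + q + 2 * s) ^ 2) * (1 - (p + q - 2 * s) ^ 2) =
      (2 * (p * q) + q ^ 2 + 4 * s ^ 2) * (2 - p ^ 2 - (p + q) ^ 2 - 4 * s ^ 2)
        + 16 * s ^ 2 * (p + q) ^ 2 := by ring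
  have h2 : (2 * (p * q) + q ^ 2 + 4 * s ^ 2) * (2 - p ^ 2 - (p + q) ^ 2 - 4 * s ^ 2) ≤
      (2 * (p * q) + q ^ 2 + 4 * s ^ 2) * 2 :=
    mul_le_mul_of_nonneg_left (by nlinarith [sq_nonneg p, sq_nonneg (p + q), sq_nonneg s])
      (by positivity)
  have h3 : 16 * s ^ 2 * (p + q) ^ 2 ≤ 16 * s ^ 2 * 1 :=
    mul_le_mul_of_nonneg_left (pow_le_one₀ (by positivity) hpq) (by positivity)
  nlinarith [sq_nonneg q]

theorem chi_dot_add (y k : ι → ℝ) :
    (y + k) ⬝ᵥ (y + k) = y ⬝ᵥ y + k ⬝ᵥ k + 2 * (y ⬝ᵥ k) := by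
  rw [add_dotProduct, dotProduct_add, dotProduct_add, dotProduct_comm k y]; ring

theorem chi_dot_sub (y k : ι → ℝ) :
    (y - k) ⬝ᵥ (y - k) = y ⬝ᵥ y + k ⬝ᵥ k - 2 * (y ⬝ᵥ k) := by
  rw [sub_dotProduct, dotProduct_sub, dotProduct_sub, dotProduct_comm k y]; ring

theorem chi_nonneg (y : ι → ℝ) : 0 ≤ chi y := by
  exact le_max_right _ _

theorem chi_le_one (y : ι → ℝ) : chi y ≤ 1 := by
  exact max_le (by nlinarith [sq_nonneg (y ⬝ᵥ y)]) zero_le_one

theorem chi_zero : chi (0 : ι → ℝ) = 1 := by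
  simp [chi]

theorem chi_neg (y : ι → ℝ) : chi (-y) = chi y := by
  simp [chi]

theorem continuous_chi : Continuous (chi : (ι → ℝ) → ℝ) := by
  unfold chi dotProduct
  fun_prop

theorem nrm_le_one_of_chi {y : ι → ℝ} (h : chi y ≠ 0) : nrm y ≤ 1 := by
  rw [nrm, Real.sqrt_le_one]
  by_contra hc
  push Not at hc
  exact h (max_eq_right (by nlinarith))

theorem chi_sq_ge (y : ι → ℝ) : 1 - 2 * (y ⬝ᵥ y) ≤ chi y ^ 2 := by
  have h0 := dot_self_nonneg y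
  rcases le_total (y ⬝ᵥ y) 1 with h | h
  · rw [chi, max_eq_left (by nlinarith)]
    nlinarith [sq_nonneg ((y ⬝ᵥ y) ^ 2)]
  · nlinarith [sq_nonneg (chi y)]

theorem chi_mid (y k : ι → ℝ) : chi (y + k) * chi (y - k) ≤ chi y ^ 2 := by
  unfold chi
  refine chi_mid_aux ?_
  rw [chi_dot_add, chi_dot_sub]
  have h1 := dot_self_nonneg y
  have h2 := dot_self_nonneg k
  nlinarith [sq_nonneg (y ⬝ᵥ k), mul_nonneg h1 h2, sq_nonneg (k ⬝ᵥ k)]

theorem chi_defect (y k : ι → ℝ) :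
    chi y ^ 2 - chi (y + k) * chi (y - k) ≤ 32 * (y ⬝ᵥ y) * (k ⬝ᵥ k) + 8 * (k ⬝ᵥ k) ^ 2 := by
  unfold chi
  have h1 := dot_self_nonneg (y + k)
  have h2 := dot_self_nonneg (y - k)
  rw [chi_dot_add] at h1 ⊢
  rw [chi_dot_sub] at h2 ⊢
  exact chi_defect_aux (dot_self_nonneg y) (dot_self_nonneg k) (dot_sq_le y k) h1 h2

theorem prod_defect {α : Type*} [DecidableEq α] (s : Finset α) (a b : α → ℝ)
    (hb : ∀ c ∈ s, 0 ≤ b c) (hab : ∀ c ∈ s, b c ≤ a c) :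
    ∏ c ∈ s, a c - ∏ c ∈ s, b c ≤ ∑ c ∈ s, (a c - b c) * ∏ c' ∈ s.erase c, a c' := by
  induction s using Finset.induction_on with
  | empty => simp
  | insert x s hx ih =>
    have ih' := ih (fun c hc => hb c (mem_insert_of_mem hc))
      (fun c hc => hab c (mem_insert_of_mem hc))
    have hbx := hb x (mem_insert_self _ _)
    have habx := hab x (mem_insert_self _ _)
    rw [prod_insert hx, prod_insert hx, sum_insert hx, erase_insert hx]
    have h1 : ∑ c ∈ s, (a c - b c) * ∏ c' ∈ (insert x s).erase c, a c' =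
        a x * ∑ c ∈ s, (a c - b c) * ∏ c' ∈ s.erase c, a c' := by
      rw [mul_sum]
      refine sum_congr rfl fun c hc => ?_
      have hne : x ≠ c := fun h => hx (h ▸ hc)
      rw [erase_insert_of_ne hne, prod_insert (fun h => hx (mem_of_mem_erase h))]
      ring
    have h2 : ∏ c ∈ s, b c ≤ ∏ c ∈ s, a c :=
      prod_le_prod (fun c hc => hb c (mem_insert_of_mem hc))
        (fun c hc => hab c (mem_insert_of_mem hc))
    have h3 := mul_le_mul_of_nonneg_left ih' (hbx.trans habx)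
    have h4 := mul_le_mul_of_nonneg_left h2 (sub_nonneg.2 habx)
    rw [h1]
    linarith

theorem abs_sq_sub_sq_le (a b : ℝ) : |a ^ 2 - b ^ 2| ≤ 6 * (a - b) ^ 2 + (a ^ 2 + b ^ 2) / 12 := by
  rw [abs_le]
  constructor <;>
    nlinarith [sq_nonneg (12 * (a - b) - (a + b)), sq_nonneg (12 * (a - b) + (a + b)),
      sq_nonneg (a - b)]

theorem Wt.one : Wt (fun _ : ι → ℝ => (1 : ℝ)) := by
  exact ⟨continuous_const, fun _ => zero_le_one, fun _ => le_rfl, fun _ => rfl, fun _ _ => by simp⟩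

theorem Wt.mul {Φ Ψ : (ι → ℝ) → ℝ} (h1 : Wt Φ) (h2 : Wt Ψ) : Wt (fun x => Φ x * Ψ x) := by
  refine ⟨h1.cont.mul h2.cont, fun x => mul_nonneg (h1.nonneg x) (h2.nonneg x),
    fun x => mul_le_one₀ (h1.le_one x) (h2.nonneg x) (h2.le_one x),
    fun x => by rw [h1.even, h2.even], fun x k => ?_⟩
  have := mul_le_mul (h1.mid x k) (h2.mid x k) (mul_nonneg (h2.nonneg _) (h2.nonneg _))
    (sq_nonneg _)
  calc _ = Φ (x + k) * Φ (x - k) * (Ψ (x + k) * Ψ (x - k)) := by ring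
    _ ≤ _ := this
    _ = _ := by ring

theorem Wt.prod {α : Type*} (s : Finset α) (Φ : α → (ι → ℝ) → ℝ) (h : ∀ c ∈ s, Wt (Φ c)) :
    Wt (fun x => ∏ c ∈ s, Φ c x) := by
  classical
  induction s using Finset.induction_on with
  | empty => simpa using Wt.one
  | insert a s ha ih =>
    simp only [prod_insert ha]
    exact (h a (mem_insert_self _ _)).mul (ih fun c hc => h c (mem_insert_of_mem hc))

theorem wt_chi (A : Matrix ι ι ℝ) (r : ℝ) : Wt (fun x => chi (r • (A *ᵥ x))) := by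
  refine ⟨continuous_chi.comp ?_, fun _ => chi_nonneg _, fun _ => chi_le_one _, fun x => ?_,
    fun x k => ?_⟩
  · exact (Continuous.matrix_mulVec continuous_const continuous_id).const_smul r
  · rw [mulVec_neg, smul_neg, chi_neg]
  · rw [mulVec_add, mulVec_sub, smul_add, smul_sub]
    exact chi_mid _ _

end Crest.Agent.R239
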