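import Mathlib

/-!
Row 239 (S0370, prefix discrepancy `C √d`): definitions.

All vectors are plain functions `ι → ℝ` (Lebesgue measure `volume`), `nrm` is the Euclidean norm,
`hs` the Hilbert-Schmidt norm.  `w` is the vector of square roots of the column weights,
`D = diagonal w`; for an orthogonal projection `P` put `Cm = D P D`, `Rm σ = (Cm + σ)⁻¹`,
`Gm σ = P D (Rm σ) D P`, and the level operator `Fm τ = Gm (τ/16) - Gm τ`.
-/

set_option autoImplicit false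

namespace Crest.Agent.R239

open Matrix Finset

/-- Euclidean norm of a coordinate vector. -/
noncomputable def nrm {ι : Type} [Fintype ι] (x : ι → ℝ) : ℝ := √(x ⬝ᵥ x)

/-- Hilbert-Schmidt norm of a matrix. -/
noncomputable def hs {ι κ : Type} [Fintype ι] [Fintype κ] (A : Matrix ι κ ℝ) : ℝ :=
  √(∑ i, ∑ j, A i j ^ 2)

/-- `b k`, `k ∈ S`, is a Bessel family with bound `β`. -/
def Bessel {ι : Type} [Fintype ι] (S : Finset ℕ) (b : ℕ → ι → ℝ) (β : ℝ) : Prop :=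
  ∀ y : ι → ℝ, ∑ k ∈ S, (b k ⬝ᵥ y) ^ 2 ≤ β * (y ⬝ᵥ y)

/-- orthogonal projections -/
structure IsProj {ι : Type} [Fintype ι] (P : Matrix ι ι ℝ) : Prop where
  symm : Pᵀ = P
  idem : P * P = P

/-- symmetric positive semidefinite real matrices -/
structure PSD {ι : Type} [Fintype ι] (S : Matrix ι ι ℝ) : Prop where
  symm : Sᵀ = S
  nonneg : ∀ x : ι → ℝ, 0 ≤ x ⬝ᵥ (S *ᵥ x)

section
variable {ι : Type} [Fintype ι] [DecidableEq ι]

/-- resolvent `(S + σ)⁻¹` -/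
noncomputable def Res (S : Matrix ι ι ℝ) (σ : ℝ) : Matrix ι ι ℝ := (S + σ • (1 : Matrix ι ι ℝ))⁻¹

noncomputable def Cm (w : ι → ℝ) (P : Matrix ι ι ℝ) : Matrix ι ι ℝ := diagonal w * P * diagonal w

noncomputable def Rm (w : ι → ℝ) (σ : ℝ) (P : Matrix ι ι ℝ) : Matrix ι ι ℝ := Res (Cm w P) σ

/-- `Aᵀ R` with `A = D P` -/
noncomputable def Wm (w : ι → ℝ) (σ : ℝ) (P : Matrix ι ι ℝ) : Matrix ι ι ℝ :=
  P * diagonal w * Rm w σ P

noncomputable def Gm (w : ι → ℝ) (σ : ℝ) (P : Matrix ι ι ℝ) : Matrix ι ι ℝ :=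
  Wm w σ P * diagonal w * P

/-- the level operator -/
noncomputable def Fm (w : ι → ℝ) (τ : ℝ) (P : Matrix ι ι ℝ) : Matrix ι ι ℝ :=
  Gm w (τ / 16) P - Gm w τ P

/-- the norm used at level `τ` -/
noncomputable def nn (w : ι → ℝ) (τ : ℝ) (Δ : Matrix ι ι ℝ) : ℝ :=
  hs Δ + hs (Δ * diagonal w) / √τ

end

/-- the scalar profile of the level operator -/
noncomputable def phi (τ l : ℝ) : ℝ := l / (l + τ / 16) - l / (l + τ)

/-- the levels `16, 1, 1/16, ...` -/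
noncomputable def lev (q : ℕ) : ℝ := 16 / 16 ^ q

/-- mass at level `τ` of the step `P ↦ Ps = P + e eᵀ ↦ Pn = Ps - h hᵀ`; `α = |D e|²`, `z = D h`. -/
noncomputable def mu {ι : Type} [Fintype ι] [DecidableEq ι] (w : ι → ℝ) (τ : ℝ)
    (Ps Pn : Matrix ι ι ℝ) (α : ℝ) (z : ι → ℝ) : ℝ :=
  phi τ α ^ 2 * (1 + α / τ)
    + nrm (τ • (Rm w τ Ps *ᵥ z) - (τ / 16) • (Rm w (τ / 16) Ps *ᵥ z)) ^ 2 / τ
    + nrm (Wm w τ Ps *ᵥ z) ^ 2 + nrm (Wm w (τ / 16) Ps *ᵥ z) ^ 2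
    + nrm (Wm w τ Pn *ᵥ z) ^ 2 + nrm (Wm w (τ / 16) Pn *ᵥ z) ^ 2

/-- A lossless system: coisometries `M t` whose projections `P t = (M t)ᵀ M t` evolve by adding a
fresh coordinate `e t` and erasing a unit vector `h t`. -/
structure Sys (δ ι : Type) [Fintype δ] [Fintype ι] [DecidableEq δ] [DecidableEq ι] (N : ℕ) where
  M : ℕ → Matrix δ ι ℝ
  e : ℕ → ι → ℝ
  h : ℕ → ι → ℝ
  coiso : ∀ t, t ≤ N → M t * (M t)ᵀ = 1
  single : ∀ t, t < N → ∃ j, e t = Pi.single j 1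
  fresh : ∀ t, t < N → M t *ᵥ e t = 0
  step : ∀ t, t < N → (M (t + 1))ᵀ * M (t + 1)
    = (M t)ᵀ * M t + vecMulVec (e t) (e t) - vecMulVec (h t) (h t)
  unit : ∀ t, t < N → h t ⬝ᵥ h t = 1
  fix : ∀ t, t < N → ((M t)ᵀ * M t + vecMulVec (e t) (e t)) *ᵥ h t = h t
  besselE : Bessel (range N) e 1
  besselH : Bessel (range N) h 1

namespace Sys
variable {δ ι : Type} [Fintype δ] [Fintype ι] [DecidableEq δ] [DecidableEq ι] {N : ℕ}

/-- the projection at time `t` -/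
def P (Z : Sys δ ι N) (t : ℕ) : Matrix ι ι ℝ := (Z.M t)ᵀ * Z.M t

/-- the projection after the add step -/
def Ps (Z : Sys δ ι N) (t : ℕ) : Matrix ι ι ℝ := Z.P t + vecMulVec (Z.e t) (Z.e t)

/-- weight of the fresh coordinate -/
def al (Z : Sys δ ι N) (w : ι → ℝ) (t : ℕ) : ℝ :=
  (diagonal w *ᵥ Z.e t) ⬝ᵥ (diagonal w *ᵥ Z.e t)

/-- weighted erased vector -/
def z (Z : Sys δ ι N) (w : ι → ℝ) (t : ℕ) : ι → ℝ := diagonal w *ᵥ Z.h t

/-- mass of step `t` at level `τ` -/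
noncomputable def mass (Z : Sys δ ι N) (w : ι → ℝ) (τ : ℝ) (t : ℕ) : ℝ :=
  mu w τ (Z.Ps t) (Z.P (t + 1)) (Z.al w t) (Z.z w t)

end Sys

/-- the cut-off profile `(1 - |y|⁴)₊` -/
noncomputable def chi {ι : Type} [Fintype ι] (y : ι → ℝ) : ℝ := max (1 - (y ⬝ᵥ y) ^ 2) 0

/-- Gaussian weight -/
noncomputable def gw {ι : Type} [Fintype ι] (x : ι → ℝ) : ℝ := Real.exp (-(x ⬝ᵥ x) / 2)

/-- even, midpoint log-concave, continuous weights with values in `[0,1]` -/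
structure Wt {ι : Type} (Φ : (ι → ℝ) → ℝ) : Prop where
  cont : Continuous Φ
  nonneg : ∀ x, 0 ≤ Φ x
  le_one : ∀ x, Φ x ≤ 1
  even : ∀ x, Φ (-x) = Φ x
  mid : ∀ x k, Φ (x + k) * Φ (x - k) ≤ Φ x ^ 2

end Crest.Agent.R239
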