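import Crest.Agent.R239.Basic
import Crest.Agent.Lib.PL.PrekopaLeindler

/-!
Row 239: Gaussian weights times even log-concave weights have covariance at most `2 I`
(via Prekopa-Leindler).
-/

set_option autoImplicit false

namespace Crest.Agent.R239

open Matrix Finset MeasureTheory

variable {ι : Type} [Fintype ι]

theorem hasPL_fun : Crest.Agent.Lib.PL.HasPL (1 / 2) (1 / 2) (volume : Measure (ι → ℝ)) := by
  refine (Crest.Agent.Lib.PL.hasPL_pi (by norm_num) (by norm_num) (by norm_num)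
    (Fintype.card ι)).map _
    (volume_measurePreserving_piCongrLeft (fun _ : ι => ℝ) (Fintype.equivFin ι).symm) ?_
  intro x y
  ext i
  obtain ⟨j, rfl⟩ := (Fintype.equivFin ι).symm.surjective i
  simp only [MeasurableEquiv.coe_piCongrLeft, Equiv.piCongrLeft_apply_apply, Pi.add_apply,
    Pi.smul_apply]

theorem gw_pos (x : ι → ℝ) : 0 < gw x := Real.exp_pos _

theorem gw_neg (x : ι → ℝ) : gw (-x) = gw x := by
  simp [gw]

theorem continuous_gw : Continuous (gw : (ι → ℝ) → ℝ) := by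
  unfold gw
  exact Real.continuous_exp.comp
    ((continuous_id.dotProduct continuous_id).neg.div_const _)

theorem integrable_gw : Integrable (gw : (ι → ℝ) → ℝ) := by
  have h := Integrable.fintype_prod (ι := ι) (μ := fun _ => (volume : Measure ℝ))
    (f := fun _ t => Real.exp (-(1 / 2) * t ^ 2))
    (fun _ => integrable_exp_neg_mul_sq (by norm_num))
  have e : (gw : (ι → ℝ) → ℝ) = fun x => ∏ i, Real.exp (-(1 / 2) * x i ^ 2) := by
    funext x
    rw [← Real.exp_sum, gw, dot_self_eq_sum, ← mul_sum]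
    congr 1; ring
  rw [e]
  exact h

theorem Wt.integrable {Φ : (ι → ℝ) → ℝ} (h : Wt Φ) : Integrable (fun x => gw x * Φ x) := by
  refine integrable_gw.mono' (continuous_gw.mul h.cont).aestronglyMeasurable
    (Filter.Eventually.of_forall fun x => ?_)
  rw [Real.norm_eq_abs, abs_of_nonneg (mul_nonneg (gw_pos x).le (h.nonneg x))]
  exact mul_le_of_le_one_right (gw_pos x).le (h.le_one x)

theorem gauss_shift (θ x : ι → ℝ) :
    gw x * Real.exp (θ ⬝ᵥ x) = Real.exp (θ ⬝ᵥ θ / 2) * gw (x - θ) := by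
  simp only [gw, ← Real.exp_add]
  congr 1
  rw [sub_dotProduct, dotProduct_sub, dotProduct_sub, dotProduct_comm x θ]
  ring

theorem gauss_integrable_shift {Φ : (ι → ℝ) → ℝ} (h : Wt Φ) (θ : ι → ℝ) :
    Integrable (fun x => gw (x - θ) * Φ x) := by
  refine (integrable_gw.comp_sub_right θ).mono'
    ((continuous_gw.comp (continuous_id.sub continuous_const)).mul h.cont).aestronglyMeasurable
    (Filter.Eventually.of_forall fun x => ?_)
  rw [Real.norm_eq_abs, abs_of_nonneg (mul_nonneg (gw_pos _).le (h.nonneg x))]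
  exact mul_le_of_le_one_right (gw_pos _).le (h.le_one x)

theorem gauss_exp_eq {Φ : (ι → ℝ) → ℝ} (θ : ι → ℝ) :
    (fun x => gw x * Φ x * Real.exp (θ ⬝ᵥ x))
      = fun x => Real.exp (θ ⬝ᵥ θ / 2) * (gw (x - θ) * Φ x) := by
  funext x
  rw [mul_right_comm, gauss_shift, mul_assoc]

theorem Wt.integrable_exp {Φ : (ι → ℝ) → ℝ} (h : Wt Φ) (θ : ι → ℝ) :
    Integrable (fun x => gw x * Φ x * Real.exp (θ ⬝ᵥ x)) := by
  rw [gauss_exp_eq]
  exact (gauss_integrable_shift h θ).const_mul _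

theorem gauss_cosh (u : ℝ) : 2 + u ^ 2 ≤ Real.exp u + Real.exp (-u) := by
  have h1 : Real.cosh (2 * (u / 2)) = Real.cosh (u / 2) ^ 2 + Real.sinh (u / 2) ^ 2 :=
    Real.cosh_two_mul _
  have h2 := Real.cosh_sq (u / 2)
  have h3 : |u / 2| ≤ |Real.sinh (u / 2)| := by
    rw [Real.abs_sinh]; exact Real.self_le_sinh_iff.2 (abs_nonneg _)
  have h4 : (u / 2) ^ 2 ≤ Real.sinh (u / 2) ^ 2 := sq_le_sq.2 h3
  rw [show 2 * (u / 2) = u by ring, Real.cosh_eq] at h1
  nlinarith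

theorem Wt.integrable_sq {Φ : (ι → ℝ) → ℝ} (h : Wt Φ) (θ : ι → ℝ) :
    Integrable (fun x => gw x * Φ x * (θ ⬝ᵥ x) ^ 2) := by
  refine ((h.integrable_exp θ).add (h.integrable_exp (-θ))).mono'
    ((continuous_gw.mul h.cont).mul
      ((continuous_const.dotProduct continuous_id).pow 2)).aestronglyMeasurable
    (Filter.Eventually.of_forall fun x => ?_)
  have h0 := mul_nonneg (gw_pos x).le (h.nonneg x)
  rw [Real.norm_eq_abs, abs_of_nonneg (mul_nonneg h0 (sq_nonneg _))]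
  simp only [Pi.add_apply, neg_dotProduct]
  have := gauss_cosh (θ ⬝ᵥ x)
  nlinarith

theorem gauss_par (p q : ι → ℝ) :
    gw p * gw q ≤ gw ((1 / 2 : ℝ) • p + (1 / 2 : ℝ) • q) ^ 2 := by
  simp only [gw, sq, ← Real.exp_add]
  apply Real.exp_le_exp.2
  have h := dot_self_nonneg (p - q)
  simp only [add_dotProduct, dotProduct_add, smul_dotProduct, dotProduct_smul, smul_eq_mul,
    sub_dotProduct, dotProduct_sub] at h ⊢
  rw [dotProduct_comm q p] at h ⊢
  linarith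

theorem gauss_pl {Φ : (ι → ℝ) → ℝ} (h : Wt Φ) (θ : ι → ℝ) :
    ∫ x, gw (x - θ) * Φ x ≤ ∫ x, gw x * Φ x := by
  have hf := gauss_integrable_shift h θ
  have hg := gauss_integrable_shift h (-θ)
  have hh := h.integrable
  have hf0 : ∀ (η : ι → ℝ) x, 0 ≤ gw (x - η) * Φ x := fun η x =>
    mul_nonneg (gw_pos _).le (h.nonneg x)
  have hh0 : ∀ x, 0 ≤ gw x * Φ x := fun x => mul_nonneg (gw_pos _).le (h.nonneg x)
  have hm : ∀ η : ι → ℝ, Measurable fun x => ENNReal.ofReal (gw (x - η) * Φ x) := fun η =>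
    ((continuous_gw.comp (continuous_id.sub continuous_const)).mul h.cont).measurable.ennreal_ofReal
  have key := hasPL_fun (fun x => ENNReal.ofReal (gw (x - θ) * Φ x))
    (fun x => ENNReal.ofReal (gw (x - -θ) * Φ x)) (fun x => ENNReal.ofReal (gw x * Φ x))
    (hm θ) (hm (-θ)) (continuous_gw.mul h.cont).measurable.ennreal_ofReal (by
      intro x y
      rw [← ENNReal.mul_rpow_of_nonneg _ _ (by norm_num), ← ENNReal.ofReal_mul (hf0 _ _),
        ENNReal.ofReal_rpow_of_nonneg (mul_nonneg (hf0 _ _) (hf0 _ _)) (by norm_num)]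
      apply ENNReal.ofReal_le_ofReal
      rw [← Real.sqrt_eq_rpow]
      refine Real.sqrt_le_iff.2 ⟨hh0 _, ?_⟩
      have h1 := gauss_par (x - θ) (y - -θ)
      have e1 : (1 / 2 : ℝ) • (x - θ) + (1 / 2 : ℝ) • (y - -θ)
          = (1 / 2 : ℝ) • x + (1 / 2 : ℝ) • y := by
        ext i; simp; ring
      have h2 := h.mid ((1 / 2 : ℝ) • x + (1 / 2 : ℝ) • y) ((1 / 2 : ℝ) • x - (1 / 2 : ℝ) • y)
      have e2 : (1 / 2 : ℝ) • x + (1 / 2 : ℝ) • y + ((1 / 2 : ℝ) • x - (1 / 2 : ℝ) • y) = x := by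
        ext i; simp; ring
      have e3 : (1 / 2 : ℝ) • x + (1 / 2 : ℝ) • y - ((1 / 2 : ℝ) • x - (1 / 2 : ℝ) • y) = y := by
        ext i; simp; ring
      rw [e1] at h1
      rw [e2, e3] at h2
      calc gw (x - θ) * Φ x * (gw (y - -θ) * Φ y) = (gw (x - θ) * gw (y - -θ)) * (Φ x * Φ y) := by
            ring
        _ ≤ gw ((1 / 2 : ℝ) • x + (1 / 2 : ℝ) • y) ^ 2
            * Φ ((1 / 2 : ℝ) • x + (1 / 2 : ℝ) • y) ^ 2 :=
            mul_le_mul h1 h2 (mul_nonneg (h.nonneg _) (h.nonneg _)) (sq_nonneg _)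
        _ = _ := by ring)
  rw [← ofReal_integral_eq_lintegral_ofReal hf (Filter.Eventually.of_forall (hf0 θ)),
    ← ofReal_integral_eq_lintegral_ofReal hg (Filter.Eventually.of_forall (hf0 (-θ))),
    ← ofReal_integral_eq_lintegral_ofReal hh (Filter.Eventually.of_forall hh0)] at key
  have e : ∫ x, gw (x - -θ) * Φ x = ∫ x, gw (x - θ) * Φ x := by
    rw [← integral_neg_eq_self]
    congr 1
    funext x
    rw [h.even, ← gw_neg (x - θ)]
    congr 2
    abel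
  rw [e, ← ENNReal.rpow_add_of_nonneg _ _ (by norm_num) (by norm_num)] at key
  norm_num at key
  exact (ENNReal.ofReal_le_ofReal_iff (integral_nonneg hh0)).1 key

theorem Wt.mgf_le {Φ : (ι → ℝ) → ℝ} (h : Wt Φ) (θ : ι → ℝ) :
    ∫ x, gw x * Φ x * Real.exp (θ ⬝ᵥ x) ≤ Real.exp (θ ⬝ᵥ θ / 2) * ∫ x, gw x * Φ x := by
  rw [gauss_exp_eq, integral_const_mul]
  exact mul_le_mul_of_nonneg_left (gauss_pl h θ) (Real.exp_pos _).le

theorem gauss_cov_unit {Φ : (ι → ℝ) → ℝ} (h : Wt Φ) (θ : ι → ℝ) (hθ : θ ⬝ᵥ θ = 1) :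
    ∫ x, gw x * Φ x * (θ ⬝ᵥ x) ^ 2 ≤ 2 * ∫ x, gw x * Φ x := by
  have h1 := h.mgf_le θ
  have h2 := h.mgf_le (-θ)
  rw [neg_dotProduct_neg, hθ] at h2
  rw [hθ] at h1
  have h3 : Real.exp (1 / 2) ≤ 2 := by
    have := Real.exp_one_lt_d9
    have h4 : Real.exp (1 / 2) * Real.exp (1 / 2) = Real.exp 1 := by
      rw [← Real.exp_add]; norm_num
    nlinarith [Real.exp_pos (1 / 2)]
  have h0 : 0 ≤ ∫ x, gw x * Φ x :=
    integral_nonneg fun x => mul_nonneg (gw_pos _).le (h.nonneg x)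
  have h5 : ∫ x, (2 * (gw x * Φ x) + gw x * Φ x * (θ ⬝ᵥ x) ^ 2)
      ≤ ∫ x, (gw x * Φ x * Real.exp (θ ⬝ᵥ x) + gw x * Φ x * Real.exp (-θ ⬝ᵥ x)) := by
    refine integral_mono ((h.integrable.const_mul 2).add (h.integrable_sq θ))
      ((h.integrable_exp θ).add (h.integrable_exp (-θ))) fun x => ?_
    have h0 := mul_nonneg (gw_pos x).le (h.nonneg x)
    have := gauss_cosh (θ ⬝ᵥ x)
    simp only [neg_dotProduct]
    nlinarith
  rw [integral_add (h.integrable.const_mul 2) (h.integrable_sq θ),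
    integral_add (h.integrable_exp θ) (h.integrable_exp (-θ)), integral_const_mul] at h5
  nlinarith

theorem Wt.cov_le {Φ : (ι → ℝ) → ℝ} (h : Wt Φ) (θ : ι → ℝ) :
    ∫ x, gw x * Φ x * (θ ⬝ᵥ x) ^ 2 ≤ 2 * (θ ⬝ᵥ θ) * ∫ x, gw x * Φ x := by
  rcases (dot_self_nonneg θ).eq_or_lt with h0 | h0
  · have : θ = 0 := dotProduct_self_eq_zero.1 h0.symm
    subst this
    simp
  have hn : 0 < nrm θ := Real.sqrt_pos.2 h0
  have h1 := gauss_cov_unit h ((nrm θ)⁻¹ • θ) (by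
    rw [smul_dotProduct, dotProduct_smul, ← nrm_sq, smul_eq_mul, smul_eq_mul]
    field_simp)
  have e : (fun x => gw x * Φ x * (θ ⬝ᵥ x) ^ 2)
      = fun x => (θ ⬝ᵥ θ) * (gw x * Φ x * (((nrm θ)⁻¹ • θ) ⬝ᵥ x) ^ 2) := by
    funext x
    rw [smul_dotProduct, ← nrm_sq, smul_eq_mul]
    field_simp
  rw [e, integral_const_mul]
  nlinarith

theorem gauss_mat_eq (Φ : (ι → ℝ) → ℝ) (A : Matrix ι ι ℝ) :
    (fun x => gw x * Φ x * nrm (A *ᵥ x) ^ 2) = fun x => ∑ i, gw x * Φ x * (A i ⬝ᵥ x) ^ 2 := by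
  funext x
  rw [nrm_sq, dot_self_eq_sum, mul_sum]
  rfl

theorem Wt.integrable_mat {Φ : (ι → ℝ) → ℝ} (h : Wt Φ) (A : Matrix ι ι ℝ) :
    Integrable (fun x => gw x * Φ x * nrm (A *ᵥ x) ^ 2) := by
  rw [gauss_mat_eq]
  exact integrable_finset_sum _ fun i _ => h.integrable_sq _

theorem Wt.cov_mat {Φ : (ι → ℝ) → ℝ} (h : Wt Φ) (A : Matrix ι ι ℝ) :
    ∫ x, gw x * Φ x * nrm (A *ᵥ x) ^ 2 ≤ 2 * hs A ^ 2 * ∫ x, gw x * Φ x := by
  rw [gauss_mat_eq, integral_finset_sum _ fun i _ => h.integrable_sq _, hs_sq_rows, mul_sum,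
    sum_mul]
  exact sum_le_sum fun i _ => h.cov_le _

theorem Wt.integral_pos {Φ : (ι → ℝ) → ℝ} (h : Wt Φ) (h0 : Φ 0 ≠ 0) :
    0 < ∫ x, gw x * Φ x := by
  refine integral_pos_of_integrable_nonneg_nonzero (x := 0) (continuous_gw.mul h.cont) h.integrable
    (fun x => mul_nonneg (gw_pos _).le (h.nonneg x)) ?_
  exact mul_ne_zero (gw_pos _).ne' h0

end Crest.Agent.R239
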