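import Crest.Agent.R239.Chi
import Crest.Agent.R239.Gauss

/-!
Row 239: the density attached to a family of constraints, and its total variation under shifts.
-/

set_option autoImplicit false

namespace Crest.Agent.R239

open Matrix Finset MeasureTheory

variable {ι : Type} [Fintype ι]

/-- cut-off of one constraint -/
noncomputable def denChi (c : Matrix ι ι ℝ × ℝ) (x : ι → ℝ) : ℝ := chi ((3 * c.2)⁻¹ • (c.1 *ᵥ x))

/-- product of squared cut-offs -/
noncomputable def denPhi (s : Finset (Matrix ι ι ℝ × ℝ)) (x : ι → ℝ) : ℝ :=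
  ∏ c ∈ s, denChi c x * denChi c x

/-- square root of the unnormalized density -/
noncomputable def denG (s : Finset (Matrix ι ι ℝ × ℝ)) (x : ι → ℝ) : ℝ :=
  Real.exp (-(x ⬝ᵥ x) / 4) * ∏ c ∈ s, denChi c x

theorem den_wt (s : Finset (Matrix ι ι ℝ × ℝ)) : Wt (denPhi s) :=
  Wt.prod s (fun c x => denChi c x * denChi c x) fun c _ => (wt_chi c.1 _).mul (wt_chi c.1 _)

theorem den_pos (s : Finset (Matrix ι ι ℝ × ℝ)) : 0 < ∫ x, gw x * denPhi s x := by
  refine (den_wt s).integral_pos ?_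
  simp [denPhi, denChi, chi_zero]

theorem denG_sq (s : Finset (Matrix ι ι ℝ × ℝ)) (x : ι → ℝ) :
    denG s x ^ 2 = gw x * denPhi s x := by
  rw [denG, mul_pow, denPhi, prod_mul_distrib, gw, sq, sq, ← Real.exp_add]
  congr 2; ring

theorem den_dot (r : ℝ) (y : ι → ℝ) : (r • y) ⬝ᵥ (r • y) = r ^ 2 * nrm y ^ 2 := by
  rw [nrm_sq, smul_dotProduct, dotProduct_smul, smul_eq_mul, smul_eq_mul]; ring

open Classical in
theorem den_ratio (S : Finset (Matrix ι ι ℝ × ℝ)) {c : Matrix ι ι ℝ × ℝ} (hc : c ∈ S)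
    (h0 : 0 < c.2) (h1 : hs c.1 ≤ c.2) :
    ∫ x, gw x * denPhi (S.erase c) x ≤ 2 * ∫ x, gw x * denPhi S x := by
  have hw := den_wt (S.erase c)
  have h2 : ∫ x, (gw x * denPhi (S.erase c) x
        - 2 * (3 * c.2)⁻¹ ^ 2 * (gw x * denPhi (S.erase c) x * nrm (c.1 *ᵥ x) ^ 2))
      ≤ ∫ x, gw x * denPhi S x := by
    refine integral_mono (hw.integrable.sub ((hw.integrable_mat c.1).const_mul _))
      (den_wt S).integrable fun x => ?_
    have e : denPhi S x = denChi c x * denChi c x * denPhi (S.erase c) x :=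
      (mul_prod_erase S (fun c => denChi c x * denChi c x) hc).symm
    have h3 := chi_sq_ge ((3 * c.2)⁻¹ • (c.1 *ᵥ x))
    rw [den_dot] at h3
    have h4 := mul_nonneg (gw_pos x).le (hw.nonneg x)
    have h5 := mul_le_mul_of_nonneg_left h3 h4
    simp only [e, denChi]
    nlinarith
  rw [integral_sub hw.integrable ((hw.integrable_mat c.1).const_mul _), integral_const_mul] at h2
  have h3 := hw.cov_mat c.1
  have h4 := den_pos (S.erase c)
  have h5 : (3 * c.2)⁻¹ ^ 2 * hs c.1 ^ 2 ≤ 1 / 9 := by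
    have : hs c.1 ^ 2 ≤ c.2 ^ 2 := pow_le_pow_left₀ (hs_nonneg _) h1 2
    calc (3 * c.2)⁻¹ ^ 2 * hs c.1 ^ 2 ≤ (3 * c.2)⁻¹ ^ 2 * c.2 ^ 2 := by gcongr
      _ = 1 / 9 := by field_simp; norm_num
  have h6 := mul_le_mul_of_nonneg_left h3 (sq_nonneg (3 * c.2)⁻¹)
  nlinarith

theorem denG_mul (S : Finset (Matrix ι ι ℝ × ℝ)) (x h : ι → ℝ) :
    denG S (x + h) * denG S (x - h)
      = gw x * (Real.exp (-(h ⬝ᵥ h / 2)) * ∏ c ∈ S, denChi c (x + h) * denChi c (x - h)) := by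
  have e : Real.exp (-((x + h) ⬝ᵥ (x + h)) / 4) * Real.exp (-((x - h) ⬝ᵥ (x - h)) / 4)
      = gw x * Real.exp (-(h ⬝ᵥ h / 2)) := by
    rw [gw, ← Real.exp_add, ← Real.exp_add]
    congr 1
    simp only [add_dotProduct, dotProduct_add, sub_dotProduct, dotProduct_sub]
    ring
  rw [denG, denG, prod_mul_distrib, ← mul_assoc (gw x), ← e]
  ring

open Classical in
theorem den_point (S : Finset (Matrix ι ι ℝ × ℝ)) (x h : ι → ℝ) :
    gw x * denPhi S x - denG S (x + h) * denG S (x - h)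
      ≤ h ⬝ᵥ h / 2 * (gw x * denPhi S x)
        + ∑ c ∈ S, (32 * (3 * c.2)⁻¹ ^ 4 * nrm (c.1 *ᵥ h) ^ 2
            * (gw x * denPhi (S.erase c) x * nrm (c.1 *ᵥ x) ^ 2)
          + 8 * (3 * c.2)⁻¹ ^ 4 * nrm (c.1 *ᵥ h) ^ 4 * (gw x * denPhi (S.erase c) x)) := by
  have hb : ∀ c ∈ S, 0 ≤ denChi c (x + h) * denChi c (x - h) := fun c _ =>
    mul_nonneg (chi_nonneg _) (chi_nonneg _)
  have hab : ∀ c ∈ S, denChi c (x + h) * denChi c (x - h) ≤ denChi c x * denChi c x := by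
    intro c _
    simp only [denChi, mulVec_add, mulVec_sub, smul_add, smul_sub]
    rw [← sq]; exact chi_mid _ _
  have h1 := prod_defect S (fun c => denChi c x * denChi c x)
    (fun c => denChi c (x + h) * denChi c (x - h)) hb hab
  have h2 : ∏ c ∈ S, denChi c (x + h) * denChi c (x - h) ≤ denPhi S x := prod_le_prod hb hab
  have h2' : 0 ≤ ∏ c ∈ S, denChi c (x + h) * denChi c (x - h) := prod_nonneg hb
  have h3 : 1 - h ⬝ᵥ h / 2 ≤ Real.exp (-(h ⬝ᵥ h / 2)) := by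
    have := Real.add_one_le_exp (-(h ⬝ᵥ h / 2)); linarith
  have h4 : ∑ c ∈ S, (denChi c x * denChi c x - denChi c (x + h) * denChi c (x - h))
        * ∏ c' ∈ S.erase c, denChi c' x * denChi c' x
      ≤ ∑ c ∈ S, (32 * (3 * c.2)⁻¹ ^ 4 * nrm (c.1 *ᵥ h) ^ 2 * nrm (c.1 *ᵥ x) ^ 2
          + 8 * (3 * c.2)⁻¹ ^ 4 * nrm (c.1 *ᵥ h) ^ 4) * denPhi (S.erase c) x := by
    refine sum_le_sum fun c _ => mul_le_mul_of_nonneg_right ?_ ((den_wt _).nonneg x)
    have := chi_defect ((3 * c.2)⁻¹ • (c.1 *ᵥ x)) ((3 * c.2)⁻¹ • (c.1 *ᵥ h))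
    rw [den_dot, den_dot] at this
    simp only [denChi, mulVec_add, mulVec_sub, smul_add, smul_sub]
    nlinarith
  have h5 : denPhi S x - Real.exp (-(h ⬝ᵥ h / 2)) * ∏ c ∈ S, denChi c (x + h) * denChi c (x - h)
      ≤ h ⬝ᵥ h / 2 * denPhi S x + ∑ c ∈ S, (32 * (3 * c.2)⁻¹ ^ 4 * nrm (c.1 *ᵥ h) ^ 2
          * nrm (c.1 *ᵥ x) ^ 2 + 8 * (3 * c.2)⁻¹ ^ 4 * nrm (c.1 *ᵥ h) ^ 4)
          * denPhi (S.erase c) x := by
    have h6 := mul_le_mul_of_nonneg_right h3 h2'
    have h7 := mul_le_mul_of_nonneg_left h2 (div_nonneg (dot_self_nonneg h) zero_le_two)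
    have h8 : denPhi S x = ∏ c ∈ S, denChi c x * denChi c x := rfl
    linarith
  have h9 := mul_le_mul_of_nonneg_left h5 (gw_pos x).le
  rw [denG_mul]
  rw [mul_sub, mul_add, mul_sum] at h9
  refine h9.trans (le_of_eq ?_)
  congr 1
  · ring
  · exact sum_congr rfl fun c _ => by ring

theorem continuous_denG (S : Finset (Matrix ι ι ℝ × ℝ)) : Continuous (denG S) := by
  unfold denG
  exact (Real.continuous_exp.comp ((continuous_id.dotProduct continuous_id).neg.div_const _)).mul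
    (continuous_finset_prod _ fun c _ => (wt_chi c.1 _).cont)

theorem den_int_sq (S : Finset (Matrix ι ι ℝ × ℝ)) : Integrable fun x => denG S x ^ 2 := by
  simp only [denG_sq]; exact (den_wt S).integrable

theorem den_int_mul (S : Finset (Matrix ι ι ℝ × ℝ)) (h : ι → ℝ) :
    Integrable fun x => denG S (x + h) * denG S (x - h) := by
  refine (((den_int_sq S).comp_add_right h).add ((den_int_sq S).comp_sub_right h)).mono'
    (((continuous_denG S).comp (continuous_id.add continuous_const)).mul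
      ((continuous_denG S).comp (continuous_id.sub continuous_const))).aestronglyMeasurable
    (Filter.Eventually.of_forall fun x => ?_)
  rw [Real.norm_eq_abs, abs_le]
  simp only [Pi.add_apply]
  constructor <;> nlinarith [sq_nonneg (denG S (x + h) + denG S (x - h)),
    sq_nonneg (denG S (x + h) - denG S (x - h))]

theorem den_aff (S : Finset (Matrix ι ι ℝ × ℝ)) (hS : ∀ c ∈ S, 0 < c.2 ∧ hs c.1 ≤ c.2)
    (h : ι → ℝ) (hh : h ⬝ᵥ h ≤ 1) :
    (∫ x, gw x * denPhi S x) - ∫ x, denG S (x + h) * denG S (x - h)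
      ≤ (h ⬝ᵥ h / 2 + 2 * ∑ c ∈ S, hs c.1 ^ 2 * nrm (c.1 *ᵥ h) ^ 2 / c.2 ^ 4)
        * ∫ x, gw x * denPhi S x := by
  classical
  have hi : ∀ c ∈ S, Integrable fun x => (32 * (3 * c.2)⁻¹ ^ 4 * nrm (c.1 *ᵥ h) ^ 2
            * (gw x * denPhi (S.erase c) x * nrm (c.1 *ᵥ x) ^ 2)
          + 8 * (3 * c.2)⁻¹ ^ 4 * nrm (c.1 *ᵥ h) ^ 4 * (gw x * denPhi (S.erase c) x)) :=
    fun c _ => (((den_wt _).integrable_mat _).const_mul _).add ((den_wt _).integrable.const_mul _)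
  have h1 := integral_mono ((den_wt S).integrable.sub (den_int_mul S h))
    (((den_wt S).integrable.const_mul (h ⬝ᵥ h / 2)).add (integrable_finsetSum S hi))
    (fun x => den_point S x h)
  simp only [Pi.sub_apply, Pi.add_apply] at h1
  rw [integral_sub (den_wt S).integrable (den_int_mul S h),
    integral_add ((den_wt S).integrable.const_mul (h ⬝ᵥ h / 2)) (integrable_finsetSum S hi),
    integral_const_mul, integral_finsetSum S hi] at h1
  refine h1.trans ?_
  rw [add_mul, mul_sum, sum_mul]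
  refine add_le_add le_rfl (sum_le_sum fun c hc => ?_)
  rw [integral_add (((den_wt _).integrable_mat _).const_mul _) ((den_wt _).integrable.const_mul _),
    integral_const_mul, integral_const_mul]
  obtain ⟨h0, hc1⟩ := hS c hc
  have h2 := den_ratio S hc h0 hc1
  have h3 := (den_wt (S.erase c)).cov_mat c.1
  have h4 := (den_pos (S.erase c)).le
  have h4' := (den_pos S).le
  have h5 : nrm (c.1 *ᵥ h) ^ 2 ≤ hs c.1 ^ 2 := by
    have h6 := pow_le_pow_left₀ (nrm_nonneg _) (nrm_mulVec_le c.1 h) 2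
    rw [mul_pow, nrm_sq h] at h6
    nlinarith [sq_nonneg (hs c.1)]
  set Z := ∫ x, gw x * denPhi S x
  set Y := ∫ x, gw x * denPhi (S.erase c) x
  set W := ∫ x, gw x * denPhi (S.erase c) x * nrm (c.1 *ᵥ x) ^ 2
  set p := nrm (c.1 *ᵥ h) ^ 2 with hp
  set q := hs c.1 ^ 2
  have hp0 : 0 ≤ p := sq_nonneg _
  have hq0 : 0 ≤ q := sq_nonneg _
  have e4 : nrm (c.1 *ᵥ h) ^ 4 = p * p := by rw [hp]; ring
  have e5 : (3 * c.2)⁻¹ ^ 4 = (c.2 ^ 4)⁻¹ / 81 := by field_simp; norm_num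
  have ht : 0 ≤ (c.2 ^ 4)⁻¹ := by positivity
  rw [e4, e5, div_eq_mul_inv (q * p)]
  set t := (c.2 ^ 4)⁻¹
  have h7 : W ≤ 4 * q * Z := by nlinarith
  have h8 : p * Y ≤ 2 * q * Z := by nlinarith
  have h9 := mul_le_mul_of_nonneg_left h7 (mul_nonneg ht hp0)
  have h10 := mul_le_mul_of_nonneg_left h8 (mul_nonneg ht hp0)
  have h11 : 0 ≤ t * p * q * Z := by positivity
  nlinarith

theorem density (S : Finset (Matrix ι ι ℝ × ℝ)) (hS : ∀ c ∈ S, 0 < c.2 ∧ hs c.1 ≤ c.2) :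
    ∃ f : (ι → ℝ) → ℝ, Continuous f ∧ (∀ x, 0 ≤ f x) ∧ (∀ x, f (-x) = f x) ∧ ∫ x, f x = 1 ∧
      (∀ x, f x ≠ 0 → ∀ c ∈ S, nrm (c.1 *ᵥ x) ≤ 3 * c.2) ∧
      ∀ h : ι → ℝ, h ⬝ᵥ h ≤ 1 → ∫ x, |f (x + h) - f (x - h)|
        ≤ 1 / 6 + 12 * (h ⬝ᵥ h / 2 + 2 * ∑ c ∈ S, hs c.1 ^ 2 * nrm (c.1 *ᵥ h) ^ 2 / c.2 ^ 4) := by
  have hZ := den_pos S
  set Z := ∫ x, gw x * denPhi S x with hZdef
  refine ⟨fun x => Z⁻¹ * (gw x * denPhi S x),
    continuous_const.mul (continuous_gw.mul (den_wt S).cont), fun x => ?_, fun x => ?_, ?_,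
    fun x hx c hc => ?_, fun h hh => ?_⟩
  · exact mul_nonneg (inv_pos.2 hZ).le (mul_nonneg (gw_pos x).le ((den_wt S).nonneg x))
  · simp only [gw_neg, (den_wt S).even]
  · rw [integral_const_mul, inv_mul_cancel₀ hZ.ne']
  · have h1 : denPhi S x ≠ 0 := fun h => hx (by simp [h])
    have h2 : denChi c x ≠ 0 := fun h => h1 (prod_eq_zero hc (by simp [h]))
    have h3 := nrm_le_one_of_chi h2
    have h0 := (hS c hc).1
    rw [nrm_smul, abs_of_pos (by positivity), inv_mul_le_iff₀ (by positivity)] at h3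
    linarith
  · have hA := den_aff S hS h hh
    have i1 := (den_int_sq S).comp_add_right h
    have i2 := (den_int_sq S).comp_sub_right h
    have i3 := den_int_mul S h
    have i4 : Integrable fun x => denG S (x + h) ^ 2 + denG S (x - h) ^ 2 := i1.add i2
    rw [← hZdef] at hA
    have hsq : ∫ x, denG S x ^ 2 = Z := by simp only [denG_sq]; rfl
    have h1 : ∫ x, |Z⁻¹ * (gw (x + h) * denPhi S (x + h)) - Z⁻¹ * (gw (x - h) * denPhi S (x - h))|
        ≤ ∫ x, Z⁻¹ * (73 / 12 * (denG S (x + h) ^ 2 + denG S (x - h) ^ 2)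
          - 12 * (denG S (x + h) * denG S (x - h))) := by
      refine integral_mono_of_nonneg (Filter.Eventually.of_forall fun x => abs_nonneg _)
        ((((i1.add i2).const_mul _).sub (i3.const_mul _)).const_mul _)
        (Filter.Eventually.of_forall fun x => ?_)
      simp only
      rw [← mul_sub, abs_mul, abs_of_pos (inv_pos.2 hZ), ← denG_sq, ← denG_sq]
      refine mul_le_mul_of_nonneg_left ((abs_sq_sub_sq_le _ _).trans (le_of_eq ?_))
        (inv_pos.2 hZ).le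
      ring
    rw [integral_const_mul, integral_sub (i4.const_mul _) (i3.const_mul _),
      integral_const_mul, integral_const_mul, integral_add i1 i2,
      integral_add_right_eq_self (fun x => denG S x ^ 2),
      integral_sub_right_eq_self (fun x => denG S x ^ 2), hsq] at h1
    refine h1.trans ?_
    rw [inv_mul_le_iff₀ hZ]
    nlinarith

end Crest.Agent.R239
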