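import Crest.Agent.R239.Defs

/-!
Row 239: scalar facts on `phi τ l = l / (l + τ/16) - l / (l + τ) = l (15 τ / 16) / ((l + τ/16)(l + τ))`.
`lev (q+1) = lev q / 16`, so `∑ q < Q, phi (lev q) l` telescopes to
`l/(l + lev Q) - l/(l + lev 0) ≤ 1`.
`sum_phi_sq_ge`: there is `q < Q` with `lev (q+1) < l ≤ lev q` (take the least `q` with
`lev (q+1) < l`), and `phi τ l ≥ 1/3` for `l ≤ τ ≤ 16 l` (`u² - 28 u + 16 ≤ 0` on `[1,16]`).
`sum_root_phi_le`: case `l = 0` trivial.  Else put `s = 2 / 2^q` (`lev q = s^4`), `r = √√l`;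
`phi ≤ 16 l / τ = (2 r / s)^4` and `phi ≤ τ / l = (s / r)^4`, so `√√phi ≤ min (2r/s) (s/r)
≤ 16 (ψ s - ψ (s/2))` with `ψ s = s / (s + r)` (cases `s ≤ r`, `r ≤ s`; the difference equals
`(s r / 2) / ((s + r)(s/2 + r))`), which telescopes.
-/

set_option autoImplicit false

namespace Crest.Agent.R239

open Matrix Finset

theorem lev_pos (q : ℕ) : 0 < lev q := by
  unfold lev; positivity

theorem lev_succ (q : ℕ) : lev (q + 1) = lev q / 16 := by
  unfold lev; rw [pow_succ]; field_simp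

theorem exists_lev_lt {a : ℝ} (ha : 0 < a) : ∃ Q, lev Q < a := by
  obtain ⟨Q, hQ⟩ := pow_unbounded_of_one_lt (16 / a) (by norm_num : (1 : ℝ) < 16)
  refine ⟨Q, ?_⟩
  unfold lev
  rw [div_lt_iff₀ (by positivity)]
  rw [div_lt_iff₀ ha] at hQ
  linarith

theorem phi_eq {τ l : ℝ} (hτ : 0 < τ) (hl : 0 ≤ l) :
    phi τ l = l * (15 * τ / 16) / ((l + τ / 16) * (l + τ)) := by
  unfold phi
  have h1 : l + τ / 16 ≠ 0 := by positivity
  have h2 : l + τ ≠ 0 := by positivity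
  rw [div_sub_div _ _ h1 h2]
  congr 1
  ring

theorem phi_eq' {τ l : ℝ} (hτ : 0 < τ) (hl : 0 ≤ l) :
    τ * (l + τ)⁻¹ - τ / 16 * (l + τ / 16)⁻¹ = phi τ l := by
  unfold phi
  have h1 : l + τ / 16 ≠ 0 := by positivity
  have h2 : l + τ ≠ 0 := by positivity
  have e1 : τ * (l + τ)⁻¹ = 1 - l / (l + τ) := by field_simp; ring
  have e2 : τ / 16 * (l + τ / 16)⁻¹ = 1 - l / (l + τ / 16) := by
    rw [eq_sub_iff_add_eq, div_eq_mul_inv l, ← add_mul, add_comm (τ / 16), mul_inv_cancel₀ h1]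
  rw [e1, e2]
  ring

theorem phi_nonneg {τ l : ℝ} (hτ : 0 < τ) (hl : 0 ≤ l) : 0 ≤ phi τ l := by
  rw [phi_eq hτ hl]; positivity

theorem phi_mul_le_one {τ l : ℝ} (hτ : 0 < τ) (hl : 0 ≤ l) : phi τ l * (1 + l / τ) ≤ 1 := by
  rw [phi_eq hτ hl]
  have h1 : 0 < l + τ / 16 := by positivity
  have h2 : 0 < l + τ := by positivity
  have e : l * (15 * τ / 16) / ((l + τ / 16) * (l + τ)) * (1 + l / τ) =
      l * (15 / 16) / (l + τ / 16) := by
    have : 1 + l / τ = (l + τ) / τ := by field_simp; ring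
    rw [this, div_mul_div_comm, div_eq_div_iff (by positivity) h1.ne']
    ring
  rw [e, div_le_one h1]
  linarith

theorem phi_le_one {τ l : ℝ} (hτ : 0 < τ) (hl : 0 ≤ l) : phi τ l ≤ 1 := by
  have h1 := phi_mul_le_one hτ hl
  have h2 := phi_nonneg hτ hl
  have h3 : 0 ≤ l / τ := by positivity
  nlinarith

theorem tau_phi_sq_le {τ l : ℝ} (hτ : 0 < τ) (hl : 0 ≤ l) :
    τ * (phi τ l ^ 2 * (1 + l / τ)) ≤ 15 * l * phi τ l := by
  have h2 := phi_nonneg hτ hl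
  have h1 : 0 < l + τ / 16 := by positivity
  have h3 : 0 < l + τ := by positivity
  have key : τ * (phi τ l * (1 + l / τ)) ≤ 15 * l := by
    have e : τ * (phi τ l * (1 + l / τ)) = l * (15 * τ / 16) / (l + τ / 16) := by
      rw [phi_eq hτ hl]
      have : τ * (l * (15 * τ / 16) / ((l + τ / 16) * (l + τ)) * (1 + l / τ)) =
          l * (15 * τ / 16) / ((l + τ / 16) * (l + τ)) * (l + τ) := by
        have : τ * (1 + l / τ) = l + τ := by field_simp; ring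
        rw [← this]; ring
      rw [this, div_mul_eq_mul_div, mul_div_mul_right _ _ h3.ne']
    rw [e, div_le_iff₀ h1]
    nlinarith [mul_nonneg hl hl]
  calc τ * (phi τ l ^ 2 * (1 + l / τ)) = τ * (phi τ l * (1 + l / τ)) * phi τ l := by ring
    _ ≤ 15 * l * phi τ l := by gcongr

theorem tau_res_le {τ l : ℝ} (hτ : 0 < τ) (hl : 0 ≤ l) :
    τ * (l * (l + τ)⁻¹ ^ 2) ≤ 2 * phi τ l := by
  have h1 : 0 < l + τ / 16 := by positivity
  have h3 : 0 < l + τ := by positivity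
  rw [phi_eq hτ hl]
  have e1 : τ * (l * (l + τ)⁻¹ ^ 2) = l * τ / ((l + τ) * (l + τ)) := by field_simp
  rw [e1, ← mul_div_assoc, div_le_div_iff₀ (by positivity) (by positivity)]
  have : 0 ≤ l * τ * (l + τ) := by positivity
  nlinarith [mul_nonneg this hl, mul_nonneg this hτ.le]

theorem tau_res_le' {τ l : ℝ} (hτ : 0 < τ) (hl : 0 ≤ l) :
    τ * (l * (l + τ / 16)⁻¹ ^ 2) ≤ 18 * phi τ l := by
  have h1 : 0 < l + τ / 16 := by positivity
  have h3 : 0 < l + τ := by positivity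
  rw [phi_eq hτ hl]
  have e1 : τ * (l * (l + τ / 16)⁻¹ ^ 2) = l * τ / ((l + τ / 16) * (l + τ / 16)) := by
    rw [inv_pow, div_eq_mul_inv (l * τ), ← sq]; ring
  rw [e1, ← mul_div_assoc, div_le_div_iff₀ (by positivity) (by positivity)]
  have : 0 ≤ l * τ * (l + τ / 16) := by positivity
  nlinarith [mul_nonneg this hl, mul_nonneg this hτ.le]

theorem sum_phi_le_one (Q : ℕ) {l : ℝ} (hl : 0 ≤ l) : ∑ q ∈ range Q, phi (lev q) l ≤ 1 := by
  have key : ∑ q ∈ range Q, phi (lev q) l = l / (l + lev Q) - l / (l + lev 0) := by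
    induction Q with
    | zero => simp
    | succ Q ih => rw [sum_range_succ, ih, lev_succ, phi]; ring
  rw [key]
  have h1 : l / (l + lev Q) ≤ 1 := by
    have := lev_pos Q
    rw [div_le_one (by positivity)]; linarith
  have h2 : 0 ≤ l / (l + lev 0) := by
    have := lev_pos 0
    positivity
  linarith

theorem sum_phi_sq_ge (Q : ℕ) {l : ℝ} (h1 : lev Q < l) (h2 : l ≤ 16) :
    1 ≤ 9 * ∑ q ∈ range Q, phi (lev q) l ^ 2 := by
  have hl : 0 < l := (lev_pos Q).trans h1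
  obtain ⟨q, hq, a1, a2⟩ : ∃ q < Q, lev (q + 1) < l ∧ l ≤ lev q := by
    induction Q with
    | zero => simp [lev] at h1; linarith
    | succ Q ih =>
      by_cases h : lev Q < l
      · obtain ⟨q, hq, a⟩ := ih h
        exact ⟨q, by omega, a⟩
      · exact ⟨Q, by omega, h1, not_lt.1 h⟩
  have hτ := lev_pos q
  rw [lev_succ] at a1
  have h3 : 1 / 3 ≤ phi (lev q) l := by
    rw [phi_eq hτ hl.le, div_le_div_iff₀ (by norm_num) (by positivity)]
    nlinarith [mul_nonneg (sub_nonneg.2 a1.le) (sub_nonneg.2 a2), mul_pos hτ hl]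
  have h4 : phi (lev q) l ^ 2 ≤ ∑ q ∈ range Q, phi (lev q) l ^ 2 :=
    single_le_sum (f := fun q => phi (lev q) l ^ 2) (fun _ _ => sq_nonneg _) (mem_range.2 hq)
  nlinarith

theorem phi_root_le {x t : ℝ} (ht : 0 ≤ t) (h : x ≤ t ^ 4) : √(√x) ≤ t := by
  refine Real.sqrt_le_iff.2 ⟨ht, Real.sqrt_le_iff.2 ⟨by positivity, ?_⟩⟩
  calc x ≤ t ^ 4 := h
    _ = (t ^ 2) ^ 2 := by ring

theorem phi_root_step {s r : ℝ} (hs : 0 < s) (hr : 0 < r) :
    √(√(phi (s ^ 4) (r ^ 4))) ≤ 16 * (s / (s + r) - s / 2 / (s / 2 + r)) := by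
  have hs4 : 0 < s ^ 4 := by positivity
  have hr4 : 0 < r ^ 4 := by positivity
  have e : 16 * (s / (s + r) - s / 2 / (s / 2 + r)) = 16 * (s * r) / ((s + r) * (s + 2 * r)) := by
    field_simp
    ring
  rw [e]
  rcases le_total s r with h | h
  · refine (phi_root_le (t := s / r) (by positivity) ?_).trans ?_
    · rw [phi_eq hs4 hr4.le, div_pow, div_le_div_iff₀ (by positivity) hr4]
      generalize s ^ 4 = a at hs4 ⊢
      generalize r ^ 4 = b at hr4 ⊢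
      nlinarith [mul_pos hs4 hr4, mul_pos (mul_pos hs4 hr4) hr4, mul_pos (mul_pos hs4 hr4) hs4,
        mul_pos (mul_pos hs4 hs4) hs4]
    · rw [div_le_div_iff₀ hr (by positivity)]
      have : (s + r) * (s + 2 * r) ≤ 16 * (r * r) := by nlinarith
      nlinarith [mul_le_mul_of_nonneg_left this hs.le]
  · refine (phi_root_le (t := 2 * r / s) (by positivity) ?_).trans ?_
    · rw [phi_eq hs4 hr4.le, div_pow, div_le_div_iff₀ (by positivity) hs4, mul_pow]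
      generalize s ^ 4 = a at hs4 ⊢
      generalize r ^ 4 = b at hr4 ⊢
      nlinarith [mul_pos hs4 hr4, mul_pos (mul_pos hs4 hr4) hr4, mul_pos (mul_pos hs4 hr4) hs4,
        mul_pos (mul_pos hr4 hr4) hr4]
    · rw [div_le_div_iff₀ hs (by positivity)]
      have : (s + r) * (s + 2 * r) ≤ 8 * (s * s) := by nlinarith
      nlinarith [mul_le_mul_of_nonneg_left this hr.le]

theorem sum_root_phi_le (Q : ℕ) {l : ℝ} (hl : 0 ≤ l) :
    ∑ q ∈ range Q, √(√(phi (lev q) l)) ≤ 16 := by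
  rcases hl.eq_or_lt with rfl | hl0
  · simp [phi]
  obtain ⟨r, hr, hr4⟩ : ∃ r : ℝ, 0 < r ∧ r ^ 4 = l := by
    refine ⟨√(√l), by positivity, ?_⟩
    have : √(√l) ^ 4 = (√(√l) ^ 2) ^ 2 := by ring
    rw [this, Real.sq_sqrt (Real.sqrt_nonneg _), Real.sq_sqrt hl]
  have step : ∀ q : ℕ, √(√(phi (lev q) l)) ≤
      16 * ((2 / 2 ^ q : ℝ) / (2 / 2 ^ q + r) - (2 / 2 ^ (q + 1) : ℝ) / (2 / 2 ^ (q + 1) + r)) := by
    intro q
    have e1 : (2 / 2 ^ (q + 1) : ℝ) = 2 / 2 ^ q / 2 := by rw [pow_succ]; field_simp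
    have e2 : lev q = (2 / 2 ^ q : ℝ) ^ 4 := by
      rw [lev, div_pow, ← pow_mul, mul_comm, pow_mul]; norm_num
    rw [e1, e2, ← hr4]
    exact phi_root_step (by positivity) hr
  have key : ∑ q ∈ range Q, √(√(phi (lev q) l)) ≤
      16 * ((2 / 2 ^ 0 : ℝ) / (2 / 2 ^ 0 + r) - (2 / 2 ^ Q : ℝ) / (2 / 2 ^ Q + r)) := by
    induction Q with
    | zero => simp
    | succ Q ih =>
      rw [sum_range_succ]
      have := step Q
      linarith
  have h1 : (2 / 2 ^ 0 : ℝ) / (2 / 2 ^ 0 + r) ≤ 1 := by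
    rw [div_le_one (by positivity)]; linarith
  have h2 : 0 ≤ (2 / 2 ^ Q : ℝ) / (2 / 2 ^ Q + r) := by positivity
  linarith

/-- subadditivity of the fourth root -/
theorem root_sum_le {α : Type*} (s : Finset α) (g : α → ℝ) (hg : ∀ i, 0 ≤ g i) :
    √(√(∑ i ∈ s, g i)) ≤ ∑ i ∈ s, √(√(g i)) := by
  have h1 : ∀ (g : α → ℝ), (∀ i, 0 ≤ g i) → √(∑ i ∈ s, g i) ≤ ∑ i ∈ s, √(g i) := by
    intro g hg
    refine Real.sqrt_le_iff.2 ⟨sum_nonneg fun _ _ => Real.sqrt_nonneg _, ?_⟩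
    calc ∑ i ∈ s, g i = ∑ i ∈ s, √(g i) ^ 2 := sum_congr rfl fun i _ => (Real.sq_sqrt (hg i)).symm
      _ ≤ _ := sum_sq_le_sq_sum_of_nonneg fun _ _ => Real.sqrt_nonneg _
  exact (Real.sqrt_le_sqrt (h1 g hg)).trans (h1 _ fun _ => Real.sqrt_nonneg _)

end Crest.Agent.R239
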