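import Crest.Agent.R239.Res
import Crest.Agent.R239.Phi

/-!
Row 239: increments of the level operators along a system.

For a step `k` write `τ' = τ/16`, `α = Z.al w k = a²` where `D e = a e` (`Sys.diag_e`),
`z = Z.z w k`, `y, y' = Rm τ, τ' (Ps) z`, `A, A' = Wm τ, τ' (P (k+1)) z`, `bs, bs' = Wm τ, τ' (Ps) z`,
`b = bs - (h ⬝ bs) h`.  By `add_Gm`, `erase_Gm`, `Gm_mul_diag`, `erase_Wm`:
* `F (k+1) - F k = phi τ α • e eᵀ + (A' b'ᵀ - b' hᵀ - h bs'ᵀ) - (A bᵀ - b hᵀ - h bsᵀ)`,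
* `(F (k+1) - F k) D = (phi τ α * a) • e eᵀ + τ • A yᵀ - τ' • A' y'ᵀ - h (τ y - τ' y')ᵀ`.
Sum over `k ∈ Ico s t` (`Finset.sum_Ico_sub`/telescoping), and bound each sum of rank-one matrices:
`hs_sum_vecMulVec_le(')` with the Bessel families `e`, `h` (bound 1), `y` (bound `2/τ`), `y'`
(bound `32/τ`); `hs (∑ A bᵀ) ≤ ∑ |A||b| ≤ ∑ (|A|² + |bs|²)/2`.  With `μ` the total mass:
`hs ≤ 5 √μ + μ`, `hs (· D) / √τ ≤ (1 + √2 + 1 + 1) √μ ≤ 5 √μ`.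

`bessel_y`: by `erase_Rm`, `add_Rm`: `(y_k ⬝ u)² ≤ u R_{k+1} u - u R_k u + σ⁻¹ (e_k ⬝ u)²`; telescope,
use `res_le`, `res_nonneg` and `besselE`.
-/

set_option autoImplicit false
set_option linter.unusedSectionVars false

namespace Crest.Agent.R239

open Matrix Finset

variable {ι δ : Type} [Fintype ι] [Fintype δ] [DecidableEq ι] [DecidableEq δ]
variable {N : ℕ}

namespace Sys
variable (Z : Sys δ ι N)

theorem isProj_P {t : ℕ} (ht : t ≤ N) : IsProj (Z.P t) := by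
  exact isProj_of_coiso (Z.coiso t ht)

theorem e_unit {t : ℕ} (ht : t < N) : Z.e t ⬝ᵥ Z.e t = 1 := by
  obtain ⟨j, hj⟩ := Z.single t ht
  simp [hj]

theorem P_e {t : ℕ} (ht : t < N) : Z.P t *ᵥ Z.e t = 0 := by
  rw [P, ← mulVec_mulVec, Z.fresh t ht, mulVec_zero]

theorem isProj_Ps {t : ℕ} (ht : t < N) : IsProj (Z.Ps t) := by
  exact (Z.isProj_P ht.le).add_proj (Z.e_unit ht) (Z.P_e ht)

theorem Ps_h {t : ℕ} (ht : t < N) : Z.Ps t *ᵥ Z.h t = Z.h t := by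
  exact Z.fix t ht

theorem P_succ {t : ℕ} (ht : t < N) : Z.P (t + 1) = Z.Ps t - vecMulVec (Z.h t) (Z.h t) := by
  exact Z.step t ht

theorem diag_e (w : ι → ℝ) {t : ℕ} (ht : t < N) :
    ∃ a : ℝ, diagonal w *ᵥ Z.e t = a • Z.e t ∧ Z.al w t = a ^ 2 := by
  obtain ⟨j, hj⟩ := Z.single t ht
  have h : diagonal w *ᵥ Z.e t = w j • Z.e t := by
    rw [hj]
    funext i
    by_cases hij : i = j
    · subst hij; simp [mulVec_diagonal]
    · simp [mulVec_diagonal, hij]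
  refine ⟨w j, h, ?_⟩
  rw [al, h, smul_dotProduct, dotProduct_smul, Z.e_unit ht]
  simp [sq]

theorem al_nonneg (w : ι → ℝ) (t : ℕ) : 0 ≤ Z.al w t := by
  exact dot_self_nonneg _

theorem mass_nonneg (w : ι → ℝ) {τ : ℝ} (hτ : 0 < τ) (t : ℕ) : 0 ≤ Z.mass w τ t := by
  have := Z.al_nonneg w t
  unfold mass mu
  positivity

theorem bessel_y (w : ι → ℝ) {σ : ℝ} (hσ : 0 < σ) :
    Bessel (range N) (fun k => Rm w σ (Z.Ps k) *ᵥ Z.z w k) (2 / σ) := by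
  intro u
  have step : ∀ k ∈ range N, ((Rm w σ (Z.Ps k) *ᵥ Z.z w k) ⬝ᵥ u) ^ 2 ≤
      (u ⬝ᵥ (Rm w σ (Z.P (k + 1)) *ᵥ u) - u ⬝ᵥ (Rm w σ (Z.P k) *ᵥ u)) + σ⁻¹ * (Z.e k ⬝ᵥ u) ^ 2 := by
    intro k hk
    have hk' := mem_range.1 hk
    obtain ⟨a, ha, -⟩ := Z.diag_e w hk'
    have h1 := (Z.isProj_Ps hk').erase_Rm (Z.unit k hk') (Z.Ps_h hk') w hσ u
    rw [← Z.P_succ hk'] at h1
    have h2 : Rm w σ (Z.Ps k) = _ := (Z.isProj_P hk'.le).add_Rm (Z.e_unit hk') (Z.P_e hk') ha hσ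
    have h3 : u ⬝ᵥ (Rm w σ (Z.Ps k) *ᵥ u) =
        u ⬝ᵥ (Rm w σ (Z.P k) *ᵥ u) - (σ⁻¹ - (σ + a ^ 2)⁻¹) * (Z.e k ⬝ᵥ u) ^ 2 := by
      rw [h2, sub_mulVec, dotProduct_sub, smul_mulVec, vecMulVec_mulVec, dotProduct_smul,
        op_smul_eq_smul, dotProduct_smul, dotProduct_comm u (Z.e k)]
      simp only [smul_eq_mul, sq]
    have h4 : 0 ≤ (σ + a ^ 2)⁻¹ * (Z.e k ⬝ᵥ u) ^ 2 := by positivity
    unfold z
    nlinarith
  refine (sum_le_sum step).trans ?_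
  rw [sum_add_distrib, sum_range_sub (fun k => u ⬝ᵥ (Rm w σ (Z.P k) *ᵥ u)), ← mul_sum]
  have h1 := ((Z.isProj_P le_rfl).psd_Cm w).res_le hσ u
  have h2 := ((Z.isProj_P (Nat.zero_le N)).psd_Cm w).res_nonneg hσ u
  have h3 := mul_le_mul_of_nonneg_left (Z.besselE u) (inv_nonneg.2 hσ.le)
  unfold Rm
  rw [div_eq_mul_inv]
  linarith

theorem incr_le_sqrt {S : Finset ℕ} {A : Matrix ι ι ℝ} (a : ℕ → ι → ℝ) {β c : ℝ} (hc : 0 ≤ c)
    (h : hs A ^ 2 ≤ β * ∑ k ∈ S, nrm (a k) ^ 2) (m : ℕ → ℝ)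
    (hm : ∀ k ∈ S, β * nrm (a k) ^ 2 ≤ c ^ 2 * m k) : hs A ≤ c * √(∑ k ∈ S, m k) := by
  rw [← Real.sqrt_sq hc, ← Real.sqrt_mul (sq_nonneg c)]
  refine Real.le_sqrt_of_sq_le (h.trans ?_)
  rw [mul_sum, mul_sum]
  exact sum_le_sum hm

theorem incr_add (w : ι → ℝ) {τ : ℝ} (hτ : 0 < τ) {k : ℕ} (hk : k < N) :
    Fm w τ (Z.Ps k) - Fm w τ (Z.P k) = vecMulVec (Z.e k) (phi τ (Z.al w k) • Z.e k) := by
  obtain ⟨a, ha, ha2⟩ := Z.diag_e w hk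
  have h1 : Gm w τ (Z.Ps k) = _ := (Z.isProj_P hk.le).add_Gm (Z.e_unit hk) (Z.P_e hk) ha hτ
  have h2 : Gm w (τ / 16) (Z.Ps k) = _ :=
    (Z.isProj_P hk.le).add_Gm (Z.e_unit hk) (Z.P_e hk) ha (σ := τ / 16) (by positivity)
  rw [Fm, Fm, h1, h2, ha2, vecMulVec_smul, phi]
  module

/-- `A = Wn z` -/
noncomputable def incrA (w : ι → ℝ) (σ : ℝ) (k : ℕ) : ι → ℝ := Wm w σ (Z.P (k + 1)) *ᵥ Z.z w k
/-- `bs = Ws z` -/
noncomputable def incrS (w : ι → ℝ) (σ : ℝ) (k : ℕ) : ι → ℝ := Wm w σ (Z.Ps k) *ᵥ Z.z w k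
/-- `b = bs - (h ⬝ bs) h` -/
noncomputable def incrB (w : ι → ℝ) (σ : ℝ) (k : ℕ) : ι → ℝ :=
  Z.incrS w σ k - (Z.h k ⬝ᵥ Z.incrS w σ k) • Z.h k
/-- `y = Rs z` -/
noncomputable def incrY (w : ι → ℝ) (σ : ℝ) (k : ℕ) : ι → ℝ := Rm w σ (Z.Ps k) *ᵥ Z.z w k

theorem incr_G (w : ι → ℝ) {σ : ℝ} (hσ : 0 < σ) {k : ℕ} (hk : k < N) :
    Gm w σ (Z.P (k + 1)) - Gm w σ (Z.Ps k) = vecMulVec (Z.incrA w σ k) (Z.incrB w σ k) -
      vecMulVec (Z.incrB w σ k) (Z.h k) - vecMulVec (Z.h k) (Z.incrS w σ k) := by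
  have := (Z.isProj_Ps hk).erase_Gm (Z.unit k hk) (Z.Ps_h hk) w hσ (Z.incrA w σ k) (Z.incrS w σ k)
    (Z.incrB w σ k) (by rw [← Z.P_succ hk]; rfl) rfl rfl
  rwa [← Z.P_succ hk] at this

theorem incr_W (w : ι → ℝ) {σ : ℝ} (hσ : 0 < σ) {k : ℕ} (hk : k < N) :
    Wm w σ (Z.P (k + 1)) - Wm w σ (Z.Ps k) = vecMulVec (Z.incrA w σ k) (Z.incrY w σ k) -
      vecMulVec (Z.h k) (Z.incrY w σ k) := by
  have := (Z.isProj_Ps hk).erase_Wm (Z.unit k hk) (Z.Ps_h hk) w hσ (Z.incrA w σ k) (Z.incrY w σ k)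
    (by rw [← Z.P_succ hk]; rfl) rfl
  rwa [← Z.P_succ hk] at this

theorem incr_step (w : ι → ℝ) {τ : ℝ} (hτ : 0 < τ) {k : ℕ} (hk : k < N) :
    Fm w τ (Z.P (k + 1)) - Fm w τ (Z.P k) = vecMulVec (Z.e k) (phi τ (Z.al w k) • Z.e k) +
      (vecMulVec (Z.incrA w (τ / 16) k) (Z.incrB w (τ / 16) k) -
        vecMulVec (Z.incrA w τ k) (Z.incrB w τ k)) -
      vecMulVec (Z.incrB w (τ / 16) k) (Z.h k) - vecMulVec (Z.h k) (Z.incrS w (τ / 16) k) +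
      vecMulVec (Z.incrB w τ k) (Z.h k) + vecMulVec (Z.h k) (Z.incrS w τ k) := by
  have h1 := Z.incr_add w hτ hk
  have h2 := Z.incr_G w hτ hk
  have h3 := Z.incr_G w (σ := τ / 16) (by positivity) hk
  rw [← h1]
  simp only [Fm]
  linear_combination (norm := module) h3 - h2

theorem incr_step_diag (w : ι → ℝ) {τ : ℝ} (hτ : 0 < τ) {k : ℕ} (hk : k < N) :
    (Fm w τ (Z.P (k + 1)) - Fm w τ (Z.P k)) * diagonal w =
      vecMulVec (Z.e k) (phi τ (Z.al w k) • (diagonal w *ᵥ Z.e k)) +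
      vecMulVec (τ • Z.incrA w τ k) (Z.incrY w τ k) -
      vecMulVec ((τ / 16) • Z.incrA w (τ / 16) k) (Z.incrY w (τ / 16) k) -
      vecMulVec (Z.h k) (τ • Z.incrY w τ k - (τ / 16) • Z.incrY w (τ / 16) k) := by
  have hτ' : 0 < τ / 16 := by positivity
  have h1 : (Fm w τ (Z.Ps k) - Fm w τ (Z.P k)) * diagonal w =
      vecMulVec (Z.e k) (phi τ (Z.al w k) • (diagonal w *ᵥ Z.e k)) := by
    rw [Z.incr_add w hτ hk, vecMulVec_mul, smul_vecMul, ← mulVec_transpose, diagonal_transpose]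
  have h2 := Z.incr_W w hτ hk
  have h3 := Z.incr_W w hτ' hk
  have h4 := (Z.isProj_P (Nat.succ_le_of_lt hk)).Gm_mul_diag w hτ
  have h5 := (Z.isProj_P (Nat.succ_le_of_lt hk)).Gm_mul_diag w hτ'
  have h6 := (Z.isProj_Ps hk).Gm_mul_diag w hτ
  have h7 := (Z.isProj_Ps hk).Gm_mul_diag w hτ'
  rw [← h1, smul_vecMulVec, smul_vecMulVec, vecMulVec_sub, vecMulVec_smul, vecMulVec_smul]
  simp only [Fm, Matrix.sub_mul, Nat.succ_eq_add_one] at h4 h5 ⊢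
  rw [h4, h5, h6, h7]
  linear_combination (norm := module) τ • h2 - (τ / 16) • h3

theorem incr_tele (F : ℕ → Matrix ι ι ℝ) {s t : ℕ} (hst : s ≤ t) :
    F t - F s = ∑ k ∈ Ico s t, (F (k + 1) - F k) := by
  rw [Finset.sum_Ico_sub _ hst]

theorem incr_mass (w : ι → ℝ) (τ : ℝ) (k : ℕ) :
    Z.mass w τ k = phi τ (Z.al w k) ^ 2 * (1 + Z.al w k / τ)
      + nrm (τ • Z.incrY w τ k - (τ / 16) • Z.incrY w (τ / 16) k) ^ 2 / τ
      + nrm (Z.incrS w τ k) ^ 2 + nrm (Z.incrS w (τ / 16) k) ^ 2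
      + nrm (Z.incrA w τ k) ^ 2 + nrm (Z.incrA w (τ / 16) k) ^ 2 := rfl

theorem incr_B_le (w : ι → ℝ) (σ : ℝ) {k : ℕ} (hk : k < N) :
    nrm (Z.incrB w σ k) ≤ nrm (Z.incrS w σ k) := nrm_sub_proj_le (Z.unit k hk) _

theorem hs_incr (w : ι → ℝ) {τ : ℝ} (hτ : 0 < τ) {s t : ℕ} (hst : s ≤ t) (ht : t ≤ N) :
    hs (Fm w τ (Z.P t) - Fm w τ (Z.P s))
      ≤ 5 * √(∑ k ∈ Ico s t, Z.mass w τ k) + ∑ k ∈ Ico s t, Z.mass w τ k := by
  have hsub : Ico s t ⊆ range N := fun k hk => mem_range.2 ((mem_Ico.1 hk).2.trans_le ht)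
  have hlt : ∀ k ∈ Ico s t, k < N := fun k hk => mem_range.1 (hsub hk)
  have bE := Z.besselE.mono hsub
  have bH := Z.besselH.mono hsub
  rw [incr_tele (fun k => Fm w τ (Z.P k)) hst,
    sum_congr rfl fun k hk => Z.incr_step w hτ (hlt k hk)]
  rw [sum_add_distrib, sum_add_distrib, sum_sub_distrib, sum_sub_distrib, sum_add_distrib]
  have p1 : ∀ k, 0 ≤ phi τ (Z.al w k) ^ 2 * (Z.al w k / τ) := fun k =>
    mul_nonneg (sq_nonneg _) (div_nonneg (Z.al_nonneg w k) hτ.le)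
  have p2 : ∀ k, 0 ≤ nrm (τ • Z.incrY w τ k - (τ / 16) • Z.incrY w (τ / 16) k) ^ 2 / τ := fun k =>
    div_nonneg (sq_nonneg _) hτ.le
  have hS : ∀ k, nrm (Z.incrS w τ k) ^ 2 + nrm (Z.incrS w (τ / 16) k) ^ 2
      + nrm (Z.incrA w τ k) ^ 2 + nrm (Z.incrA w (τ / 16) k) ^ 2 + phi τ (Z.al w k) ^ 2 ≤
      Z.mass w τ k := fun k => by
    rw [Z.incr_mass]
    linarith [p1 k, p2 k]
  have hB : ∀ σ, ∀ k ∈ Ico s t, nrm (Z.incrB w σ k) ^ 2 ≤ nrm (Z.incrS w σ k) ^ 2 := fun σ k hk =>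
    pow_le_pow_left₀ (nrm_nonneg _) (Z.incr_B_le w σ (hlt k hk)) 2
  have t1 := incr_le_sqrt _ zero_le_one
    (hs_sum_vecMulVec_le' (fun k => phi τ (Z.al w k) • Z.e k) zero_le_one bE) (Z.mass w τ)
    (fun k hk => by
      rw [nrm_smul, mul_pow, sq_abs, nrm_sq (Z.e k), Z.e_unit (hlt k hk)]
      nlinarith [hS k, sq_nonneg (nrm (Z.incrS w τ k)), sq_nonneg (nrm (Z.incrS w (τ / 16) k)),
        sq_nonneg (nrm (Z.incrA w τ k)), sq_nonneg (nrm (Z.incrA w (τ / 16) k))])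
  have t2 := incr_le_sqrt _ zero_le_one
    (hs_sum_vecMulVec_le (fun k => Z.incrB w (τ / 16) k) zero_le_one bH) (Z.mass w τ)
    (fun k hk => by
      nlinarith [hS k, hB (τ / 16) k hk, sq_nonneg (nrm (Z.incrS w τ k)), sq_nonneg (phi τ (Z.al w k)),
        sq_nonneg (nrm (Z.incrA w τ k)), sq_nonneg (nrm (Z.incrA w (τ / 16) k))])
  have t3 := incr_le_sqrt _ zero_le_one
    (hs_sum_vecMulVec_le' (fun k => Z.incrS w (τ / 16) k) zero_le_one bH) (Z.mass w τ)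
    (fun k hk => by
      nlinarith [hS k, sq_nonneg (nrm (Z.incrS w τ k)), sq_nonneg (phi τ (Z.al w k)),
        sq_nonneg (nrm (Z.incrA w τ k)), sq_nonneg (nrm (Z.incrA w (τ / 16) k))])
  have t4 := incr_le_sqrt _ zero_le_one
    (hs_sum_vecMulVec_le (fun k => Z.incrB w τ k) zero_le_one bH) (Z.mass w τ)
    (fun k hk => by
      nlinarith [hS k, hB τ k hk, sq_nonneg (nrm (Z.incrS w (τ / 16) k)), sq_nonneg (phi τ (Z.al w k)),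
        sq_nonneg (nrm (Z.incrA w τ k)), sq_nonneg (nrm (Z.incrA w (τ / 16) k))])
  have t5 := incr_le_sqrt _ zero_le_one
    (hs_sum_vecMulVec_le' (fun k => Z.incrS w τ k) zero_le_one bH) (Z.mass w τ)
    (fun k hk => by
      nlinarith [hS k, sq_nonneg (nrm (Z.incrS w (τ / 16) k)), sq_nonneg (phi τ (Z.al w k)),
        sq_nonneg (nrm (Z.incrA w τ k)), sq_nonneg (nrm (Z.incrA w (τ / 16) k))])
  have t6 : hs (∑ k ∈ Ico s t, (vecMulVec (Z.incrA w (τ / 16) k) (Z.incrB w (τ / 16) k) -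
      vecMulVec (Z.incrA w τ k) (Z.incrB w τ k))) ≤ ∑ k ∈ Ico s t, Z.mass w τ k := by
    refine (hs_sum_le _ _).trans (sum_le_sum fun k hk => (hs_sub_le _ _).trans ?_)
    rw [hs_vecMulVec, hs_vecMulVec]
    nlinarith [hS k, hB τ k hk, hB (τ / 16) k hk, sq_nonneg (phi τ (Z.al w k)),
      sq_nonneg (nrm (Z.incrA w τ k) - nrm (Z.incrB w τ k)),
      sq_nonneg (nrm (Z.incrA w (τ / 16) k) - nrm (Z.incrB w (τ / 16) k)),
      sq_nonneg (nrm (Z.incrS w (τ / 16) k)), sq_nonneg (nrm (Z.incrS w τ k)),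
      sq_nonneg (nrm (Z.incrA w τ k)), sq_nonneg (nrm (Z.incrA w (τ / 16) k))]
  refine (hs_add_le _ _).trans ((add_le_add_left ((hs_add_le _ _).trans (add_le_add_left
    ((hs_sub_le _ _).trans (add_le_add_left ((hs_sub_le _ _).trans
      (add_le_add_left (hs_add_le _ _) _)) _)) _)) _).trans ?_)
  linarith

theorem hs_incr_diag (w : ι → ℝ) {τ : ℝ} (hτ : 0 < τ) {s t : ℕ} (hst : s ≤ t) (ht : t ≤ N) :
    hs ((Fm w τ (Z.P t) - Fm w τ (Z.P s)) * diagonal w) / √τ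
      ≤ 5 * √(∑ k ∈ Ico s t, Z.mass w τ k) := by
  have hτ' : 0 < τ / 16 := by positivity
  have hsub : Ico s t ⊆ range N := fun k hk => mem_range.2 ((mem_Ico.1 hk).2.trans_le ht)
  have hlt : ∀ k ∈ Ico s t, k < N := fun k hk => mem_range.1 (hsub hk)
  have bE := Z.besselE.mono hsub
  have bH := Z.besselH.mono hsub
  have bY : Bessel (Ico s t) (Z.incrY w τ) (2 / τ) := (Z.bessel_y w hτ).mono hsub
  have bY' : Bessel (Ico s t) (Z.incrY w (τ / 16)) (2 / (τ / 16)) := (Z.bessel_y w hτ').mono hsub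
  rw [incr_tele (fun k => Fm w τ (Z.P k)) hst, Matrix.sum_mul,
    sum_congr rfl fun k hk => Z.incr_step_diag w hτ (hlt k hk)]
  rw [sum_sub_distrib, sum_sub_distrib, sum_add_distrib, div_le_iff₀ (Real.sqrt_pos.2 hτ)]
  have hs0 := Real.sqrt_nonneg τ
  have hs2 := Real.sq_sqrt hτ.le
  have hS : ∀ k, phi τ (Z.al w k) ^ 2 * Z.al w k +
      nrm (τ • Z.incrY w τ k - (τ / 16) • Z.incrY w (τ / 16) k) ^ 2 +
      τ * nrm (Z.incrA w τ k) ^ 2 + τ * nrm (Z.incrA w (τ / 16) k) ^ 2 ≤ τ * Z.mass w τ k := fun k => by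
    have e : τ * Z.mass w τ k = τ * phi τ (Z.al w k) ^ 2 + phi τ (Z.al w k) ^ 2 * Z.al w k
        + nrm (τ • Z.incrY w τ k - (τ / 16) • Z.incrY w (τ / 16) k) ^ 2
        + τ * nrm (Z.incrS w τ k) ^ 2 + τ * nrm (Z.incrS w (τ / 16) k) ^ 2
        + τ * nrm (Z.incrA w τ k) ^ 2 + τ * nrm (Z.incrA w (τ / 16) k) ^ 2 := by
      rw [Z.incr_mass]; field_simp
    rw [e]
    have : 0 ≤ τ * phi τ (Z.al w k) ^ 2 + τ * nrm (Z.incrS w τ k) ^ 2 +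
      τ * nrm (Z.incrS w (τ / 16) k) ^ 2 := by positivity
    linarith
  have q1 : ∀ k, 0 ≤ phi τ (Z.al w k) ^ 2 * Z.al w k := fun k =>
    mul_nonneg (sq_nonneg _) (Z.al_nonneg w k)
  have q2 : ∀ k, 0 ≤ nrm (τ • Z.incrY w τ k - (τ / 16) • Z.incrY w (τ / 16) k) ^ 2 := fun k =>
    sq_nonneg _
  have q3 : ∀ k, 0 ≤ τ * nrm (Z.incrA w τ k) ^ 2 := fun k => by positivity
  have q4 : ∀ k, 0 ≤ τ * nrm (Z.incrA w (τ / 16) k) ^ 2 := fun k => by positivity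
  have t1 := incr_le_sqrt _ hs0
    (hs_sum_vecMulVec_le' (fun k => phi τ (Z.al w k) • (diagonal w *ᵥ Z.e k)) zero_le_one bE)
    (Z.mass w τ) (fun k hk => by
      rw [nrm_smul, mul_pow, sq_abs, nrm_sq (diagonal w *ᵥ Z.e k), hs2, one_mul]
      change phi τ (Z.al w k) ^ 2 * Z.al w k ≤ _
      linarith [hS k, q2 k, q3 k, q4 k])
  have t2 := incr_le_sqrt _ (c := 2 * √τ) (by positivity)
    (hs_sum_vecMulVec_le (fun k => τ • Z.incrA w τ k) (by positivity) bY) (Z.mass w τ)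
    (fun k hk => by
      rw [nrm_smul, mul_pow, sq_abs, mul_pow, hs2]
      have : 2 / τ * (τ ^ 2 * nrm (Z.incrA w τ k) ^ 2) = 2 * (τ * nrm (Z.incrA w τ k) ^ 2) := by
        field_simp
      rw [this]
      linarith [hS k, q1 k, q2 k, q3 k, q4 k])
  have t3 := incr_le_sqrt _ hs0
    (hs_sum_vecMulVec_le (fun k => (τ / 16) • Z.incrA w (τ / 16) k) (by positivity) bY') (Z.mass w τ)
    (fun k hk => by
      rw [nrm_smul, mul_pow, sq_abs, hs2]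
      have : 2 / (τ / 16) * ((τ / 16) ^ 2 * nrm (Z.incrA w (τ / 16) k) ^ 2) =
          (τ * nrm (Z.incrA w (τ / 16) k) ^ 2) / 8 := by
        field_simp; ring
      rw [this]
      linarith [hS k, q1 k, q2 k, q3 k, q4 k])
  have t4 := incr_le_sqrt _ hs0
    (hs_sum_vecMulVec_le' (fun k => τ • Z.incrY w τ k - (τ / 16) • Z.incrY w (τ / 16) k)
      zero_le_one bH) (Z.mass w τ)
    (fun k hk => by
      rw [hs2, one_mul]
      linarith [hS k, q1 k, q2 k, q3 k, q4 k])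
  refine ((hs_sub_le _ _).trans (add_le_add_left ((hs_sub_le _ _).trans
      (add_le_add_left (hs_add_le _ _) _)) _)).trans ?_
  linarith

theorem nn_incr (w : ι → ℝ) {τ : ℝ} (hτ : 0 < τ) {s t : ℕ} (hst : s ≤ t) (ht : t ≤ N) :
    nn w τ (Fm w τ (Z.P t) - Fm w τ (Z.P s))
      ≤ 10 * (√(∑ k ∈ Ico s t, Z.mass w τ k) + ∑ k ∈ Ico s t, Z.mass w τ k) := by
  have h1 := Z.hs_incr w hτ hst ht
  have h2 := Z.hs_incr_diag w hτ hst ht
  have h3 : 0 ≤ ∑ k ∈ Ico s t, Z.mass w τ k := sum_nonneg fun k _ => Z.mass_nonneg w hτ k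
  unfold nn
  linarith

end Sys

end Crest.Agent.R239
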