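import Crest.Agent.R239.Spec
import Crest.Agent.R239.Incr

/-!
Row 239: the total mass over all levels is bounded.
Per step `k`: `∑ q, lev q * mass ≤ 15 α + (1 + 2 + 18 + 2 + 18) |z|²` by `tau_phi_sq_le`,
`sum_phi_le_one`, `PSD.sum_diff_le`, `IsProj.nrm_Wm_sq`, `PSD.sum_res_le(')` (applied to
`Cm w (Ps k)` and `Cm w (P (k+1))`).  Then `∑ α ≤ ∑ w²`, `∑ |z|² ≤ ∑ w²` by `Bessel.trace`.
-/

set_option autoImplicit false

namespace Crest.Agent.R239

open Matrix Finset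

variable {ι δ : Type} [Fintype ι] [Fintype δ] [DecidableEq ι] [DecidableEq δ]
variable {N : ℕ}

theorem Sys.mass_step (Z : Sys δ ι N) (w : ι → ℝ) (Q : ℕ) {k : ℕ} (hk : k < N) :
    ∑ q ∈ range Q, lev q * Z.mass w (lev q) k ≤ 15 * Z.al w k + 41 * (Z.z w k ⬝ᵥ Z.z w k) := by
  have hs := Z.isProj_Ps hk
  have hn := Z.isProj_P (t := k + 1) hk
  have ha := Z.al_nonneg w k
  have h1 : ∑ q ∈ range Q, lev q * (phi (lev q) (Z.al w k) ^ 2 * (1 + Z.al w k / lev q))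
      ≤ 15 * Z.al w k := by
    refine (sum_le_sum fun q _ => tau_phi_sq_le (lev_pos q) ha).trans ?_
    rw [← mul_sum]
    exact mul_le_of_le_one_right (by positivity) (sum_phi_le_one Q ha)
  have h2 := (hs.psd_Cm w).sum_diff_le Q (Z.z w k)
  have h3 := (hs.psd_Cm w).sum_res_le Q (Z.z w k)
  have h4 := (hs.psd_Cm w).sum_res_le' Q (Z.z w k)
  have h5 := (hn.psd_Cm w).sum_res_le Q (Z.z w k)
  have h6 := (hn.psd_Cm w).sum_res_le' Q (Z.z w k)
  refine le_trans (le_of_eq ?_)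
    ((add_le_add (add_le_add (add_le_add (add_le_add (add_le_add h1 h2) h3) h4) h5) h6).trans
      (le_of_eq (by ring)))
  simp only [← sum_add_distrib]
  refine sum_congr rfl fun q _ => ?_
  have hq := (lev_pos q).ne'
  rw [Sys.mass, mu, hs.nrm_Wm_sq, hs.nrm_Wm_sq, hn.nrm_Wm_sq, hn.nrm_Wm_sq]
  simp only [Rm, mul_add, mul_div_cancel₀ _ hq]

theorem Sys.mass_total (Z : Sys δ ι N) (w : ι → ℝ) (hw : ∑ j, w j ^ 2 ≤ 2) (Q : ℕ) :
    ∑ q ∈ range Q, lev q * ∑ k ∈ range N, Z.mass w (lev q) k ≤ 112 := by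
  simp only [mul_sum]
  rw [sum_comm]
  refine (sum_le_sum fun k hk => Z.mass_step w Q (mem_range.1 hk)).trans ?_
  rw [sum_add_distrib, ← mul_sum, ← mul_sum]
  have h1 := Z.besselE.trace w
  have h2 := Z.besselH.trace w
  simp only [Sys.al, Sys.z]
  linarith

end Crest.Agent.R239
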