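import Crest.Agent.R239.Spec

/-!
Row 239: the level operators at a fixed time.

`coiso_spectral`: apply `PSD.spectral` to `C = M D D Mᵀ = U diag(l) Uᵀ` and put `V = Uᵀ M`.  Then
`V Vᵀ = 1`, `Vᵀ V = Mᵀ M`, `V D D Vᵀ = diag l`.  With `B = D Vᵀ`: `Cm = B Bᵀ`, `Bᵀ B = diag l`,
`(B Bᵀ + σ) B = B diag(l + σ)`, so `R B = B diag (l + σ)⁻¹`, `Gm = Vᵀ (Bᵀ R B) V = Vᵀ diag(l/(l+σ)) V`.
`l i = ∑ j, w j ^ 2 * V i j ^ 2` with `∑ j, V i j ^ 2 = 1` and `∑ i, V i j ^ 2 = P j j ≤ 1`.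
`nn_sq_le`: `hs F ^ 2 = ∑ phi²`, `hs (F D) ^ 2 = ∑ phi² l` (`hs_sq_trace`, `trace_mul_comm`),
`(p + q)² ≤ 2 p² + 2 q²`.
`frame`: `|F_q x|² = ∑ i, phi² (V x) i ^ 2`, `|M x|² = x ⬝ P x = |V x|²`, `sum_phi_sq_ge`.
`size_sum`: `nn² ≤ 2 ∑ phi` (`phi_mul_le_one`), `√nn = √√(nn²) ≤ 2 ∑ √√phi` (`root_sum_le`), then
`sum_phi_le_one`, `sum_root_phi_le`.  `size_init`: `tau_phi_sq_le`.
-/

set_option autoImplicit false

namespace Crest.Agent.R239

open Matrix Finset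

variable {ι δ : Type} [Fintype ι] [Fintype δ] [DecidableEq ι] [DecidableEq δ]

theorem size_Gm {V : Matrix δ ι ℝ} {l : δ → ℝ} {w : ι → ℝ} (hV : V * Vᵀ = 1)
    (hD : V * diagonal w * diagonal w * Vᵀ = diagonal l) (hl : ∀ i, 0 ≤ l i) {σ : ℝ} (hσ : 0 < σ) :
    Gm w σ (Vᵀ * V) = Vᵀ * diagonal (fun i => l i / (l i + σ)) * V := by
  have hR := ((isProj_of_coiso hV).psd_Cm w).res_mul hσ
  set R := Res (Cm w (Vᵀ * V)) σ with hRdef
  have h1 : (Cm w (Vᵀ * V) + σ • (1 : Matrix ι ι ℝ)) * (diagonal w * Vᵀ)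
      = diagonal w * Vᵀ * diagonal (fun i => l i + σ) := by
    have e : diagonal (fun i => l i + σ) = diagonal l + σ • (1 : Matrix δ δ ℝ) := by
      rw [← diagonal_one, ← diagonal_smul, diagonal_add]
      congr 1
      funext i
      simp
    rw [e, ← hD, Cm, Matrix.add_mul, Matrix.mul_add, Matrix.smul_mul, Matrix.mul_smul,
      Matrix.one_mul, Matrix.mul_one]
    simp only [Matrix.mul_assoc]
  have h2 : R * (diagonal w * Vᵀ) = diagonal w * Vᵀ * diagonal (fun i => (l i + σ)⁻¹) := by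
    have e : diagonal (fun i => l i + σ) * diagonal (fun i => (l i + σ)⁻¹) = (1 : Matrix δ δ ℝ) := by
      rw [diagonal_mul_diagonal, ← diagonal_one]
      congr 1
      funext i
      exact mul_inv_cancel₀ (by linarith [hl i])
    calc R * (diagonal w * Vᵀ)
        = R * (diagonal w * Vᵀ * diagonal (fun i => l i + σ)) * diagonal (fun i => (l i + σ)⁻¹) := by
          rw [Matrix.mul_assoc R, Matrix.mul_assoc (diagonal w * Vᵀ), e, Matrix.mul_one]
      _ = _ := by rw [← h1, ← Matrix.mul_assoc R, hR, Matrix.one_mul]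
  have h3 : diagonal (fun i => l i / (l i + σ)) = diagonal l * diagonal (fun i => (l i + σ)⁻¹) := by
    rw [diagonal_mul_diagonal]
    rfl
  calc Gm w σ (Vᵀ * V) = Vᵀ * (V * diagonal w * (R * (diagonal w * Vᵀ))) * V := by
        simp only [Gm, Wm, Rm, ← hRdef, Matrix.mul_assoc]
    _ = _ := by
        rw [h2, h3, ← hD]
        simp only [Matrix.mul_assoc]

theorem size_trace {V : Matrix δ ι ℝ} (hV : V * Vᵀ = 1) (f : δ → ℝ) :
    (Vᵀ * diagonal f * V).trace = ∑ i, f i := by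
  rw [trace_mul_comm, ← Matrix.mul_assoc, hV, Matrix.one_mul, trace_diagonal]

theorem size_l_eq {V : Matrix δ ι ℝ} {l : δ → ℝ} {w : ι → ℝ}
    (hD : V * diagonal w * diagonal w * Vᵀ = diagonal l) (i : δ) :
    l i = ∑ j, w j ^ 2 * V i j ^ 2 := by
  have := congrFun (congrFun hD i) i
  rw [diagonal_apply_eq, Matrix.mul_apply] at this
  rw [← this]
  refine sum_congr rfl fun j _ => ?_
  rw [mul_diagonal, mul_diagonal, transpose_apply]
  ring

theorem size_row {V : Matrix δ ι ℝ} (hV : V * Vᵀ = 1) (i : δ) : ∑ j, V i j ^ 2 = 1 := by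
  have := congrFun (congrFun hV i) i
  rw [one_apply_eq, Matrix.mul_apply] at this
  rw [← this]
  exact sum_congr rfl fun j _ => by rw [transpose_apply, sq]

theorem size_col {V : Matrix δ ι ℝ} (hV : V * Vᵀ = 1) (j : ι) : ∑ i, V i j ^ 2 ≤ 1 := by
  have hP := isProj_of_coiso hV
  have h1 : (Vᵀ * V) j j = ∑ i, V i j ^ 2 := by
    rw [Matrix.mul_apply]
    exact sum_congr rfl fun i _ => by rw [transpose_apply, sq]
  have h2 : (Vᵀ * V) j j = ∑ k, (Vᵀ * V) j k ^ 2 := by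
    conv_lhs => rw [← hP.idem]
    rw [Matrix.mul_apply]
    refine sum_congr rfl fun k _ => ?_
    have := congrFun (congrFun hP.symm j) k
    rw [transpose_apply] at this
    rw [this, sq]
  have h3 : (Vᵀ * V) j j ^ 2 ≤ ∑ k, (Vᵀ * V) j k ^ 2 :=
    single_le_sum (f := fun k => (Vᵀ * V) j k ^ 2) (fun _ _ => sq_nonneg _) (mem_univ j)
  rw [← h2, h1] at h3
  nlinarith

theorem coiso_spectral {M : Matrix δ ι ℝ} (hM : M * Mᵀ = 1) (w : ι → ℝ) :
    ∃ (V : Matrix δ ι ℝ) (l : δ → ℝ), V * Vᵀ = 1 ∧ Vᵀ * V = Mᵀ * M ∧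
      V * diagonal w * diagonal w * Vᵀ = diagonal l ∧ (∀ i, 0 ≤ l i) ∧
      (∀ a : ℝ, (∀ j, a ≤ w j ^ 2) → ∀ i, a ≤ l i) ∧ ∑ i, l i ≤ ∑ j, w j ^ 2 ∧
      ∀ τ : ℝ, 0 < τ → Fm w τ (Mᵀ * M) = Vᵀ * diagonal (fun i => phi τ (l i)) * V := by
  have hC : PSD (M * diagonal w * diagonal w * Mᵀ) := by
    constructor
    · simp only [transpose_mul, diagonal_transpose, transpose_transpose, Matrix.mul_assoc]
    · intro x
      have : x ⬝ᵥ ((M * diagonal w * diagonal w * Mᵀ) *ᵥ x)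
          = ((diagonal w * Mᵀ) *ᵥ x) ⬝ᵥ ((diagonal w * Mᵀ) *ᵥ x) := by
        rw [Matrix.mul_assoc (M * diagonal w), ← mulVec_mulVec, dotProduct_mulVec,
          ← mulVec_transpose, transpose_mul, diagonal_transpose]
      rw [this]
      exact dot_self_nonneg _
  obtain ⟨U, l, h1, h2, hl, hS⟩ := hC.spectral
  have hV : Uᵀ * M * (Uᵀ * M)ᵀ = 1 := by
    rw [transpose_mul, transpose_transpose, Matrix.mul_assoc, ← Matrix.mul_assoc M, hM,
      Matrix.one_mul, h1]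
  have hVV : (Uᵀ * M)ᵀ * (Uᵀ * M) = Mᵀ * M := by
    rw [transpose_mul, transpose_transpose, Matrix.mul_assoc, ← Matrix.mul_assoc U, h2,
      Matrix.one_mul]
  have hD : Uᵀ * M * diagonal w * diagonal w * (Uᵀ * M)ᵀ = diagonal l := by
    calc Uᵀ * M * diagonal w * diagonal w * (Uᵀ * M)ᵀ
        = Uᵀ * (M * diagonal w * diagonal w * Mᵀ) * U := by
          simp only [transpose_mul, transpose_transpose, Matrix.mul_assoc]
      _ = (Uᵀ * U) * diagonal l * (Uᵀ * U) := by rw [hS]; simp only [Matrix.mul_assoc]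
      _ = _ := by rw [h1, Matrix.one_mul, Matrix.mul_one]
  refine ⟨Uᵀ * M, l, hV, hVV, hD, hl, fun a ha i => ?_, ?_, fun τ hτ => ?_⟩
  · rw [size_l_eq hD i, ← mul_one a, ← size_row hV i, mul_sum]
    exact sum_le_sum fun j _ => mul_le_mul_of_nonneg_right (ha j) (sq_nonneg _)
  · simp only [size_l_eq hD]
    rw [sum_comm]
    refine sum_le_sum fun j _ => ?_
    rw [← mul_sum]
    exact mul_le_of_le_one_right (sq_nonneg _) (size_col hV j)
  · rw [← hVV, Fm, size_Gm hV hD hl hτ, size_Gm hV hD hl (by positivity : 0 < τ / 16),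
      ← Matrix.sub_mul, ← Matrix.mul_sub, diagonal_sub]
    rfl

theorem nn_sq_le {V : Matrix δ ι ℝ} {l : δ → ℝ} {w : ι → ℝ} (hV : V * Vᵀ = 1)
    (hD : V * diagonal w * diagonal w * Vᵀ = diagonal l) (g : δ → ℝ) {τ : ℝ} (hτ : 0 < τ) :
    nn w τ (Vᵀ * diagonal g * V) ^ 2 ≤ 2 * ∑ i, g i ^ 2 * (1 + l i / τ) := by
  have h1 : hs (Vᵀ * diagonal g * V) ^ 2 = ∑ i, g i ^ 2 := by
    rw [hs_sq_trace, ← size_trace hV]
    congr 1
    calc Vᵀ * diagonal g * V * (Vᵀ * diagonal g * V)ᵀ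
        = Vᵀ * (diagonal g * (V * Vᵀ) * diagonal g) * V := by
          simp only [transpose_mul, transpose_transpose, diagonal_transpose, Matrix.mul_assoc]
      _ = _ := by
          rw [hV, Matrix.mul_one, diagonal_mul_diagonal]
          simp only [sq]
  have h2 : hs (Vᵀ * diagonal g * V * diagonal w) ^ 2 = ∑ i, g i ^ 2 * l i := by
    rw [hs_sq_trace, ← size_trace hV]
    congr 1
    calc Vᵀ * diagonal g * V * diagonal w * (Vᵀ * diagonal g * V * diagonal w)ᵀ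
        = Vᵀ * (diagonal g * (V * diagonal w * diagonal w * Vᵀ) * diagonal g) * V := by
          simp only [transpose_mul, transpose_transpose, diagonal_transpose, Matrix.mul_assoc]
      _ = _ := by
          rw [hD, diagonal_mul_diagonal, diagonal_mul_diagonal]
          congr 3
          funext i
          ring
  have h3 : (hs (Vᵀ * diagonal g * V * diagonal w) / √τ) ^ 2 = ∑ i, g i ^ 2 * (l i / τ) := by
    rw [div_pow, h2, Real.sq_sqrt hτ.le, sum_div]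
    exact sum_congr rfl fun i _ => mul_div_assoc _ _ _
  simp only [mul_add, mul_one, sum_add_distrib]
  rw [← h1, ← h3, nn]
  nlinarith [sq_nonneg (hs (Vᵀ * diagonal g * V) - hs (Vᵀ * diagonal g * V * diagonal w) / √τ)]

theorem frame {M : Matrix δ ι ℝ} (hM : M * Mᵀ = 1) {w : ι → ℝ} (hw : ∑ j, w j ^ 2 ≤ 2) {Q : ℕ}
    {a : ℝ} (ha : lev Q < a) (hQ : ∀ j, a ≤ w j ^ 2) (x : ι → ℝ) :
    nrm (M *ᵥ x) ^ 2 ≤ 9 * ∑ q ∈ range Q, nrm (Fm w (lev q) (Mᵀ * M) *ᵥ x) ^ 2 := by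
  obtain ⟨V, l, hV, hVV, -, hl, hla, hsum, hF⟩ := coiso_spectral hM w
  have key : ∀ (A : Matrix δ ι ℝ) (y : ι → ℝ), (A *ᵥ y) ⬝ᵥ (A *ᵥ y) = y ⬝ᵥ ((Aᵀ * A) *ᵥ y) := by
    intro A y
    rw [← mulVec_mulVec, dotProduct_mulVec y, vecMul_transpose]
  have h1 : nrm (M *ᵥ x) ^ 2 = ∑ i, (V *ᵥ x) i ^ 2 := by
    rw [nrm_sq, key, ← hVV, ← key, dot_self_eq_sum]
  have h2 : ∀ q, nrm (Fm w (lev q) (Mᵀ * M) *ᵥ x) ^ 2
      = ∑ i, phi (lev q) (l i) ^ 2 * (V *ᵥ x) i ^ 2 := by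
    intro q
    rw [hF _ (lev_pos q), nrm_sq, ← mulVec_mulVec, ← mulVec_mulVec, dotProduct_mulVec,
      vecMul_transpose, mulVec_mulVec, hV, one_mulVec, dot_self_eq_sum]
    exact sum_congr rfl fun i _ => by rw [mulVec_diagonal, mul_pow]
  simp only [h2]
  rw [h1, sum_comm, mul_sum]
  refine sum_le_sum fun i _ => ?_
  rw [← sum_mul, ← mul_assoc]
  refine le_mul_of_one_le_left (sq_nonneg _) (sum_phi_sq_ge Q (ha.trans_le (hla a hQ i)) ?_)
  have := single_le_sum (f := l) (fun i _ => hl i) (mem_univ i)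
  linarith

theorem size_sum {M : Matrix δ ι ℝ} (hM : M * Mᵀ = 1) (w : ι → ℝ) (Q : ℕ) :
    ∑ q ∈ range Q, (nn w (lev q) (Fm w (lev q) (Mᵀ * M)) ^ 2 + √(nn w (lev q) (Fm w (lev q) (Mᵀ * M))))
      ≤ 40 * Fintype.card δ := by
  obtain ⟨V, l, hV, -, hD, hl, -, -, hF⟩ := coiso_spectral hM w
  have h1 : ∀ q, nn w (lev q) (Fm w (lev q) (Mᵀ * M)) ^ 2 ≤ 2 * ∑ i, phi (lev q) (l i) := by
    intro q
    rw [hF _ (lev_pos q)]
    refine (nn_sq_le hV hD _ (lev_pos q)).trans (mul_le_mul_of_nonneg_left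
      (sum_le_sum fun i _ => ?_) zero_le_two)
    rw [sq, mul_assoc]
    exact mul_le_of_le_one_right (phi_nonneg (lev_pos q) (hl i)) (phi_mul_le_one (lev_pos q) (hl i))
  have h2 : ∀ q, √(nn w (lev q) (Fm w (lev q) (Mᵀ * M)))
      ≤ 2 * ∑ i, √(√(phi (lev q) (l i))) := by
    intro q
    have hs0 : 0 ≤ ∑ i, phi (lev q) (l i) := sum_nonneg fun i _ => phi_nonneg (lev_pos q) (hl i)
    have e1 : nn w (lev q) (Fm w (lev q) (Mᵀ * M)) ≤ 4 * √(∑ i, phi (lev q) (l i)) := by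
      refine basic_le_of_sq ?_ (by positivity)
      rw [mul_pow, Real.sq_sqrt hs0]
      linarith [h1 q]
    refine le_trans ?_ (mul_le_mul_of_nonneg_left
      (root_sum_le univ _ fun i => phi_nonneg (lev_pos q) (hl i)) zero_le_two)
    refine Real.sqrt_le_iff.2 ⟨by positivity, ?_⟩
    rw [mul_pow, Real.sq_sqrt (Real.sqrt_nonneg _)]
    linarith
  refine (sum_le_sum fun q _ => add_le_add (h1 q) (h2 q)).trans ?_
  rw [sum_add_distrib, ← mul_sum, ← mul_sum, sum_comm, sum_comm (s := range Q)]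
  have h3 : ∑ i, ∑ q ∈ range Q, phi (lev q) (l i) ≤ ∑ _i : δ, (1 : ℝ) :=
    sum_le_sum fun i _ => sum_phi_le_one Q (hl i)
  have h4 : ∑ i, ∑ q ∈ range Q, √(√(phi (lev q) (l i))) ≤ ∑ _i : δ, (16 : ℝ) :=
    sum_le_sum fun i _ => sum_root_phi_le Q (hl i)
  simp only [sum_const, card_univ, nsmul_eq_mul] at h3 h4
  have h5 : (0 : ℝ) ≤ Fintype.card δ := Nat.cast_nonneg _
  linarith

theorem size_init {M : Matrix δ ι ℝ} (hM : M * Mᵀ = 1) {w : ι → ℝ} (hw : ∑ j, w j ^ 2 ≤ 2) (Q : ℕ) :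
    ∑ q ∈ range Q, lev q * nn w (lev q) (Fm w (lev q) (Mᵀ * M)) ^ 2 ≤ 60 := by
  obtain ⟨V, l, hV, -, hD, hl, -, hsum, hF⟩ := coiso_spectral hM w
  have h1 : ∀ q, lev q * nn w (lev q) (Fm w (lev q) (Mᵀ * M)) ^ 2
      ≤ 2 * ∑ i, 15 * l i * phi (lev q) (l i) := by
    intro q
    rw [hF _ (lev_pos q)]
    refine (mul_le_mul_of_nonneg_left (nn_sq_le hV hD _ (lev_pos q)) (lev_pos q).le).trans ?_
    rw [mul_left_comm, mul_sum]
    exact mul_le_mul_of_nonneg_left (sum_le_sum fun i _ => tau_phi_sq_le (lev_pos q) (hl i))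
      zero_le_two
  refine (sum_le_sum fun q _ => h1 q).trans ?_
  rw [← mul_sum, sum_comm]
  have h2 : ∑ i, ∑ q ∈ range Q, 15 * l i * phi (lev q) (l i) ≤ ∑ i, 15 * l i := by
    refine sum_le_sum fun i _ => ?_
    rw [← mul_sum]
    exact mul_le_of_le_one_right (by linarith [hl i]) (sum_phi_le_one Q (hl i))
  rw [← mul_sum] at h2
  linarith

end Crest.Agent.R239
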