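import Crest.Agent.R239.Chain
import Crest.Agent.R239.Mass
import Crest.Agent.R239.Size

/-!
Row 239: the design theorem: a cheap family of constraints forcing all `|M t x| ≲ √d`.

`level`: apply `chain` with `n = nn w τ`, `T = N + 1`, `F 0 = 0`, `F (k+1) = Fm w τ (P k)`, `m 0 = 0`,
`m (k+1) = nn (Fm (P 0))² + ∑ i < k, mass i`, `e Δ = nrm (Δ *ᵥ x) / 3`; `hinc` from `Sys.nn_incr`
(for `s = 0` add `nn (Fm (P 0)) = √(nn ..²)` by `nn_add_le`).
`design`: choose `a > 0` below all `w j ^ 2` (finite; `a = 1` if `ι` is empty), `Q` with `lev Q < a`,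
take the `biUnion` over `q < Q` of the families of `level` (`sum_biUnion_le_of_nonneg`,
`hs_le_nn`, `hs_mul_hs_le_nn`, `size_init`, `mass_total`: `300 * (60 + 112) ≤ 60000`), and
`frame`, `size_sum`: `9 * 2 * 600² * 40 ≤ 3e8` (note `(√√n)² = √n`).
-/

set_option autoImplicit false

namespace Crest.Agent.R239

open Matrix Finset

variable {ι δ : Type} [Fintype ι] [Fintype δ] [DecidableEq ι] [DecidableEq δ]
variable {N : ℕ}

theorem Sys.level (Z : Sys δ ι N) (w : ι → ℝ) {τ : ℝ} (hτ : 0 < τ) :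
    ∃ S : Finset (Matrix ι ι ℝ × ℝ), (∀ c ∈ S, 0 < c.2 ∧ nn w τ c.1 ≤ c.2) ∧
      ∑ c ∈ S, (nn w τ c.1 / c.2) ^ 4
        ≤ 300 * (nn w τ (Fm w τ (Z.P 0)) ^ 2 + ∑ k ∈ range N, Z.mass w τ k) ∧
      ∀ x : ι → ℝ, (∀ c ∈ S, nrm (c.1 *ᵥ x) ≤ 3 * c.2) → ∀ t, t ≤ N →
        nrm (Fm w τ (Z.P t) *ᵥ x)
          ≤ 600 * (nn w τ (Fm w τ (Z.P t)) + √(√(nn w τ (Fm w τ (Z.P t))))) := by
  let F : ℕ → Matrix ι ι ℝ := fun k => Nat.casesOn k 0 fun k => Fm w τ (Z.P k)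
  let m : ℕ → ℝ := fun k => Nat.casesOn k 0 fun k =>
    nn w τ (Fm w τ (Z.P 0)) ^ 2 + ∑ i ∈ range k, Z.mass w τ i
  have hμ : ∀ s : Finset ℕ, 0 ≤ ∑ i ∈ s, Z.mass w τ i := fun s =>
    sum_nonneg fun k _ => Z.mass_nonneg w hτ k
  have hmono : Monotone m := by
    refine monotone_nat_of_le_succ fun k => ?_
    cases k with
    | zero => exact add_nonneg (sq_nonneg _) (hμ _)
    | succ k =>
      change _ + ∑ i ∈ range k, Z.mass w τ i ≤ _ + ∑ i ∈ range (k + 1), Z.mass w τ i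
      rw [sum_range_succ]
      linarith [Z.mass_nonneg w hτ k]
  obtain ⟨S, h1, h2, h3⟩ := chain (nn w τ) (nn_nonneg w τ) (nn_add_le w τ) (nn_neg w τ)
    (fun _ => nn_eq_zero w τ) F rfl (N + 1) m rfl hmono (by
      intro s t hst ht
      cases t with
      | zero =>
        obtain rfl : s = 0 := by omega
        simp [nn]
      | succ t =>
        cases s with
        | zero =>
          change nn w τ (Fm w τ (Z.P t) - 0) ≤ 11 * (√(_ + ∑ i ∈ range t, Z.mass w τ i - 0) +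
            (_ + ∑ i ∈ range t, Z.mass w τ i - 0))
          have k1 := Z.nn_incr w hτ (Nat.zero_le t) (by omega)
          have k2 := nn_add_le w τ (Fm w τ (Z.P t) - Fm w τ (Z.P 0)) (Fm w τ (Z.P 0))
          rw [sub_add_cancel] at k2
          rw [← range_eq_Ico] at k1
          simp only [sub_zero]
          have k3 := hμ (range t)
          have k4 : √(∑ i ∈ range t, Z.mass w τ i) ≤
              √(nn w τ (Fm w τ (Z.P 0)) ^ 2 + ∑ i ∈ range t, Z.mass w τ i) :=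
            Real.sqrt_le_sqrt (by linarith [sq_nonneg (nn w τ (Fm w τ (Z.P 0)))])
          have k5 : nn w τ (Fm w τ (Z.P 0)) ≤
              √(nn w τ (Fm w τ (Z.P 0)) ^ 2 + ∑ i ∈ range t, Z.mass w τ i) :=
            Real.le_sqrt_of_sq_le (by linarith)
          linarith [sq_nonneg (nn w τ (Fm w τ (Z.P 0)))]
        | succ s =>
          change nn w τ (Fm w τ (Z.P t) - Fm w τ (Z.P s)) ≤
            11 * (√(_ + ∑ i ∈ range t, Z.mass w τ i - (_ + ∑ i ∈ range s, Z.mass w τ i)) +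
              (_ + ∑ i ∈ range t, Z.mass w τ i - (_ + ∑ i ∈ range s, Z.mass w τ i)))
          have k1 := Z.nn_incr w hτ (s := s) (t := t) (by omega) (by omega)
          rw [add_sub_add_left_eq_sub, ← sum_Ico_eq_sub _ (by omega : s ≤ t)]
          linarith [hμ (Ico s t), Real.sqrt_nonneg (∑ i ∈ Ico s t, Z.mass w τ i)])
  refine ⟨S, h1, h2, fun x hx t ht => ?_⟩
  have := h3 (fun Δ => nrm (Δ *ᵥ x) / 3) (by simp) (fun a b => by
    rw [add_mulVec]; linarith [nrm_add_le (a *ᵥ x) (b *ᵥ x)])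
    (fun c hc => by linarith [hx c hc]) (t + 1) (by omega)
  change nrm (Fm w τ (Z.P t) *ᵥ x) / 3 ≤
    200 * (nn w τ (Fm w τ (Z.P t)) + √(√(nn w τ (Fm w τ (Z.P t))))) at this
  linarith

theorem Sys.design (Z : Sys δ ι N) (w : ι → ℝ) (hw0 : ∀ j, 0 < w j) (hw : ∑ j, w j ^ 2 ≤ 2) :
    ∃ S : Finset (Matrix ι ι ℝ × ℝ), (∀ c ∈ S, 0 < c.2 ∧ hs c.1 ≤ c.2) ∧
      ∑ c ∈ S, hs c.1 ^ 2 * hs (c.1 * diagonal w) ^ 2 / c.2 ^ 4 ≤ 60000 ∧
      ∀ x : ι → ℝ, (∀ c ∈ S, nrm (c.1 *ᵥ x) ≤ 3 * c.2) → ∀ t, t ≤ N →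
        nrm (Z.M t *ᵥ x) ^ 2 ≤ 300000000 * Fintype.card δ := by
  classical
  have hlev : ∀ q, 0 < lev q := fun q => by unfold lev; positivity
  obtain ⟨a, ha, haw⟩ : ∃ a : ℝ, 0 < a ∧ ∀ j, a ≤ w j ^ 2 := by
    rcases isEmpty_or_nonempty ι with h | h
    · exact ⟨1, one_pos, fun j => h.elim j⟩
    · obtain ⟨j, hj⟩ := Finite.exists_min fun j => w j ^ 2
      exact ⟨_, pow_pos (hw0 j) 2, hj⟩
  obtain ⟨Q, hQ⟩ : ∃ Q, lev Q < a := by
    obtain ⟨Q, hQ⟩ := pow_unbounded_of_one_lt (16 / a) (by norm_num : (1 : ℝ) < 16)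
    refine ⟨Q, ?_⟩
    rw [div_lt_iff₀ ha] at hQ
    rw [lev, div_lt_iff₀ (by positivity)]
    linarith
  choose S h1 h2 h3 using fun q => Z.level w (hlev q)
  refine ⟨(range Q).biUnion S, fun c hc => ?_, ?_, fun x hx t ht => ?_⟩
  · obtain ⟨q, -, hq⟩ := mem_biUnion.1 hc
    exact ⟨(h1 q c hq).1, (hs_le_nn w _ _).trans (h1 q c hq).2⟩
  · refine (sum_biUnion_le_of_nonneg _ _ _ fun c => by positivity).trans ?_
    have k1 := size_init (Z.coiso 0 (Nat.zero_le _)) hw Q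
    have k2 := Z.mass_total w hw Q
    have k3 : ∀ q ∈ range Q, ∑ c ∈ S q, hs c.1 ^ 2 * hs (c.1 * diagonal w) ^ 2 / c.2 ^ 4 ≤
        300 * (lev q * nn w (lev q) (Fm w (lev q) ((Z.M 0)ᵀ * Z.M 0)) ^ 2) +
          300 * (lev q * ∑ k ∈ range N, Z.mass w (lev q) k) := by
      intro q _
      calc _ ≤ ∑ c ∈ S q, lev q * (nn w (lev q) c.1 / c.2) ^ 4 := by
            refine sum_le_sum fun c _ => ?_
            rw [div_pow, ← mul_div_assoc]
            exact div_le_div_of_nonneg_right (hs_mul_hs_le_nn w _ (hlev q) _) (by positivity)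
        _ ≤ lev q * (300 * (nn w (lev q) (Fm w (lev q) (Z.P 0)) ^ 2 +
            ∑ k ∈ range N, Z.mass w (lev q) k)) := by
            rw [← mul_sum]
            exact mul_le_mul_of_nonneg_left (h2 q) (hlev q).le
        _ = _ := by rw [Sys.P]; ring
    refine (sum_le_sum k3).trans ?_
    rw [sum_add_distrib, ← mul_sum, ← mul_sum]
    linarith
  · have k1 := frame (Z.coiso t ht) hw hQ haw x
    have k2 := size_sum (Z.coiso t ht) w Q
    have k3 : ∀ q ∈ range Q, nrm (Fm w (lev q) ((Z.M t)ᵀ * Z.M t) *ᵥ x) ^ 2 ≤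
        720000 * (nn w (lev q) (Fm w (lev q) ((Z.M t)ᵀ * Z.M t)) ^ 2 +
          √(nn w (lev q) (Fm w (lev q) ((Z.M t)ᵀ * Z.M t)))) := by
      intro q hq
      have k4 := h3 q x (fun c hc => hx c (mem_biUnion.2 ⟨q, hq, hc⟩)) t ht
      rw [Sys.P] at k4
      have k5 := pow_le_pow_left₀ (nrm_nonneg _) k4 2
      have k6 := Real.sq_sqrt (Real.sqrt_nonneg (nn w (lev q) (Fm w (lev q) ((Z.M t)ᵀ * Z.M t))))
      nlinarith [sq_nonneg (nn w (lev q) (Fm w (lev q) ((Z.M t)ᵀ * Z.M t)) -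
        √(√(nn w (lev q) (Fm w (lev q) ((Z.M t)ᵀ * Z.M t)))))]
    have k7 := sum_le_sum k3
    rw [← mul_sum] at k7
    have : (0 : ℝ) ≤ Fintype.card δ := Nat.cast_nonneg _
    linarith

end Crest.Agent.R239
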