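import Crest.Agent.R239.Basic

/-!
Row 239: the lossless filter.  `ι = δ ⊕ Fin N`, `e t j = 1` iff `j = inr i` with `i = t`,
`M 0 a (inl b) = δ_ab`, `M 0 a (inr _) = 0`, `x t = v t ᵥ* M t` (`= (M t)ᵀ v t`),
`M (t+1) = M t + vecMulVec (v t) (κ • e t - c • x t)`, `h t = κ • x t - (1 - c) • e t`.
By induction on `t`: `M t *ᵥ e j = 0` for `t ≤ j < N` (so `x t ⬝ e j = 0`) and `M t (M t)ᵀ = 1`
(`M t (κ e - c x) = - c v`, `|κ e - c x|² = κ² + c² = 2 c`).  With `w = κ e - c x`: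
`P (t+1) = P t + x wᵀ + w xᵀ + w wᵀ = P t + e eᵀ - h hᵀ` using `κ² + (1 - c)² = 1`
(entrywise: `ext`, `linear_combination`).  `P t x = x`, `P t e = 0`.
Bessel for `h`: by induction `∑ k < t, (h k ⬝ y)² = y ⬝ P 0 y + ∑ k < t, (e k ⬝ y)² - |M t y|²`, and
`y ⬝ P 0 y + ∑ k < N, (e k ⬝ y)² = y ⬝ y` (`Fintype.sum_sum_type`).  For `t ≠ i`,
`h t ⬝ e i = κ (x t ⬝ e i)`, and `x i ⬝ e i = 0`, which gives the bound on `∑ (x t ⬝ e i)²`.
The last identity: induction on `t`, `M 0 *ᵥ p = 0` and `e t ⬝ p = ξ t`.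
-/

set_option autoImplicit false

namespace Crest.Agent.R239

open Matrix Finset

section aux
variable {δ : Type} [Fintype δ] [DecidableEq δ]

/-- the fresh coordinates -/
def filter_e (δ : Type) (N t : ℕ) : δ ⊕ Fin N → ℝ :=
  Sum.elim 0 fun i => if (i : ℕ) = t then 1 else 0

/-- the coisometries -/
noncomputable def filter_M (N : ℕ) (v : ℕ → δ → ℝ) (c κ : ℝ) : ℕ → Matrix δ (δ ⊕ Fin N) ℝ
  | 0 => fromCols 1 0
  | t + 1 => filter_M N v c κ t
      + vecMulVec (v t) (κ • filter_e δ N t - c • (v t ᵥ* filter_M N v c κ t))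

omit [Fintype δ] in
theorem filter_e_single {N : ℕ} (i : Fin N) :
    filter_e δ N i = Pi.single (Sum.inr i) 1 := by
  funext j
  rcases j with b | j
  · simp [filter_e]
  · by_cases h : j = i
    · subst h; simp [filter_e]
    · simp [filter_e, h, Fin.val_inj]

theorem filter_e_dot {N : ℕ} (i : Fin N) (y : δ ⊕ Fin N → ℝ) :
    filter_e δ N i ⬝ᵥ y = y (Sum.inr i) := by
  rw [filter_e_single, single_dotProduct, one_mul]

omit [DecidableEq δ] in
theorem filter_e_ne {N s t : ℕ} (h : s ≠ t) : filter_e δ N s ⬝ᵥ filter_e δ N t = 0 := by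
  refine Finset.sum_eq_zero fun j _ => ?_
  rcases j with b | j
  · simp [filter_e]
  · by_cases h1 : (j : ℕ) = s
    · have : (j : ℕ) ≠ t := h1 ▸ h
      simp [filter_e, this]
    · simp [filter_e, h1]

theorem filter_e_self {N t : ℕ} (h : t < N) : filter_e δ N t ⬝ᵥ filter_e δ N t = 1 := by
  have := filter_e_dot (δ := δ) ⟨t, h⟩ (filter_e δ N t)
  simpa [filter_e] using this

theorem filter_fresh (N : ℕ) (v : ℕ → δ → ℝ) (c κ : ℝ) (t : ℕ) :
    ∀ j, t ≤ j → filter_M N v c κ t *ᵥ filter_e δ N j = 0 := by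
  induction t with
  | zero =>
    intro j _
    simp [filter_M, filter_e]
  | succ t ih =>
    intro j hj
    rw [filter_M, add_mulVec, ih j (by omega), vecMulVec_mulVec, sub_dotProduct, smul_dotProduct,
      smul_dotProduct, filter_e_ne (by omega), ← dotProduct_mulVec, ih j (by omega)]
    simp

omit [DecidableEq δ] in
theorem filter_coiso_step {ι : Type} [Fintype ι] [DecidableEq δ] {M : Matrix δ ι ℝ}
    (hM : M * Mᵀ = 1) {v : δ → ℝ} (hv : v ⬝ᵥ v = 1) {e : ι → ℝ} (he : e ⬝ᵥ e = 1)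
    (hMe : M *ᵥ e = 0) {c κ : ℝ} (hκ : κ ^ 2 = c * (2 - c)) :
    M *ᵥ (v ᵥ* M) = v ∧ (v ᵥ* M) ⬝ᵥ (v ᵥ* M) = 1 ∧ (v ᵥ* M) ⬝ᵥ e = 0 ∧
    (M + vecMulVec v (κ • e - c • (v ᵥ* M))) * (M + vecMulVec v (κ • e - c • (v ᵥ* M)))ᵀ = 1 := by
  have h1 : M *ᵥ (v ᵥ* M) = v := by rw [← mulVec_transpose, mulVec_mulVec, hM, one_mulVec]
  have h2 : (v ᵥ* M) ⬝ᵥ (v ᵥ* M) = 1 := by rw [← dotProduct_mulVec, h1, hv]
  have h3 : (v ᵥ* M) ⬝ᵥ e = 0 := by rw [← dotProduct_mulVec, hMe, dotProduct_zero]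
  refine ⟨h1, h2, h3, ?_⟩
  set w := κ • e - c • (v ᵥ* M) with hw
  have h4 : M *ᵥ w = -c • v := by
    rw [hw, mulVec_sub, mulVec_smul, mulVec_smul, hMe, h1]; simp
  have h5 : w ⬝ᵥ w = 2 * c := by
    simp only [hw, sub_dotProduct, dotProduct_sub, smul_dotProduct, dotProduct_smul, smul_eq_mul,
      he, h2, h3, dotProduct_comm e (v ᵥ* M)]
    linear_combination hκ
  rw [transpose_add, transpose_vecMulVec, Matrix.add_mul, Matrix.mul_add, Matrix.mul_add, hM,
    mul_vecMulVec, vecMulVec_mul, vecMul_transpose, h4, vecMulVec_mul_vecMulVec, h5]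
  ext a b
  simp only [Matrix.add_apply, vecMulVec_apply, Pi.smul_apply, smul_eq_mul]
  ring

theorem filter_coiso (N : ℕ) (v : ℕ → δ → ℝ) (hv : ∀ t, t < N → v t ⬝ᵥ v t = 1) {c κ : ℝ}
    (hκ : κ ^ 2 = c * (2 - c)) (t : ℕ) (ht : t ≤ N) :
    filter_M N v c κ t * (filter_M N v c κ t)ᵀ = 1 := by
  induction t with
  | zero => simp [filter_M, transpose_fromCols, fromCols_mul_fromRows]
  | succ t ih =>
    exact (filter_coiso_step (ih (by omega)) (hv t ht) (filter_e_self ht)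
      (filter_fresh N v c κ t t le_rfl) hκ).2.2.2

omit [DecidableEq δ] in
theorem filter_step {ι : Type} [Fintype ι] (M : Matrix δ ι ℝ) {v : δ → ℝ} (hv : v ⬝ᵥ v = 1)
    (e : ι → ℝ) {c κ : ℝ} (hκ : κ ^ 2 = c * (2 - c)) :
    (M + vecMulVec v (κ • e - c • (v ᵥ* M)))ᵀ * (M + vecMulVec v (κ • e - c • (v ᵥ* M)))
      = Mᵀ * M + vecMulVec e e
        - vecMulVec (κ • (v ᵥ* M) - (1 - c) • e) (κ • (v ᵥ* M) - (1 - c) • e) := by
  rw [transpose_add, transpose_vecMulVec, Matrix.add_mul, Matrix.mul_add, Matrix.mul_add,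
    mul_vecMulVec, vecMulVec_mul, mulVec_transpose, vecMulVec_mul_vecMulVec, hv]
  ext a b
  simp only [Matrix.add_apply, Matrix.sub_apply, vecMulVec_apply, Pi.smul_apply, Pi.sub_apply,
    smul_eq_mul]
  linear_combination (e a * e b + (v ᵥ* M) a * (v ᵥ* M) b) * hκ

omit [DecidableEq δ] in
theorem filter_quad {ι : Type} [Fintype ι] (M : Matrix δ ι ℝ) (y : ι → ℝ) :
    y ⬝ᵥ ((Mᵀ * M) *ᵥ y) = (M *ᵥ y) ⬝ᵥ (M *ᵥ y) := by
  rw [← mulVec_mulVec, dotProduct_mulVec, vecMul_transpose]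

theorem filter_sumE (N : ℕ) (y : δ ⊕ Fin N → ℝ) :
    ∑ k ∈ range N, (filter_e δ N k ⬝ᵥ y) ^ 2 = ∑ i : Fin N, y (Sum.inr i) ^ 2 := by
  rw [← Fin.sum_univ_eq_sum_range (fun k => (filter_e δ N k ⬝ᵥ y) ^ 2) N]
  exact Finset.sum_congr rfl fun i _ => by rw [filter_e_dot]

theorem filter_besselH (N : ℕ) (v : ℕ → δ → ℝ) (hv : ∀ t, t < N → v t ⬝ᵥ v t = 1) {c κ : ℝ}
    (hκ : κ ^ 2 = c * (2 - c)) :
    Bessel (range N) (fun t => κ • (v t ᵥ* filter_M N v c κ t) - (1 - c) • filter_e δ N t) 1 := by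
  intro y
  have key : ∀ t, t ≤ N →
      ∑ k ∈ range t, ((κ • (v k ᵥ* filter_M N v c κ k) - (1 - c) • filter_e δ N k) ⬝ᵥ y) ^ 2
        + (filter_M N v c κ t *ᵥ y) ⬝ᵥ (filter_M N v c κ t *ᵥ y)
      = ∑ a, y (Sum.inl a) ^ 2 + ∑ k ∈ range t, (filter_e δ N k ⬝ᵥ y) ^ 2 := by
    intro t ht
    induction t with
    | zero =>
      have : filter_M N v c κ 0 *ᵥ y = fun a => y (Sum.inl a) := by
        conv_lhs => rw [← Sum.elim_comp_inl_inr y]
        simp [filter_M]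
        rfl
      simp [this, dot_self_eq_sum]
    | succ t ih =>
      have h1 := ih (by omega)
      rw [Finset.sum_range_succ, Finset.sum_range_succ, ← filter_quad, filter_M,
        filter_step _ (hv t ht) _ hκ, sub_mulVec, add_mulVec, dotProduct_sub, dotProduct_add,
        filter_quad, vecMulVec_mulVec, vecMulVec_mulVec]
      simp only [op_smul_eq_smul]
      rw [dotProduct_smul, dotProduct_smul]
      simp only [smul_eq_mul, dotProduct_comm y]
      linear_combination h1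
  have h := key N le_rfl
  rw [filter_sumE] at h
  rw [one_mul, dot_self_eq_sum y, Fintype.sum_sum_type, ← h]
  exact le_add_of_nonneg_right (dot_self_nonneg _)

end aux

theorem filter {δ : Type} [Fintype δ] [DecidableEq δ] (N : ℕ) (v : ℕ → δ → ℝ)
    (hv : ∀ t, t < N → v t ⬝ᵥ v t = 1) (c κ : ℝ) (hκ : κ ^ 2 = c * (2 - c)) :
    ∃ (Z : Sys δ (δ ⊕ Fin N) N) (x : ℕ → δ ⊕ Fin N → ℝ),
      (∀ i : Fin N, Z.e i = Pi.single (Sum.inr i) 1) ∧
      (∀ t, t < N → x t ⬝ᵥ x t = 1) ∧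
      (∀ i j, i ≤ j → j < N → x i ⬝ᵥ Z.e j = 0) ∧
      (∀ i, i < N → κ ^ 2 * ∑ t ∈ range N, (x t ⬝ᵥ Z.e i) ^ 2 ≤ 1) ∧
      ∀ (ξ : ℕ → ℝ) (t : ℕ), t ≤ N → Z.M t *ᵥ (∑ i ∈ range N, ξ i • Z.e i)
        = ∑ i ∈ range t, (κ * ξ i - c * (x i ⬝ᵥ ∑ i ∈ range N, ξ i • Z.e i)) • v i := by
  have hco := filter_coiso N v hv hκ
  have hfr := filter_fresh N v c κ
  have hst : ∀ t, t < N → _ := fun t ht =>
    filter_coiso_step (hco t ht.le) (hv t ht) (filter_e_self ht) (hfr t t le_rfl) hκ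
  have hxe : ∀ i j, i ≤ j → (v i ᵥ* filter_M N v c κ i) ⬝ᵥ filter_e δ N j = 0 := fun i j hij => by
    rw [← dotProduct_mulVec, hfr i j hij, dotProduct_zero]
  refine ⟨
    { M := filter_M N v c κ
      e := filter_e δ N
      h := fun t => κ • (v t ᵥ* filter_M N v c κ t) - (1 - c) • filter_e δ N t
      coiso := hco
      single := fun t ht => ⟨Sum.inr ⟨t, ht⟩, filter_e_single ⟨t, ht⟩⟩
      fresh := fun t _ => hfr t t le_rfl
      step := fun t ht => filter_step _ (hv t ht) _ hκ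
      unit := fun t ht => ?_
      fix := fun t ht => ?_
      besselE := fun y => ?_
      besselH := filter_besselH N v hv hκ },
    fun t => v t ᵥ* filter_M N v c κ t, filter_e_single, fun t ht => (hst t ht).2.1,
    fun i j hij _ => hxe i j hij, fun i hi => ?_, fun ξ t ht => ?_⟩
  · simp only [sub_dotProduct, dotProduct_sub, smul_dotProduct, dotProduct_smul, smul_eq_mul,
      filter_e_self ht, (hst t ht).2.1, (hst t ht).2.2.1,
      dotProduct_comm (filter_e δ N t) (v t ᵥ* filter_M N v c κ t)]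
    linear_combination hκ
  · rw [add_mulVec, ← mulVec_mulVec, mulVec_sub, mulVec_smul, mulVec_smul, (hst t ht).1,
      hfr t t le_rfl, vecMulVec_mulVec, dotProduct_sub, dotProduct_smul, dotProduct_smul,
      dotProduct_comm (filter_e δ N t) (v t ᵥ* filter_M N v c κ t), (hst t ht).2.2.1,
      filter_e_self ht, smul_zero, sub_zero, mulVec_smul, mulVec_transpose, op_smul_eq_smul]
    module
  · rw [filter_sumE, one_mul, dot_self_eq_sum y, Fintype.sum_sum_type]
    exact le_add_of_nonneg_left (Finset.sum_nonneg fun _ _ => sq_nonneg _)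
  · have h := filter_besselH N v hv hκ (filter_e δ N i)
    rw [filter_e_self hi, one_mul] at h
    rw [Finset.mul_sum]
    refine (Finset.sum_le_sum fun t _ => ?_).trans h
    by_cases hti : t = i
    · subst hti
      simp only [hxe t t le_rfl]
      simpa using sq_nonneg _
    · simp only [sub_dotProduct, smul_dotProduct, filter_e_ne hti, smul_eq_mul]
      exact le_of_eq (by ring)
  · simp only
    induction t with
    | zero => simp [mulVec_sum, mulVec_smul, hfr 0]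
    | succ t ih =>
      have he : filter_e δ N t ⬝ᵥ ∑ i ∈ range N, ξ i • filter_e δ N i = ξ t := by
        rw [dotProduct_sum, Finset.sum_eq_single t]
        · rw [dotProduct_smul, filter_e_self ht, smul_eq_mul, mul_one]
        · intro b _ hb
          rw [dotProduct_smul, filter_e_ne hb.symm, smul_zero]
        · intro h
          exact absurd (Finset.mem_range.2 ht) h
      rw [filter_M, add_mulVec, ih (by omega), Finset.sum_range_succ, vecMulVec_mulVec,
        op_smul_eq_smul, sub_dotProduct, smul_dotProduct, smul_dotProduct, he, smul_eq_mul,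
        smul_eq_mul]

end Crest.Agent.R239
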