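import Crest.Agent.R239.Basic

/-!
Row 239: the Karingula-Lovett splitting lemma with a predictable perturbation.

Induction on `n`, generalizing `Ω K f`.  All functions are continuous with compact support
(`HasCompactSupport.intro`, `Continuous.integrable_of_hasCompactSupport`).
Base: `y ω = (∫ f ω)⁻¹ • ∫ f ω x • x` lies in `K ω` when `∫ f ω ≠ 0` (e.g. `Convex.average_mem` /
`Convex.integral_mem` for the probability measure `volume.withDensity`, or separation: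
`geometric_hahn_banach_point_closed`).
Step (`v = u n`): on `Ω × Bool` (or `Ω ⊕ Ω`) put `f (ω,0) x = max (f ω (x + 3 v)) (f ω (x - 3 v)) / 2`
on `K ω + segment (-3 v) (3 v)`, and `f (ω,1) = min (..) (..) / 2` on
`{x | x + 3 v ∈ K ω ∧ x - 3 v ∈ K ω}`.  `max + min = a + b` gives the same masses and means
(translation invariance); `|max a b - max a' b'| + |min a b - min a' b'| ≤ |a - a'| + |b - b'|`
keeps the shift bounds for `i < n`; `a i ⬝ v = 0` for `i ≤ n` keeps the slab bounds;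
`M₁ = ∑ ∫ f (ω,1) = (1 - T/2)/2 ≥ 5/12` (`min a b = (a + b - |a - b|)/2`).  From the induction
hypothesis write `y (ω,0) = k ω + s ω • v`, `|s ω| ≤ 3`; `p = ∑ m • y` has `|a n ⬝ p| ≤ 1/4`;
`σ = ∑ m (ω,0) * s ω`, `|σ| ≤ 3 (1 - M₁) ≤ 7/4`; choose `ε = ±1` with `|σ + ε| ≤ 1`, put
`ξ n = ε + a n ⬝ p`, `s = (σ + ξ n) / M₁`, `|s| ≤ 3`, and
`y ω = (m ω)⁻¹ • (m (ω,0) • k ω + m (ω,1) • (y (ω,1) + s • v))`.
`kl_one`: `Ω = Unit`, the mean vanishes by evenness (`integral_neg_eq_self`).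
-/

set_option autoImplicit false

namespace Crest.Agent.R239

open Matrix Finset MeasureTheory

variable {ι : Type} [Fintype ι]

/-- continuous functions vanishing off a compact set -/
structure kl_CC {F : Type} [NormedAddCommGroup F] (g : (ι → ℝ) → F) : Prop where
  cont : Continuous g
  supp : HasCompactSupport g

theorem kl_CC.int {F : Type} [NormedAddCommGroup F] {g : (ι → ℝ) → F} (h : kl_CC g) :
    Integrable g := h.cont.integrable_of_hasCompactSupport h.supp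

omit [Fintype ι] in
theorem kl_CC.of_supp {K : Set (ι → ℝ)} {f : (ι → ℝ) → ℝ} (hK : IsCompact K) (hf : Continuous f)
    (hs : ∀ x, f x ≠ 0 → x ∈ K) : kl_CC f :=
  ⟨hf, HasCompactSupport.intro hK fun x hx => by
    by_contra h
    exact hx (hs x h)⟩

omit [Fintype ι] in
theorem kl_CC.add_right {F : Type} [NormedAddCommGroup F] {g : (ι → ℝ) → F} (h : kl_CC g)
    (w : ι → ℝ) : kl_CC fun x => g (x + w) :=
  ⟨h.cont.comp (by fun_prop), h.supp.comp_homeomorph (Homeomorph.addRight w)⟩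

omit [Fintype ι] in
theorem kl_CC.sub_right {F : Type} [NormedAddCommGroup F] {g : (ι → ℝ) → F} (h : kl_CC g)
    (w : ι → ℝ) : kl_CC fun x => g (x - w) := by
  simpa only [sub_eq_add_neg] using h.add_right (-w)

theorem kl_CC.smul_id {f : (ι → ℝ) → ℝ} (h : kl_CC f) : kl_CC fun x => f x • x :=
  ⟨h.cont.smul continuous_id, h.supp.smul_right (f' := fun x : ι → ℝ => x)⟩

theorem kl_CC.smul_const {f : (ι → ℝ) → ℝ} (h : kl_CC f) (w : ι → ℝ) :
    kl_CC fun x => f x • w :=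
  ⟨h.cont.smul continuous_const, h.supp.smul_right (f' := fun _ : ι → ℝ => w)⟩

omit [Fintype ι] in
theorem kl_CC.comp₂ {f g : (ι → ℝ) → ℝ} (hf : kl_CC f) (hg : kl_CC g) (m : ℝ → ℝ → ℝ)
    (hm : Continuous fun p : ℝ × ℝ => m p.1 p.2) (h0 : m 0 0 = 0) :
    kl_CC fun x => m (f x) (g x) :=
  ⟨hm.comp (hf.cont.prodMk hg.cont), hf.supp.comp₂_left hg.supp h0⟩

theorem kl_mean_zero {f : (ι → ℝ) → ℝ} (h : kl_CC f) (h0 : ∀ x, 0 ≤ f x) (hm : ∫ x, f x = 0) :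
    ∫ x, f x • x = 0 := by
  have := (integral_eq_zero_iff_of_nonneg (fun x => h0 x) h.int).1 hm
  refine integral_eq_zero_of_ae ?_
  filter_upwards [this] with x hx
  simp only [Pi.zero_apply] at hx
  simp [hx]

theorem kl_mean_mem {K : Set (ι → ℝ)} {f : (ι → ℝ) → ℝ} (hK : IsCompact K) (hKv : Convex ℝ K)
    (hf : Continuous f) (h0 : ∀ x, 0 ≤ f x) (hs : ∀ x, f x ≠ 0 → x ∈ K) (hm : ∫ x, f x ≠ 0) :
    (∫ x, f x)⁻¹ • ∫ x, f x • x ∈ K := by
  by_contra hp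
  have hcc := kl_CC.of_supp hK hf hs
  obtain ⟨ℓ, s, h1, h2⟩ := geometric_hahn_banach_point_closed hKv hK.isClosed hp
  have hpos : 0 < ∫ x, f x := lt_of_le_of_ne (integral_nonneg fun x => h0 x) hm.symm
  have h3 : ℓ (∫ x, f x • x) = ∫ x, f x * ℓ x := by
    rw [← ℓ.integral_comp_comm hcc.smul_id.int]
    simp
  have h4 : (∫ x, f x) * s ≤ ∫ x, f x * ℓ x := by
    rw [← integral_mul_const]
    refine integral_mono (hcc.int.mul_const s) ?_ fun x => ?_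
    · simpa using ℓ.integrable_comp hcc.smul_id.int
    · by_cases hx : f x = 0
      · simp [hx]
      · exact mul_le_mul_of_nonneg_left (h2 x (hs x hx)).le (h0 x)
  rw [map_smul, smul_eq_mul, h3, inv_mul_lt_iff₀ hpos] at h1
  linarith

theorem kl_maxmin (a b a' b' : ℝ) :
    |max a b / 2 - max a' b' / 2| + |min a b / 2 - min a' b' / 2| ≤ (|a - a'| + |b - b'|) / 2 := by
  have h1 := le_abs_self (a - a')
  have h2 := neg_abs_le (a - a')
  have h3 := le_abs_self (b - b')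
  have h4 := neg_abs_le (b - b')
  rcases le_total a b with h | h <;> rcases le_total a' b' with h' | h' <;>
    simp only [max_eq_left, max_eq_right, min_eq_left, min_eq_right, h, h'] <;>
    rcases abs_cases (max a b / 2 - max a' b' / 2) with ⟨e, -⟩ | ⟨e, -⟩ <;>
    rcases abs_cases (min a b / 2 - min a' b' / 2) with ⟨e', -⟩ | ⟨e', -⟩ <;>
    simp only [max_eq_left, max_eq_right, min_eq_left, min_eq_right, h, h'] at e e' <;>
    rw [e, e'] <;> linarith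

/-- the upper piece -/
noncomputable def kl_up (f : (ι → ℝ) → ℝ) (w : ι → ℝ) (x : ι → ℝ) : ℝ :=
  max (f (x + w)) (f (x - w)) / 2

/-- the lower piece -/
noncomputable def kl_lo (f : (ι → ℝ) → ℝ) (w : ι → ℝ) (x : ι → ℝ) : ℝ :=
  min (f (x + w)) (f (x - w)) / 2

omit [Fintype ι] in
theorem kl_up_cc {f : (ι → ℝ) → ℝ} (h : kl_CC f) (w : ι → ℝ) : kl_CC (kl_up f w) :=
  (h.add_right w).comp₂ (h.sub_right w) (fun a b => max a b / 2) (by fun_prop) (by simp)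

omit [Fintype ι] in
theorem kl_lo_cc {f : (ι → ℝ) → ℝ} (h : kl_CC f) (w : ι → ℝ) : kl_CC (kl_lo f w) :=
  (h.add_right w).comp₂ (h.sub_right w) (fun a b => min a b / 2) (by fun_prop) (by simp)

omit [Fintype ι] in
theorem kl_up_add_lo (f : (ι → ℝ) → ℝ) (w x : ι → ℝ) :
    kl_up f w x + kl_lo f w x = (f (x + w) + f (x - w)) / 2 := by
  rw [kl_up, kl_lo, ← add_div, max_add_min]

theorem kl_mass {f : (ι → ℝ) → ℝ} (h : kl_CC f) (w : ι → ℝ) :
    (∫ x, kl_up f w x) + ∫ x, kl_lo f w x = ∫ x, f x := by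
  rw [← integral_add (kl_up_cc h w).int (kl_lo_cc h w).int]
  simp_rw [kl_up_add_lo]
  rw [integral_div, integral_add (h.add_right w).int (h.sub_right w).int,
    integral_add_right_eq_self, integral_sub_right_eq_self]
  ring

theorem kl_mean {f : (ι → ℝ) → ℝ} (h : kl_CC f) (w : ι → ℝ) :
    (∫ x, kl_up f w x • x) + ∫ x, kl_lo f w x • x = ∫ x, f x • x := by
  rw [← integral_add (kl_up_cc h w).smul_id.int (kl_lo_cc h w).smul_id.int]
  have e1 : ∫ x, f (x + w) • x = (∫ x, f x • x) - ∫ x, f x • w := by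
    rw [← integral_sub h.smul_id.int (h.smul_const w).int,
      ← integral_add_right_eq_self (fun x => f x • x - f x • w) w]
    simp [smul_add]
  have e2 : ∫ x, f (x - w) • x = (∫ x, f x • x) + ∫ x, f x • w := by
    rw [← integral_add h.smul_id.int (h.smul_const w).int,
      ← integral_sub_right_eq_self (fun x => f x • x + f x • w) w]
    simp [smul_sub]
  have e3 : ∀ x, kl_up f w x • x + kl_lo f w x • x
      = (1 / 2 : ℝ) • (f (x + w) • x + f (x - w) • x) := by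
    intro x
    rw [← add_smul, kl_up_add_lo, ← add_smul, smul_smul]
    congr 1
    ring
  simp_rw [e3]
  rw [integral_smul, integral_add (h.add_right w).smul_id.int (h.sub_right w).smul_id.int, e1, e2]
  module

theorem kl_lo_mass {f : (ι → ℝ) → ℝ} (h : kl_CC f) (w : ι → ℝ) :
    ∫ x, kl_lo f w x = (∫ x, f x) / 2 - (∫ x, |f (x + w) - f (x - w)|) / 4 := by
  have e : ∀ x, kl_lo f w x = (f (x + w) + f (x - w)) / 4 - |f (x + w) - f (x - w)| / 4 := by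
    intro x
    rw [kl_lo]
    rcases le_total (f (x + w)) (f (x - w)) with h' | h'
    · rw [min_eq_left h', abs_of_nonpos (by linarith)]; ring
    · rw [min_eq_right h', abs_of_nonneg (by linarith)]; ring
  simp_rw [e]
  have i1 : Integrable fun x => (f (x + w) + f (x - w)) / 4 :=
    ((h.add_right w).int.add (h.sub_right w).int).div_const 4
  have i2 : Integrable fun x => |f (x + w) - f (x - w)| / 4 :=
    ((h.add_right w).int.sub (h.sub_right w).int).abs.div_const 4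
  rw [integral_sub i1 i2, integral_div, integral_div,
    integral_add (h.add_right w).int (h.sub_right w).int,
    integral_add_right_eq_self, integral_sub_right_eq_self]
  ring

theorem kl_tv {f : (ι → ℝ) → ℝ} (h : kl_CC f) (w z : ι → ℝ) :
    (∫ x, |kl_up f w (x + z) - kl_up f w (x - z)|) + ∫ x, |kl_lo f w (x + z) - kl_lo f w (x - z)|
      ≤ ∫ x, |f (x + z) - f (x - z)| := by
  have hg : kl_CC fun x => |f (x + z) - f (x - z)| :=
    (h.add_right z).comp₂ (h.sub_right z) (fun a b => |a - b|) (by fun_prop) (by simp)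
  have i1 := (((kl_up_cc h w).add_right z).int.sub ((kl_up_cc h w).sub_right z).int).abs
  have i2 := (((kl_lo_cc h w).add_right z).int.sub ((kl_lo_cc h w).sub_right z).int).abs
  have i3 := ((hg.add_right w).int.add (hg.sub_right w).int).div_const 2
  have e : ∫ x, |f (x + z) - f (x - z)|
      = ∫ x, (|f (x + w + z) - f (x + w - z)| + |f (x - w + z) - f (x - w - z)|) / 2 := by
    rw [integral_div, integral_add (hg.add_right w).int (hg.sub_right w).int,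
      integral_add_right_eq_self (fun x => |f (x + z) - f (x - z)|) w,
      integral_sub_right_eq_self (fun x => |f (x + z) - f (x - z)|) w]
    ring
  rw [e]
  refine (integral_add i1 i2).symm.le.trans (integral_mono (i1.add i2) i3 fun x => ?_)
  have := kl_maxmin (f (x + z + w)) (f (x + z - w)) (f (x - z + w)) (f (x - z - w))
  have a1 : x + w + z = x + z + w := by abel
  have a2 : x + w - z = x - z + w := by abel
  have a3 : x - w + z = x + z - w := by abel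
  have a4 : x - w - z = x - z - w := by abel
  simp only [a1, a2, a3, a4]
  exact this

/-- the thickened set -/
def kl_K0 (K : Set (ι → ℝ)) (v : ι → ℝ) : Set (ι → ℝ) :=
  (fun p : (ι → ℝ) × ℝ => p.1 + p.2 • v) '' (K ×ˢ Set.Icc (-3) 3)

/-- the thinned set -/
def kl_K1 (K : Set (ι → ℝ)) (v : ι → ℝ) : Set (ι → ℝ) :=
  {x | x + (3 : ℝ) • v ∈ K ∧ x - (3 : ℝ) • v ∈ K}

omit [Fintype ι] in
theorem kl_K0_compact {K : Set (ι → ℝ)} (hK : IsCompact K) (v : ι → ℝ) : IsCompact (kl_K0 K v) :=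
  (hK.prod isCompact_Icc).image (by fun_prop)

omit [Fintype ι] in
theorem kl_K1_compact {K : Set (ι → ℝ)} (hK : IsCompact K) (v : ι → ℝ) :
    IsCompact (kl_K1 K v) := by
  have h1 : IsCompact ((fun x => x + (3 : ℝ) • v) ⁻¹' K) :=
    (Homeomorph.addRight ((3 : ℝ) • v)).isCompact_preimage.2 hK
  have h2 : IsClosed ((fun x => x - (3 : ℝ) • v) ⁻¹' K) := hK.isClosed.preimage (by fun_prop)
  exact h1.inter_right h2

omit [Fintype ι] in
theorem kl_K0_convex {K : Set (ι → ℝ)} (hK : Convex ℝ K) (v : ι → ℝ) : Convex ℝ (kl_K0 K v) := by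
  rintro _ ⟨⟨k, s⟩, ⟨hk, hs⟩, rfl⟩ _ ⟨⟨k', s'⟩, ⟨hk', hs'⟩, rfl⟩ a b ha hb hab
  refine ⟨(a • k + b • k', a • s + b • s'), ⟨hK hk hk' ha hb hab,
    convex_Icc (-3 : ℝ) 3 hs hs' ha hb hab⟩, ?_⟩
  simp only [smul_eq_mul]
  module

omit [Fintype ι] in
theorem kl_K1_convex {K : Set (ι → ℝ)} (hK : Convex ℝ K) (v : ι → ℝ) : Convex ℝ (kl_K1 K v) := by
  rintro x ⟨h1, h2⟩ y ⟨h3, h4⟩ a b ha hb hab
  have hb' : b = 1 - a := by linarith
  subst hb'
  constructor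
  · convert hK h1 h3 ha hb hab using 1
    module
  · convert hK h2 h4 ha hb hab using 1
    module

omit [Fintype ι] in
theorem kl_K1_shift {K : Set (ι → ℝ)} (hK : Convex ℝ K) {v x : ι → ℝ} (hx : x ∈ kl_K1 K v)
    {s : ℝ} (hs : |s| ≤ 3) : x + s • v ∈ K := by
  obtain ⟨h1, h2⟩ := abs_le.1 hs
  convert hK hx.1 hx.2 (a := (3 + s) / 6) (b := (3 - s) / 6) (by linarith) (by linarith) (by ring)
    using 1
  module

omit [Fintype ι] in
theorem kl_up_supp {K : Set (ι → ℝ)} {f : (ι → ℝ) → ℝ} (hs : ∀ x, f x ≠ 0 → x ∈ K)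
    (v x : ι → ℝ) (hx : kl_up f ((3 : ℝ) • v) x ≠ 0) : x ∈ kl_K0 K v := by
  by_cases h1 : f (x + (3 : ℝ) • v) = 0
  · by_cases h2 : f (x - (3 : ℝ) • v) = 0
    · exact absurd (by simp [kl_up, h1, h2]) hx
    · exact ⟨(x - (3 : ℝ) • v, 3), ⟨hs _ h2, by norm_num, le_rfl⟩, by simp⟩
  · exact ⟨(x + (3 : ℝ) • v, -3), ⟨hs _ h1, le_rfl, by norm_num⟩, by simp⟩

omit [Fintype ι] in
theorem kl_lo_supp {K : Set (ι → ℝ)} {f : (ι → ℝ) → ℝ} (h0 : ∀ x, 0 ≤ f x)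
    (hs : ∀ x, f x ≠ 0 → x ∈ K) (v x : ι → ℝ) (hx : kl_lo f ((3 : ℝ) • v) x ≠ 0) :
    x ∈ kl_K1 K v := by
  refine ⟨hs _ fun h => hx ?_, hs _ fun h => hx ?_⟩
  · rw [kl_lo, h, min_eq_left (h0 _), zero_div]
  · rw [kl_lo, h, min_eq_right (h0 _), zero_div]

omit [Fintype ι] in
theorem kl_comb {K : Set (ι → ℝ)} (hK : Convex ℝ K) {m0 m1 : ℝ} (h0 : 0 ≤ m0) (h1 : 0 ≤ m1)
    {k z : ι → ℝ} (hk : m0 ≠ 0 → k ∈ K) (hz : m1 ≠ 0 → z ∈ K) (hm : m0 + m1 ≠ 0) :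
    (m0 + m1)⁻¹ • (m0 • k + m1 • z) ∈ K := by
  by_cases e0 : m0 = 0
  · subst e0
    have e1 : m1 ≠ 0 := by simpa using hm
    simpa [smul_smul, inv_mul_cancel₀ e1] using hz e1
  by_cases e1 : m1 = 0
  · subst e1
    simpa [smul_smul, inv_mul_cancel₀ e0] using hk e0
  have hpos : 0 < m0 + m1 := lt_of_le_of_ne (add_nonneg h0 h1) hm.symm
  rw [smul_add, smul_smul, smul_smul]
  exact hK (hk e0) (hz e1) (by positivity) (by positivity) (by field_simp)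

/-- the finite recombination step -/
theorem kl_step {Ω : Type} [Fintype Ω] (K : Ω → Set (ι → ℝ)) (hKv : ∀ ω, Convex ℝ (K ω))
    (v α : ι → ℝ) (hαv : α ⬝ᵥ v = 0) (hα : ∀ ω, ∀ x ∈ K ω, |α ⬝ᵥ x| ≤ 1 / 4)
    (m0 m1 : Ω → ℝ) (h0 : ∀ ω, 0 ≤ m0 ω) (h1 : ∀ ω, 0 ≤ m1 ω)
    (hsum : ∑ ω, m0 ω + ∑ ω, m1 ω = 1) (hM : 5 / 12 ≤ ∑ ω, m1 ω) (y0 y1 : Ω → ι → ℝ)
    (hy0 : ∀ ω, m0 ω ≠ 0 → y0 ω ∈ kl_K0 (K ω) v) (hy1 : ∀ ω, m1 ω ≠ 0 → y1 ω ∈ kl_K1 (K ω) v) :
    ∃ (y : Ω → ι → ℝ) (t : ℝ), (∀ ω, m0 ω + m1 ω ≠ 0 → y ω ∈ K ω) ∧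
      ∑ ω, (m0 ω + m1 ω) • y ω = (∑ ω, m0 ω • y0 ω + ∑ ω, m1 ω • y1 ω) + t • v ∧
      (t - α ⬝ᵥ (∑ ω, m0 ω • y0 ω + ∑ ω, m1 ω • y1 ω) = 1 ∨
        t - α ⬝ᵥ (∑ ω, m0 ω • y0 ω + ∑ ω, m1 ω • y1 ω) = -1) := by
  have hks : ∀ ω, ∃ (k : ι → ℝ) (s : ℝ), (m0 ω ≠ 0 → k ∈ K ω) ∧ |s| ≤ 3 ∧ y0 ω = k + s • v := by
    intro ω
    by_cases e : m0 ω = 0
    · exact ⟨y0 ω, 0, fun h => absurd e h, by simp, by simp⟩
    · obtain ⟨⟨k, s⟩, ⟨hk, hs⟩, he⟩ := hy0 ω e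
      exact ⟨k, s, fun _ => hk, abs_le.2 hs, he.symm⟩
  choose k s hk hs hy using hks
  set p : ι → ℝ := ∑ ω, m0 ω • y0 ω + ∑ ω, m1 ω • y1 ω with hp
  have hp4 : |α ⬝ᵥ p| ≤ 1 / 4 := by
    have b0 : ∀ ω, |α ⬝ᵥ (m0 ω • y0 ω)| ≤ m0 ω * (1 / 4) := by
      intro ω
      rw [dotProduct_smul, smul_eq_mul, abs_mul, abs_of_nonneg (h0 ω)]
      by_cases e : m0 ω = 0
      · simp [e]
      · refine mul_le_mul_of_nonneg_left ?_ (h0 ω)
        rw [hy ω, dotProduct_add, dotProduct_smul, hαv, smul_zero, add_zero]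
        exact hα ω _ (hk ω e)
    have b1 : ∀ ω, |α ⬝ᵥ (m1 ω • y1 ω)| ≤ m1 ω * (1 / 4) := by
      intro ω
      rw [dotProduct_smul, smul_eq_mul, abs_mul, abs_of_nonneg (h1 ω)]
      by_cases e : m1 ω = 0
      · simp [e]
      · refine mul_le_mul_of_nonneg_left ?_ (h1 ω)
        have := hα ω _ (hy1 ω e).1
        rwa [dotProduct_add, dotProduct_smul, hαv, smul_zero, add_zero] at this
    rw [hp, dotProduct_add, dotProduct_sum, dotProduct_sum]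
    calc _ ≤ |∑ ω, α ⬝ᵥ (m0 ω • y0 ω)| + |∑ ω, α ⬝ᵥ (m1 ω • y1 ω)| := abs_add_le _ _
      _ ≤ ∑ ω, m0 ω * (1 / 4) + ∑ ω, m1 ω * (1 / 4) :=
        add_le_add ((Finset.abs_sum_le_sum_abs _ _).trans (Finset.sum_le_sum fun ω _ => b0 ω))
          ((Finset.abs_sum_le_sum_abs _ _).trans (Finset.sum_le_sum fun ω _ => b1 ω))
      _ = 1 / 4 := by rw [← Finset.sum_mul, ← Finset.sum_mul, ← add_mul, hsum, one_mul]
  set σ : ℝ := ∑ ω, m0 ω * s ω with hσ
  set M : ℝ := ∑ ω, m1 ω with hMdef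
  have hσ3 : |σ| ≤ 7 / 4 := by
    calc |σ| ≤ ∑ ω, m0 ω * 3 := (Finset.abs_sum_le_sum_abs _ _).trans
          (Finset.sum_le_sum fun ω _ => by
            rw [abs_mul, abs_of_nonneg (h0 ω)]
            exact mul_le_mul_of_nonneg_left (hs ω) (h0 ω))
      _ = (∑ ω, m0 ω) * 3 := by rw [Finset.sum_mul]
      _ ≤ 7 / 4 := by linarith
  obtain ⟨ε, hε, hσε⟩ : ∃ ε : ℝ, (ε = 1 ∨ ε = -1) ∧ |σ + ε| ≤ 1 := by
    obtain ⟨c1, c2⟩ := abs_le.1 hσ3
    rcases le_total 0 σ with h | h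
    · exact ⟨-1, Or.inr rfl, abs_le.2 ⟨by linarith, by linarith⟩⟩
    · exact ⟨1, Or.inl rfl, abs_le.2 ⟨by linarith, by linarith⟩⟩
  set t : ℝ := ε + α ⬝ᵥ p with ht
  have hMpos : 0 < M := by linarith
  set r : ℝ := (σ + t) / M with hr
  have hr3 : |r| ≤ 3 := by
    rw [hr, abs_div, abs_of_pos hMpos, div_le_iff₀ hMpos]
    obtain ⟨c1, c2⟩ := abs_le.1 hσε
    obtain ⟨c3, c4⟩ := abs_le.1 hp4
    exact abs_le.2 ⟨by linarith, by linarith⟩
  refine ⟨fun ω => (m0 ω + m1 ω)⁻¹ • (m0 ω • k ω + m1 ω • (y1 ω + r • v)), t,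
    fun ω hω => kl_comb (hKv ω) (h0 ω) (h1 ω) (hk ω)
      (fun e => kl_K1_shift (hKv ω) (hy1 ω e) hr3) hω, ?_, ?_⟩
  · have e1 : ∀ ω, (m0 ω + m1 ω) • (m0 ω + m1 ω)⁻¹ • (m0 ω • k ω + m1 ω • (y1 ω + r • v))
        = m0 ω • y0 ω + m1 ω • y1 ω + (m1 ω * r - m0 ω * s ω) • v := by
      intro ω
      by_cases e : m0 ω + m1 ω = 0
      · have e0 : m0 ω = 0 := by linarith [h0 ω, h1 ω]
        have e1 : m1 ω = 0 := by linarith [h0 ω, h1 ω]
        simp [e0, e1]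
      · rw [smul_inv_smul₀ e, hy ω]
        module
    simp_rw [e1]
    rw [Finset.sum_add_distrib, Finset.sum_add_distrib, ← Finset.sum_smul, Finset.sum_sub_distrib,
      ← Finset.sum_mul, ← hσ, ← hMdef, hr, mul_div_cancel₀ _ hMpos.ne', add_sub_cancel_left]
  · rcases hε with h | h
    · left; rw [ht, h]; ring
    · right; rw [ht, h]; ring

theorem kl (u a : ℕ → ι → ℝ) (n : ℕ) (hau : ∀ i j, i ≤ j → j < n → a i ⬝ᵥ u j = 0)
    (Ω : Type) [Fintype Ω] (K : Ω → Set (ι → ℝ)) (f : Ω → (ι → ℝ) → ℝ)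
    (hKc : ∀ ω, IsCompact (K ω)) (hKv : ∀ ω, Convex ℝ (K ω)) (hf : ∀ ω, Continuous (f ω))
    (hf0 : ∀ ω x, 0 ≤ f ω x) (hsupp : ∀ ω x, f ω x ≠ 0 → x ∈ K ω)
    (hmass : ∑ ω, ∫ x, f ω x = 1)
    (ha : ∀ i, i < n → ∀ ω, ∀ x ∈ K ω, |a i ⬝ᵥ x| ≤ 1 / 4)
    (htv : ∀ i, i < n → ∑ ω, ∫ x, |f ω (x + (3 : ℝ) • u i) - f ω (x - (3 : ℝ) • u i)| ≤ 1 / 3) :
    ∃ (y : Ω → ι → ℝ) (ξ : ℕ → ℝ), (∀ ω, (∫ x, f ω x) ≠ 0 → y ω ∈ K ω) ∧
      ∑ ω, (∫ x, f ω x) • y ω = (∑ ω, ∫ x, f ω x • x) + ∑ i ∈ range n, ξ i • u i ∧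
      ∀ i, i < n → ξ i - a i ⬝ᵥ (∑ ω, (∫ x, f ω x) • y ω) = 1 ∨
        ξ i - a i ⬝ᵥ (∑ ω, (∫ x, f ω x) • y ω) = -1 := by
  induction n generalizing Ω with
  | zero =>
    refine ⟨fun ω => (∫ x, f ω x)⁻¹ • ∫ x, f ω x • x, 0, fun ω hω =>
      kl_mean_mem (hKc ω) (hKv ω) (hf ω) (hf0 ω) (hsupp ω) hω, ?_, fun i hi => absurd hi (by simp)⟩
    rw [Finset.sum_range_zero, add_zero]
    refine Finset.sum_congr rfl fun ω _ => ?_
    by_cases e : ∫ x, f ω x = 0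
    · rw [e, zero_smul, kl_mean_zero (kl_CC.of_supp (hKc ω) (hf ω) (hsupp ω)) (hf0 ω) e]
    · rw [smul_inv_smul₀ e]
  | succ n ih =>
    have hcc : ∀ ω, kl_CC (f ω) := fun ω => kl_CC.of_supp (hKc ω) (hf ω) (hsupp ω)
    have hav : ∀ i, i ≤ n → a i ⬝ᵥ u n = 0 := fun i hi => hau i n hi (Nat.lt_succ_self n)
    have hup0 : ∀ ω x, 0 ≤ kl_up (f ω) ((3 : ℝ) • u n) x := fun ω x =>
      div_nonneg (le_max_of_le_left (hf0 ω _)) (by norm_num)
    have hlo0 : ∀ ω x, 0 ≤ kl_lo (f ω) ((3 : ℝ) • u n) x := fun ω x =>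
      div_nonneg (le_min (hf0 ω _) (hf0 ω _)) (by norm_num)
    have hsum : (∑ ω, ∫ x, kl_up (f ω) ((3 : ℝ) • u n) x)
        + ∑ ω, ∫ x, kl_lo (f ω) ((3 : ℝ) • u n) x = 1 := by
      rw [← Finset.sum_add_distrib, ← hmass]
      exact Finset.sum_congr rfl fun ω _ => kl_mass (hcc ω) _
    obtain ⟨y', ξ, hy', hp, hξ⟩ := ih (fun i j hij hj => hau i j hij (Nat.lt_succ_of_lt hj))
      (Ω ⊕ Ω) (Sum.elim (fun ω => kl_K0 (K ω) (u n)) (fun ω => kl_K1 (K ω) (u n)))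
      (Sum.elim (fun ω => kl_up (f ω) ((3 : ℝ) • u n)) (fun ω => kl_lo (f ω) ((3 : ℝ) • u n)))
      (by rintro (ω | ω); exacts [kl_K0_compact (hKc ω) _, kl_K1_compact (hKc ω) _])
      (by rintro (ω | ω); exacts [kl_K0_convex (hKv ω) _, kl_K1_convex (hKv ω) _])
      (by rintro (ω | ω); exacts [(kl_up_cc (hcc ω) _).cont, (kl_lo_cc (hcc ω) _).cont])
      (by rintro (ω | ω); exacts [hup0 ω, hlo0 ω])
      (by
        rintro (ω | ω) x
        exacts [kl_up_supp (hsupp ω) _ x, kl_lo_supp (hf0 ω) (hsupp ω) _ x])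
      (by rw [Fintype.sum_sum_type]; exact hsum)
      (by
        rintro i hi (ω | ω) x hx
        · obtain ⟨⟨k, s⟩, ⟨hk, -⟩, rfl⟩ := hx
          simp only
          rw [dotProduct_add, dotProduct_smul, hav i hi.le, smul_zero, add_zero]
          exact ha i (Nat.lt_succ_of_lt hi) ω _ hk
        · have := ha i (Nat.lt_succ_of_lt hi) ω _ hx.1
          rwa [dotProduct_add, dotProduct_smul, hav i hi.le, smul_zero, add_zero] at this)
      (by
        intro i hi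
        rw [Fintype.sum_sum_type, ← Finset.sum_add_distrib]
        exact (Finset.sum_le_sum fun ω _ => kl_tv (hcc ω) _ _).trans
          (htv i (Nat.lt_succ_of_lt hi)))
    simp only [Fintype.sum_sum_type, Sum.elim_inl, Sum.elim_inr] at hp hξ
    have hM : 5 / 12 ≤ ∑ ω, ∫ x, kl_lo (f ω) ((3 : ℝ) • u n) x := by
      simp_rw [fun ω => kl_lo_mass (hcc ω) ((3 : ℝ) • u n)]
      rw [Finset.sum_sub_distrib, ← Finset.sum_div, ← Finset.sum_div, hmass]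
      have := htv n (Nat.lt_succ_self n)
      linarith
    obtain ⟨y, t, hy, hsy, ht⟩ := kl_step K hKv (u n) (a n) (hav n le_rfl)
      (ha n (Nat.lt_succ_self n)) (fun ω => ∫ x, kl_up (f ω) ((3 : ℝ) • u n) x)
      (fun ω => ∫ x, kl_lo (f ω) ((3 : ℝ) • u n) x) (fun ω => integral_nonneg (hup0 ω))
      (fun ω => integral_nonneg (hlo0 ω)) hsum hM (fun ω => y' (Sum.inl ω))
      (fun ω => y' (Sum.inr ω)) (fun ω => hy' (Sum.inl ω)) (fun ω => hy' (Sum.inr ω))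
    simp only [fun ω => kl_mass (hcc ω) ((3 : ℝ) • u n)] at hy hsy
    have hdot : ∀ i, i ≤ n → a i ⬝ᵥ (∑ ω, (∫ x, f ω x) • y ω)
        = a i ⬝ᵥ (∑ ω, (∫ x, kl_up (f ω) ((3 : ℝ) • u n) x) • y' (Sum.inl ω)
          + ∑ ω, (∫ x, kl_lo (f ω) ((3 : ℝ) • u n) x) • y' (Sum.inr ω)) := by
      intro i hi
      rw [hsy, dotProduct_add (a i) _ (t • u n), dotProduct_smul, hav i hi, smul_zero, add_zero]
    refine ⟨y, Function.update ξ n t, hy, ?_, fun i hi => ?_⟩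
    · rw [hsy, hp, Finset.sum_range_succ, Function.update_self, ← Finset.sum_add_distrib,
        add_assoc]
      congr 1
      · exact Finset.sum_congr rfl fun ω _ => kl_mean (hcc ω) _
      · congr 1
        exact Finset.sum_congr rfl fun i hi => by
          rw [Function.update_of_ne (Finset.mem_range.1 hi).ne]
    · rcases (Nat.lt_succ_iff.1 hi).eq_or_lt with rfl | hlt
      · rw [Function.update_self, hdot i le_rfl]
        exact ht
      · rw [Function.update_of_ne hlt.ne, hdot i hlt.le]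
        exact hξ i hlt

theorem kl_one (u a : ℕ → ι → ℝ) (n : ℕ) (hau : ∀ i j, i ≤ j → j < n → a i ⬝ᵥ u j = 0)
    (K : Set (ι → ℝ)) (f : (ι → ℝ) → ℝ) (hKc : IsCompact K) (hKv : Convex ℝ K)
    (hf : Continuous f) (hf0 : ∀ x, 0 ≤ f x) (hsupp : ∀ x, f x ≠ 0 → x ∈ K)
    (heven : ∀ x, f (-x) = f x) (hmass : ∫ x, f x = 1)
    (ha : ∀ i, i < n → ∀ x ∈ K, |a i ⬝ᵥ x| ≤ 1 / 4)
    (htv : ∀ i, i < n → ∫ x, |f (x + (3 : ℝ) • u i) - f (x - (3 : ℝ) • u i)| ≤ 1 / 3) :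
    ∃ ξ : ℕ → ℝ, (∑ i ∈ range n, ξ i • u i) ∈ K ∧
      ∀ i, i < n → ξ i - a i ⬝ᵥ (∑ i ∈ range n, ξ i • u i) = 1 ∨
        ξ i - a i ⬝ᵥ (∑ i ∈ range n, ξ i • u i) = -1 := by
  obtain ⟨y, ξ, hy, hp, hξ⟩ := kl u a n hau Unit (fun _ => K) (fun _ => f) (fun _ => hKc)
    (fun _ => hKv) (fun _ => hf) (fun _ => hf0) (fun _ => hsupp) (by simpa using hmass)
    (fun i hi _ => ha i hi) (fun i hi => by simpa using htv i hi)
  have hz : ∫ x, f x • x = 0 := by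
    have h1 : ∫ x, f (-x) • (-x) = ∫ x, f x • x := integral_neg_eq_self (fun x => f x • x) volume
    simp_rw [heven, smul_neg] at h1
    rw [integral_neg] at h1
    have h2 : (2 : ℝ) • ∫ x, f x • x = 0 := by rw [two_smul]; nth_rw 1 [← h1]; simp
    simpa using h2
  simp only [Finset.univ_unique, Finset.sum_singleton, hmass, one_smul, hz, zero_add] at hp hξ
  refine ⟨ξ, ?_, fun i hi => ?_⟩
  · rw [← hp]
    exact hy _ (by rw [hmass]; exact one_ne_zero)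
  · rw [← hp]
    exact hξ i hi

end Crest.Agent.R239
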