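import Crest.Agent.R239.Defs

/-!
Row 239: a minimax lemma.  Let `A = {u | ∃ f ∈ 𝒜, ∀ i, T f i ≤ u i}` (convex by `hconv`) and
`B = {u | ∀ i, u i < c}` (open, convex).  If the conclusion fails they are disjoint;
`geometric_hahn_banach_open` gives `ℓ`, `s` with `ℓ b < s ≤ ℓ a`.  Write `ℓ u = ∑ β i * u i`
(`β i = ℓ (Pi.single i 1)`); `β i ≥ 0` since `B` is unbounded below; `c * ∑ β ≤ s` by letting
`b = fun _ => c - η`, `η → 0`.  If `∑ β = 0` then `0 < s ≤ 0` (`𝒜` is nonempty by `h 0`);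
otherwise `α = β / ∑ β` contradicts `h`.
-/

set_option autoImplicit false

namespace Crest.Agent.R239

open Matrix Finset

theorem minimax {X : Type*} {n : ℕ} (𝒜 : Set X) (T : X → Fin n → ℝ) (c : ℝ)
    (hconv : ∀ f ∈ 𝒜, ∀ g ∈ 𝒜, ∀ a b : ℝ, 0 ≤ a → 0 ≤ b → a + b = 1 →
      ∃ k ∈ 𝒜, ∀ i, T k i ≤ a * T f i + b * T g i)
    (h : ∀ α : Fin n → ℝ, (∀ i, 0 ≤ α i) → ∑ i, α i ≤ 1 → ∃ f ∈ 𝒜, ∑ i, α i * T f i < c) :
    ∃ f ∈ 𝒜, ∀ i, T f i ≤ c := by
  classical
  by_contra hne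
  push Not at hne
  set A : Set (Fin n → ℝ) := {u | ∃ f ∈ 𝒜, ∀ i, T f i ≤ u i} with hA
  set B : Set (Fin n → ℝ) := {u | ∀ i, u i < c} with hB
  have hAc : Convex ℝ A := by
    rintro u ⟨f, hf, hfu⟩ v ⟨g, hg, hgv⟩ a b ha hb hab
    obtain ⟨k, hk, hkk⟩ := hconv f hf g hg a b ha hb hab
    refine ⟨k, hk, fun i => (hkk i).trans ?_⟩
    simp only [Pi.add_apply, Pi.smul_apply, smul_eq_mul]
    exact add_le_add (mul_le_mul_of_nonneg_left (hfu i) ha) (mul_le_mul_of_nonneg_left (hgv i) hb)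
  have hBc : Convex ℝ B := by
    have : B = Set.univ.pi fun _ : Fin n => Set.Iio c := by
      ext u; simp [hB]
    rw [this]
    exact convex_pi fun _ _ => convex_Iio c
  have hBo : IsOpen B := by
    have : B = Set.univ.pi fun _ : Fin n => Set.Iio c := by
      ext u; simp [hB]
    rw [this]
    exact isOpen_set_pi Set.finite_univ fun _ _ => isOpen_Iio
  have hdis : Disjoint B A := by
    rw [Set.disjoint_left]
    rintro u hu ⟨f, hf, hfu⟩
    obtain ⟨i, hi⟩ := hne f hf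
    exact absurd (hi.trans_le (hfu i)) (not_lt.2 (hu i).le)
  obtain ⟨ℓ, s, hlt, hge⟩ := geometric_hahn_banach_open hBc hBo hAc hdis
  set β : Fin n → ℝ := fun i => ℓ (Pi.single i 1) with hβ
  have hℓ : ∀ u : Fin n → ℝ, ℓ u = ∑ i, β i * u i := by
    intro u
    conv_lhs => rw [← Finset.univ_sum_single u]
    rw [map_sum]
    refine Finset.sum_congr rfl fun i _ => ?_
    have : (Pi.single i (u i) : Fin n → ℝ) = u i • (Pi.single i 1 : Fin n → ℝ) := by
      ext j; by_cases hj : j = i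
      · subst hj; simp
      · simp [hj]
    rw [this, map_smul, smul_eq_mul, mul_comm]
  obtain ⟨f0, hf0, -⟩ := h 0 (fun _ => le_rfl) (by simp)
  have hTA : ∀ f ∈ 𝒜, T f ∈ A := fun f hf => ⟨f, hf, fun _ => le_rfl⟩
  have hβ0 : ∀ i, 0 ≤ β i := by
    intro i
    by_contra hneg
    push Not at hneg
    have h0 := hge _ (hTA f0 hf0)
    set t : ℝ := (ℓ (T f0) - s + 1) / (-β i) with ht
    have ht0 : 0 ≤ t := div_nonneg (by linarith) (by linarith)
    have hmem : T f0 + t • (Pi.single i 1 : Fin n → ℝ) ∈ A := by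
      refine ⟨f0, hf0, fun j => ?_⟩
      by_cases hj : j = i
      · subst hj; simpa using ht0
      · simp [hj]
    have h1 := hge _ hmem
    rw [map_add, map_smul, smul_eq_mul] at h1
    have h2 : t * β i = -(ℓ (T f0) - s + 1) := by
      rw [ht]; have : β i ≠ 0 := hneg.ne; field_simp
    change s ≤ ℓ (T f0) + t * β i at h1
    linarith
  have hS0 : 0 ≤ ∑ i, β i := Finset.sum_nonneg fun i _ => hβ0 i
  rcases hS0.eq_or_lt with hS | hS
  · have hz : ∀ i, β i = 0 := fun i =>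
      (Finset.sum_eq_zero_iff_of_nonneg fun i _ => hβ0 i).1 hS.symm i (mem_univ i)
    have h1 := hlt (fun _ => c - 1) (fun _ => by simp)
    have h2 := hge _ (hTA f0 hf0)
    rw [hℓ] at h1 h2
    simp [hz] at h1 h2
    linarith
  · set S := ∑ i, β i with hSdef
    obtain ⟨f, hf, hfc⟩ := h (fun i => β i / S) (fun i => div_nonneg (hβ0 i) hS.le)
      (by rw [← Finset.sum_div, div_self hS.ne'])
    have h3 : ∑ i, β i / S * T f i = ℓ (T f) / S := by
      rw [hℓ, Finset.sum_div]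
      exact Finset.sum_congr rfl fun i _ => by ring
    rw [h3] at hfc
    have h1 := hlt (fun _ => ℓ (T f) / S) (fun _ => hfc)
    have h2 := hge _ (hTA f hf)
    rw [hℓ (fun _ => ℓ (T f) / S), ← Finset.sum_mul, ← hSdef, mul_div_cancel₀ _ hS.ne'] at h1
    linarith

end Crest.Agent.R239
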