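import Crest.Agent.R239.Design
import Crest.Agent.R239.Density
import Crest.Agent.R239.KL
import Crest.Agent.R239.Minimax
import Crest.Agent.R239.Filter

/-!
Row 239: the prefix bound for unit vectors.
-/

set_option autoImplicit false

namespace Crest.Agent.R239

open Matrix Finset MeasureTheory

section
variable {δ : Type} [Fintype δ] [DecidableEq δ] {N : ℕ}

/-- the convex body -/
def mainK (Z : Sys δ (δ ⊕ Fin N) N) (x : ℕ → δ ⊕ Fin N → ℝ) : Set (δ ⊕ Fin N → ℝ) :=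
  {y | (∀ t, t ≤ N → nrm (Z.M t *ᵥ y) ≤ √(300000000 * Fintype.card δ)) ∧
    (∀ t, t < N → |x t ⬝ᵥ y| ≤ 3000) ∧ nrm y ≤ 3 * (Fintype.card (δ ⊕ Fin N) + 1)}

theorem mainK_convex (Z : Sys δ (δ ⊕ Fin N) N) (x : ℕ → δ ⊕ Fin N → ℝ) :
    Convex ℝ (mainK Z x) := by
  intro y hy y' hy' a b ha hb hab
  have key : ∀ {κ : Type} [Fintype κ] (u u' : κ → ℝ) (R : ℝ), nrm u ≤ R → nrm u' ≤ R →
      nrm (a • u + b • u') ≤ R := by
    intro κ _ u u' R h1 h2
    have h3 := nrm_add_le (a • u) (b • u')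
    rw [nrm_smul, nrm_smul, abs_of_nonneg ha, abs_of_nonneg hb] at h3
    have h4 := mul_le_mul_of_nonneg_left h1 ha
    have h5 := mul_le_mul_of_nonneg_left h2 hb
    have h6 : a * R + b * R = R := by rw [← add_mul, hab, one_mul]
    linarith
  refine ⟨fun t ht => ?_, fun t ht => ?_, key _ _ _ hy.2.2 hy'.2.2⟩
  · rw [mulVec_add, mulVec_smul, mulVec_smul]
    exact key _ _ _ (hy.1 t ht) (hy'.1 t ht)
  · rw [dotProduct_add, dotProduct_smul, dotProduct_smul, smul_eq_mul, smul_eq_mul]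
    have h1 := abs_le.1 (hy.2.1 t ht)
    have h2 := abs_le.1 (hy'.2.1 t ht)
    rw [abs_le]
    constructor <;> nlinarith [h1.1, h1.2, h2.1, h2.2]

theorem mainK_compact (Z : Sys δ (δ ⊕ Fin N) N) (x : ℕ → δ ⊕ Fin N → ℝ) :
    IsCompact (mainK Z x) := by
  apply Metric.isCompact_of_isClosed_isBounded
  · have e : mainK Z x =
        (⋂ t, ⋂ (_ : t ≤ N), {y | nrm (Z.M t *ᵥ y) ≤ √(300000000 * Fintype.card δ)}) ∩
        ((⋂ t, ⋂ (_ : t < N), {y | |x t ⬝ᵥ y| ≤ 3000}) ∩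
          {y | nrm y ≤ 3 * (Fintype.card (δ ⊕ Fin N) + 1)}) := by
      ext y; simp [mainK]
    rw [e]
    refine IsClosed.inter (isClosed_iInter fun t => isClosed_iInter fun _ => ?_)
      (IsClosed.inter (isClosed_iInter fun t => isClosed_iInter fun _ => ?_) ?_)
    · exact isClosed_le (continuous_nrm.comp (continuous_const.matrix_mulVec continuous_id))
        continuous_const
    · exact isClosed_le (continuous_const.dotProduct continuous_id).abs continuous_const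
    · exact isClosed_le continuous_nrm continuous_const
  · rw [isBounded_iff_forall_norm_le]
    refine ⟨3 * (Fintype.card (δ ⊕ Fin N) + 1), fun y hy => ?_⟩
    refine (pi_norm_le_iff_of_nonneg (by positivity)).2 fun i => ?_
    exact (abs_apply_le_nrm y i).trans hy.2.2

/-- admissible densities -/
def mainA (K : Set (δ ⊕ Fin N → ℝ)) : Set ((δ ⊕ Fin N → ℝ) → ℝ) :=
  {f | Continuous f ∧ (∀ y, 0 ≤ f y) ∧ (∀ y, f (-y) = f y) ∧ ∫ y, f y = 1 ∧
    ∀ y, f y ≠ 0 → y ∈ K}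

theorem nrm_single (j : δ ⊕ Fin N) : nrm (Pi.single j (1 : ℝ) : δ ⊕ Fin N → ℝ) ^ 2 = 1 := by
  rw [nrm_sq]; simp

theorem main_density (Z : Sys δ (δ ⊕ Fin N) N) (x : ℕ → δ ⊕ Fin N → ℝ)
    (he : ∀ i : Fin N, Z.e i = Pi.single (Sum.inr i) 1) (hx : ∀ t, t < N → x t ⬝ᵥ x t = 1)
    (hxe : ∀ i, i < N →
      (1 / 1200000000 : ℝ) ^ 2 * ∑ t ∈ range N, (x t ⬝ᵥ Z.e i) ^ 2 ≤ 1)
    (α : Fin N → ℝ) (hα0 : ∀ i, 0 ≤ α i) (hα : ∑ i, α i ≤ 1) :
    ∃ f ∈ mainA (mainK Z x), ∑ i : Fin N, α i *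
      ∫ y, |f (y + (3 : ℝ) • (100000 : ℝ)⁻¹ • Z.e i) - f (y - (3 : ℝ) • (100000 : ℝ)⁻¹ • Z.e i)|
        < 1 / 3 := by
  classical
  set D : ℝ := (Fintype.card (δ ⊕ Fin N) : ℝ) with hD
  have hD0 : 0 ≤ D := by positivity
  let ρ : δ ⊕ Fin N → ℝ := fun j => Sum.elim (fun _ => 0) α j + D⁻¹
  have hρ0 : ∀ j, 0 < ρ j := by
    intro j
    have : 0 < D := by
      rw [hD]; exact_mod_cast Fintype.card_pos_iff.2 ⟨j⟩
    have h1 : 0 ≤ Sum.elim (fun _ => (0 : ℝ)) α j := by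
      rcases j with j | j
      · simp
      · simpa using hα0 j
    have h2 := inv_pos.2 this
    simp only [ρ]; linarith
  let w : δ ⊕ Fin N → ℝ := fun j => √(ρ j)
  have hw2 : ∀ j, w j ^ 2 = ρ j := fun j => Real.sq_sqrt (hρ0 j).le
  have hw : ∑ j, w j ^ 2 ≤ 2 := by
    simp only [hw2, ρ, sum_add_distrib, Fintype.sum_sum_type, Sum.elim_inl, Sum.elim_inr,
      sum_const_zero, zero_add]
    have h1 : (∑ _j : δ, D⁻¹) + ∑ _j : Fin N, D⁻¹ = D * D⁻¹ := by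
      simp only [sum_const, card_univ, nsmul_eq_mul, hD, Fintype.card_sum]
      push_cast; ring
    have h2 : D * D⁻¹ ≤ 1 := mul_inv_le_one
    linarith
  obtain ⟨S0, hS0, hcost0, hsupp0⟩ := Z.design w (fun j => Real.sqrt_pos.2 (hρ0 j)) hw
  let S1 : Finset (Matrix (δ ⊕ Fin N) (δ ⊕ Fin N) ℝ × ℝ) :=
    (range N).image fun t => (vecMulVec (x t) (x t), 1000)
  let c2 : Matrix (δ ⊕ Fin N) (δ ⊕ Fin N) ℝ × ℝ := (1, D + 1)
  have hnx : ∀ t, t < N → nrm (x t) = 1 := by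
    intro t ht; rw [nrm, hx t ht, Real.sqrt_one]
  have hhs1 : hs (1 : Matrix (δ ⊕ Fin N) (δ ⊕ Fin N) ℝ) ^ 2 = D := hs_one
  obtain ⟨f, hfc, hf0, hfe, hf1, hfs, hft⟩ := density (insert c2 (S0 ∪ S1)) (by
    intro c hc
    rcases mem_insert.1 hc with rfl | hc
    · refine ⟨by positivity, ?_⟩
      refine abs_le_of_sq_le_sq' ?_ (by positivity) |>.2
      simp only [c2]
      rw [hhs1]; nlinarith
    rcases mem_union.1 hc with hc | hc
    · exact hS0 c hc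
    · obtain ⟨t, ht, rfl⟩ := mem_image.1 hc
      refine ⟨by norm_num, ?_⟩
      simp only
      rw [hs_vecMulVec, hnx t (mem_range.1 ht)]; norm_num)
  refine ⟨f, ⟨hfc, hf0, hfe, hf1, fun y hy => ⟨fun t ht => ?_, fun t ht => ?_, ?_⟩⟩, ?_⟩
  · exact Real.le_sqrt_of_sq_le (hsupp0 y (fun c hc =>
      hfs y hy c (mem_insert_of_mem (mem_union_left _ hc))) t ht)
  · have := hfs y hy (vecMulVec (x t) (x t), 1000) (mem_insert_of_mem (mem_union_right _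
      (mem_image.2 ⟨t, mem_range.2 ht, rfl⟩)))
    simp only at this
    rw [vecMulVec_mulVec, op_smul_eq_smul, nrm_smul, hnx t ht] at this
    linarith
  · have := hfs y hy c2 (mem_insert_self _ _)
    simp only [c2, one_mulVec] at this
    exact this
  -- the cost
  let g : Matrix (δ ⊕ Fin N) (δ ⊕ Fin N) ℝ × ℝ → ℝ := fun c =>
    ∑ i : Fin N, α i * (hs c.1 ^ 2 * nrm (c.1 *ᵥ Z.e i) ^ 2 / c.2 ^ 4)
  have hg0 : ∀ c, 0 ≤ g c := fun c => sum_nonneg fun i _ =>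
    mul_nonneg (hα0 i) (by positivity)
  have hgS0 : ∑ c ∈ S0, g c ≤ 60000 := by
    refine le_trans (sum_le_sum fun c _ => ?_) hcost0
    have h1 : ∑ i : Fin N, α i * nrm (c.1 *ᵥ Z.e i) ^ 2 ≤ hs (c.1 * diagonal w) ^ 2 := by
      rw [hs_mul_diagonal_sq, Fintype.sum_sum_type]
      have h2 : 0 ≤ ∑ j : δ, w (Sum.inl j) ^ 2 * nrm (c.1 *ᵥ Pi.single (Sum.inl j) 1) ^ 2 :=
        sum_nonneg fun j _ => by positivity
      have h3 : ∑ i : Fin N, α i * nrm (c.1 *ᵥ Z.e i) ^ 2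
          ≤ ∑ i : Fin N, w (Sum.inr i) ^ 2 * nrm (c.1 *ᵥ Pi.single (Sum.inr i) 1) ^ 2 := by
        refine sum_le_sum fun i _ => ?_
        rw [he i, hw2]
        refine mul_le_mul_of_nonneg_right ?_ (by positivity)
        simp only [ρ, Sum.elim_inr]
        have := inv_nonneg.2 hD0
        linarith
      linarith
    have h4 : g c = hs c.1 ^ 2 * (∑ i : Fin N, α i * nrm (c.1 *ᵥ Z.e i) ^ 2) / c.2 ^ 4 := by
      simp only [g, mul_sum, sum_div]
      exact sum_congr rfl fun i _ => by ring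
    rw [h4]
    gcongr
  have hgS1 : ∑ c ∈ S1, g c ≤ 1440000 := by
    refine le_trans (sum_image_le_of_nonneg fun c _ => hg0 c) ?_
    have h1 : ∀ t ∈ range N, g (vecMulVec (x t) (x t), 1000)
        = ∑ i : Fin N, α i * ((x t ⬝ᵥ Z.e i) ^ 2 / 1000 ^ 4) := by
      intro t ht
      refine sum_congr rfl fun i _ => ?_
      simp only
      rw [hs_vecMulVec, vecMulVec_mulVec, op_smul_eq_smul, nrm_smul, hnx t (mem_range.1 ht)]
      simp
    rw [sum_congr rfl h1, sum_comm]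
    calc ∑ i : Fin N, ∑ t ∈ range N, α i * ((x t ⬝ᵥ Z.e i) ^ 2 / 1000 ^ 4)
        ≤ ∑ i : Fin N, α i * 1440000 := by
          refine sum_le_sum fun i _ => ?_
          rw [← mul_sum, ← sum_div]
          refine mul_le_mul_of_nonneg_left ?_ (hα0 i)
          have := hxe i i.2
          rw [div_le_iff₀ (by norm_num)]
          linarith
      _ ≤ 1440000 := by rw [← sum_mul]; linarith
  have hgc2 : g c2 ≤ 1 := by
    have h1 : g c2 = (∑ i : Fin N, α i) * (D / (D + 1) ^ 4) := by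
      rw [sum_mul]
      refine sum_congr rfl fun i _ => ?_
      simp only [c2]
      rw [hhs1, one_mulVec, he i, nrm_single, mul_one]
    have h2 : D / (D + 1) ^ 4 ≤ 1 := by
      rw [div_le_one (by positivity)]
      nlinarith [pow_nonneg hD0 2, pow_nonneg hD0 3, pow_nonneg hD0 4]
    have h3 : 0 ≤ D / (D + 1) ^ 4 := by positivity
    rw [h1]; nlinarith
  have hgS : ∑ c ∈ insert c2 (S0 ∪ S1), g c ≤ 1500001 := by
    have h1 : ∑ c ∈ insert c2 (S0 ∪ S1), g c ≤ g c2 + ∑ c ∈ S0 ∪ S1, g c := by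
      by_cases hc : c2 ∈ S0 ∪ S1
      · rw [insert_eq_of_mem hc]; linarith [hg0 c2]
      · rw [sum_insert hc]
    have h2 : ∑ c ∈ S0 ∪ S1, g c ≤ ∑ c ∈ S0, g c + ∑ c ∈ S1, g c := by
      rw [← sum_union_inter]
      linarith [sum_nonneg fun c (_ : c ∈ S0 ∩ S1) => hg0 c]
    linarith
  have hT : ∀ i : Fin N,
      ∫ y, |f (y + (3 : ℝ) • (100000 : ℝ)⁻¹ • Z.e i) - f (y - (3 : ℝ) • (100000 : ℝ)⁻¹ • Z.e i)|
      ≤ (1 / 6 + 54 / 100000 ^ 2) + 216 / 100000 ^ 2 * ∑ c ∈ insert c2 (S0 ∪ S1),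
        hs c.1 ^ 2 * nrm (c.1 *ᵥ Z.e i) ^ 2 / c.2 ^ 4 := by
    intro i
    have hee : Z.e i ⬝ᵥ Z.e i = 1 := by rw [he i]; simp
    have hhh : ((3 : ℝ) • (100000 : ℝ)⁻¹ • Z.e i) ⬝ᵥ ((3 : ℝ) • (100000 : ℝ)⁻¹ • Z.e i)
        = 9 / 100000 ^ 2 := by
      simp only [smul_dotProduct, dotProduct_smul, smul_eq_mul, hee]; norm_num
    refine (hft _ (by rw [hhh]; norm_num)).trans (le_of_eq ?_)
    rw [hhh]
    have h1 : ∀ c ∈ insert c2 (S0 ∪ S1),
        hs c.1 ^ 2 * nrm (c.1 *ᵥ ((3 : ℝ) • (100000 : ℝ)⁻¹ • Z.e i)) ^ 2 / c.2 ^ 4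
        = 9 / 100000 ^ 2 * (hs c.1 ^ 2 * nrm (c.1 *ᵥ Z.e i) ^ 2 / c.2 ^ 4) := by
      intro c _
      rw [smul_smul, mulVec_smul, nrm_smul, mul_pow, sq_abs]
      ring
    rw [sum_congr rfl h1, ← mul_sum]
    ring
  calc ∑ i : Fin N, α i *
      ∫ y, |f (y + (3 : ℝ) • (100000 : ℝ)⁻¹ • Z.e i) - f (y - (3 : ℝ) • (100000 : ℝ)⁻¹ • Z.e i)|
      ≤ ∑ i : Fin N, α i * ((1 / 6 + 54 / 100000 ^ 2) + 216 / 100000 ^ 2 *
        ∑ c ∈ insert c2 (S0 ∪ S1), hs c.1 ^ 2 * nrm (c.1 *ᵥ Z.e i) ^ 2 / c.2 ^ 4) :=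
        sum_le_sum fun i _ => mul_le_mul_of_nonneg_left (hT i) (hα0 i)
    _ = (∑ i : Fin N, α i) * (1 / 6 + 54 / 100000 ^ 2)
        + 216 / 100000 ^ 2 * ∑ c ∈ insert c2 (S0 ∪ S1), g c := by
        simp only [g]
        rw [sum_comm, sum_mul, mul_sum, ← sum_add_distrib]
        refine sum_congr rfl fun i _ => ?_
        rw [← mul_sum]; ring
    _ < 1 / 3 := by nlinarith

theorem mainA_mix {K : Set (δ ⊕ Fin N → ℝ)} (hK : IsCompact K) {f g : (δ ⊕ Fin N → ℝ) → ℝ}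
    (hf : f ∈ mainA K) (hg : g ∈ mainA K) {a b : ℝ} (ha : 0 ≤ a) (hb : 0 ≤ b) (hab : a + b = 1) :
    (fun y => a * f y + b * g y) ∈ mainA K ∧ ∀ h : δ ⊕ Fin N → ℝ,
      ∫ y, |(a * f (y + h) + b * g (y + h)) - (a * f (y - h) + b * g (y - h))|
        ≤ a * (∫ y, |f (y + h) - f (y - h)|) + b * ∫ y, |g (y + h) - g (y - h)| := by
  have hint : ∀ {k : (δ ⊕ Fin N → ℝ) → ℝ}, k ∈ mainA K → Integrable k := fun {k} hk =>
    hk.1.integrable_of_hasCompactSupport (HasCompactSupport.intro hK fun y hy => by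
      by_contra h; exact hy (hk.2.2.2.2 y h))
  have hint2 : ∀ {k : (δ ⊕ Fin N → ℝ) → ℝ}, k ∈ mainA K → ∀ h : δ ⊕ Fin N → ℝ,
      Integrable fun y => |k (y + h) - k (y - h)| := fun {k} hk h =>
    (((hint hk).comp_add_right h).sub ((hint hk).comp_sub_right h)).abs
  refine ⟨⟨(continuous_const.mul hf.1).add (continuous_const.mul hg.1), fun y => ?_, fun y => ?_,
    ?_, fun y hy => ?_⟩, fun h => ?_⟩
  · exact add_nonneg (mul_nonneg ha (hf.2.1 y)) (mul_nonneg hb (hg.2.1 y))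
  · simp only [hf.2.2.1, hg.2.2.1]
  · rw [integral_add ((hint hf).const_mul a) ((hint hg).const_mul b), integral_const_mul,
      integral_const_mul, hf.2.2.2.1, hg.2.2.2.1]
    linarith
  · by_cases h1 : f y = 0
    · refine hg.2.2.2.2 y fun h2 => hy ?_
      simp [h1, h2]
    · exact hf.2.2.2.2 y h1
  · rw [← integral_const_mul, ← integral_const_mul,
      ← integral_add ((hint2 hf h).const_mul a) ((hint2 hg h).const_mul b)]
    refine integral_mono_of_nonneg (Filter.Eventually.of_forall fun y => abs_nonneg _)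
      (((hint2 hf h).const_mul a).add ((hint2 hg h).const_mul b))
      (Filter.Eventually.of_forall fun y => ?_)
    simp only
    have e : a * f (y + h) + b * g (y + h) - (a * f (y - h) + b * g (y - h))
        = a * (f (y + h) - f (y - h)) + b * (g (y + h) - g (y - h)) := by ring
    rw [e]
    refine (abs_add_le _ _).trans (le_of_eq ?_)
    rw [abs_mul, abs_mul, abs_of_nonneg ha, abs_of_nonneg hb]

end

theorem unit_case : ∃ C : ℝ, 0 ≤ C ∧ ∀ (δ : Type) [Fintype δ] [DecidableEq δ] (N : ℕ) (v : ℕ → δ → ℝ),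
    (∀ t, t < N → v t ⬝ᵥ v t = 1) →
    ∃ ε : ℕ → ℝ, (∀ i, i < N → ε i = 1 ∨ ε i = -1) ∧
      ∀ t, t ≤ N → nrm (∑ i ∈ range t, ε i • v i) ^ 2 ≤ C * Fintype.card δ := by
  refine ⟨(100000 * 1200000000) ^ 2 * 300000000, by positivity, fun δ _ _ N v hv => ?_⟩
  set κ : ℝ := 1 / 1200000000 with hκ
  set s : ℝ := √(1 - κ ^ 2) with hs
  have hs2 : s ^ 2 = 1 - κ ^ 2 := Real.sq_sqrt (by rw [hκ]; norm_num)
  have hs0 : 0 ≤ s := Real.sqrt_nonneg _
  have hs1 : s ≤ 1 := by nlinarith [sq_nonneg κ]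
  have hc0 : 0 ≤ 1 - s := by linarith
  have hc1 : 1 - s ≤ κ ^ 2 := by nlinarith
  obtain ⟨Z, x, he, hx, hxe0, hxe, hM⟩ := filter N v hv (1 - s) κ (by linarith)
  obtain ⟨f, hf, hT⟩ := minimax (mainA (mainK Z x)) (fun f (i : Fin N) =>
      ∫ y, |f (y + (3 : ℝ) • (100000 : ℝ)⁻¹ • Z.e i) - f (y - (3 : ℝ) • (100000 : ℝ)⁻¹ • Z.e i)|)
    (1 / 3)
    (fun f hf g hg a b ha hb hab =>
      ⟨_, (mainA_mix (mainK_compact Z x) hf hg ha hb hab).1, fun i =>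
        (mainA_mix (mainK_compact Z x) hf hg ha hb hab).2 _⟩)
    (fun α h0 h1 => main_density Z x he hx hxe α h0 h1)
  obtain ⟨ξ, hξK, hξ⟩ := kl_one (fun i => (100000 : ℝ)⁻¹ • Z.e i)
    (fun i => (100000 * (1 - s) / κ) • x i) N
    (fun i j hij hj => by
      rw [smul_dotProduct, dotProduct_smul, hxe0 i j hij hj]; simp)
    (mainK Z x) f (mainK_compact Z x) (mainK_convex Z x) hf.1 hf.2.1 hf.2.2.2.2 hf.2.2.1 hf.2.2.2.1
    (fun i hi y hy => by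
      have h1 := hy.2.1 i hi
      have h2 : 0 ≤ 100000 * (1 - s) / κ := by rw [hκ]; positivity
      have h3 : 100000 * (1 - s) / κ ≤ 1 / 12000 := by
        rw [div_le_iff₀ (by rw [hκ]; norm_num)]
        rw [hκ] at hc1 ⊢
        linarith
      rw [smul_dotProduct, smul_eq_mul, abs_mul, abs_of_nonneg h2]
      nlinarith [abs_nonneg (x i ⬝ᵥ y)])
    (fun i hi => hT ⟨i, hi⟩)
  set p : δ ⊕ Fin N → ℝ := ∑ i ∈ range N, ξ i • (100000 : ℝ)⁻¹ • Z.e i with hp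
  refine ⟨fun i => ξ i - ((100000 * (1 - s) / κ) • x i) ⬝ᵥ p, hξ, fun t ht => ?_⟩
  have hp' : p = ∑ i ∈ range N, (ξ i * (100000 : ℝ)⁻¹) • Z.e i := by
    simp only [hp, smul_smul]
  have h1 := hM (fun i => ξ i * (100000 : ℝ)⁻¹) t ht
  rw [← hp'] at h1
  have h2 : ∑ i ∈ range t, (ξ i - ((100000 * (1 - s) / κ) • x i) ⬝ᵥ p) • v i
      = (100000 * 1200000000 : ℝ) • (Z.M t *ᵥ p) := by
    rw [h1, smul_sum]
    refine sum_congr rfl fun i _ => ?_
    rw [smul_smul, smul_dotProduct, smul_eq_mul, hκ]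
    congr 1
    ring
  have h3 := hξK.1 t ht
  have h4 : nrm (Z.M t *ᵥ p) ^ 2 ≤ 300000000 * Fintype.card δ := by
    have := pow_le_pow_left₀ (nrm_nonneg _) h3 2
    rwa [Real.sq_sqrt (by positivity)] at this
  rw [h2, nrm_smul, mul_pow, sq_abs, mul_assoc]
  exact mul_le_mul_of_nonneg_left h4 (by positivity)

end Crest.Agent.R239
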