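import Crest.Agent.R239.Basic

/-!
Row 239: resolvents of PSD matrices, and the add step / erase step identities.

`Res`: `S + σ` is injective on vectors (`x ⬝ (S + σ) x ≥ σ x ⬝ x`), hence a unit
(`Matrix.mulVec_injective_iff_isUnit`, `Matrix.nonsing_inv_mul`, `isUnit_iff_isUnit_det`).
With `y = (S + σ) x`: `y ⬝ R y = x ⬝ S x + σ x ⬝ x ≥ 0` and `σ (y ⬝ R y) ≤ y ⬝ y`
(`y ⬝ y = |S x|² + 2 σ x ⬝ S x + σ² |x|²`).

Add step (`D = diagonal w`, `P e = 0`, `D e = a e`, `|e| = 1`): `Cm Ps = Cm P + a² e eᵀ`,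
`Cm P e = 0`, so `R e = e / σ`; check that the claimed matrix is a right inverse
(`Matrix.inv_eq_right_inv`).  `Gm`: use `P D e = 0`, `Rs e = e / (σ + a²)`.

Erase step (`Ps h = h`, `|h| = 1`, `Pn = Ps - h hᵀ = Ps (1 - h hᵀ) = (1 - h hᵀ) Ps`, `z = D h`):
`Cm Pn = Cm Ps - z zᵀ`, so `Rn - Rs = Rn (z zᵀ) Rs = Rs (z zᵀ) Rn`; hence
`Rn - Rs = (1 + z ⬝ Rn z) y yᵀ` with `y = Rs z`.  `Gn = Pn D Rs D Pn + (Wn z)(Pn D Rs z)ᵀ` and
`Pn D Rs D Pn = (1 - h hᵀ) Gs (1 - h hᵀ)` with `Gs h = Ws z`.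
`Gm D = P D - σ Wm` because `D P D = Cm` and `R Cm = 1 - σ R`; and
`Wn - Ws = (Wn z) yᵀ - h yᵀ`, `Pn D - Ps D = - h zᵀ`.
-/

set_option autoImplicit false

namespace Crest.Agent.R239

open Matrix Finset

variable {ι δ : Type} [Fintype ι] [Fintype δ] [DecidableEq ι] [DecidableEq δ]

theorem res_det {S : Matrix ι ι ℝ} (hS : PSD S) {σ : ℝ} (hσ : 0 < σ) :
    IsUnit (S + σ • (1 : Matrix ι ι ℝ)).det := by
  rw [isUnit_iff_ne_zero]
  intro h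
  obtain ⟨v, hv, h0⟩ := Matrix.exists_mulVec_eq_zero_iff.2 h
  have h1 : v ⬝ᵥ ((S + σ • (1 : Matrix ι ι ℝ)) *ᵥ v) = 0 := by rw [h0, dotProduct_zero]
  rw [add_mulVec, dotProduct_add, smul_mulVec, one_mulVec, dotProduct_smul, smul_eq_mul] at h1
  have h2 := hS.nonneg v
  have h3 := dot_self_nonneg v
  have h4 : v ⬝ᵥ v = 0 := by nlinarith
  exact hv (dotProduct_self_eq_zero.1 h4)

omit [DecidableEq ι] in
theorem res_dot_symm {A : Matrix ι ι ℝ} (hA : Aᵀ = A) (u v : ι → ℝ) :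
    u ⬝ᵥ (A *ᵥ v) = (A *ᵥ u) ⬝ᵥ v := by
  rw [dotProduct_mulVec, ← mulVec_transpose, hA]

omit [DecidableEq ι] in
theorem res_vecMul_symm {A : Matrix ι ι ℝ} (hA : Aᵀ = A) (u : ι → ℝ) : u ᵥ* A = A *ᵥ u := by
  rw [← mulVec_transpose, hA]

omit [DecidableEq ι] in
theorem res_dot_proj {P : Matrix ι ι ℝ} (hP : IsProj P) (u v : ι → ℝ) :
    (P *ᵥ u) ⬝ᵥ (P *ᵥ v) = u ⬝ᵥ (P *ᵥ v) := by
  rw [← res_dot_symm hP.symm, mulVec_mulVec, hP.idem]


theorem PSD.res_mul {S : Matrix ι ι ℝ} (hS : PSD S) {σ : ℝ} (hσ : 0 < σ) :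
    Res S σ * (S + σ • (1 : Matrix ι ι ℝ)) = 1 := by
  exact Matrix.nonsing_inv_mul _ (res_det hS hσ)

theorem PSD.mul_res {S : Matrix ι ι ℝ} (hS : PSD S) {σ : ℝ} (hσ : 0 < σ) :
    (S + σ • (1 : Matrix ι ι ℝ)) * Res S σ = 1 := by
  exact Matrix.mul_nonsing_inv _ (res_det hS hσ)

theorem PSD.res_symm {S : Matrix ι ι ℝ} (hS : PSD S) (σ : ℝ) : (Res S σ)ᵀ = Res S σ := by
  rw [Res, Matrix.transpose_nonsing_inv, transpose_add, transpose_smul, transpose_one, hS.symm]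

theorem res_eq {S : Matrix ι ι ℝ} (hS : PSD S) {σ : ℝ} (hσ : 0 < σ) (y : ι → ℝ) :
    y = S *ᵥ (Res S σ *ᵥ y) + σ • (Res S σ *ᵥ y) := by
  have h : (S + σ • (1 : Matrix ι ι ℝ)) *ᵥ (Res S σ *ᵥ y) = y := by
    rw [mulVec_mulVec, hS.mul_res hσ, one_mulVec]
  rw [add_mulVec, smul_mulVec, one_mulVec] at h
  exact h.symm


theorem PSD.res_nonneg {S : Matrix ι ι ℝ} (hS : PSD S) {σ : ℝ} (hσ : 0 < σ) (y : ι → ℝ) :
    0 ≤ y ⬝ᵥ (Res S σ *ᵥ y) := by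
  have h := res_eq hS hσ y
  generalize Res S σ *ᵥ y = x at h ⊢
  rw [h, add_dotProduct, smul_dotProduct, smul_eq_mul, dotProduct_comm]
  exact add_nonneg (hS.nonneg x) (mul_nonneg hσ.le (dot_self_nonneg x))

theorem PSD.res_le {S : Matrix ι ι ℝ} (hS : PSD S) {σ : ℝ} (hσ : 0 < σ) (y : ι → ℝ) :
    y ⬝ᵥ (Res S σ *ᵥ y) ≤ σ⁻¹ * (y ⬝ᵥ y) := by
  have h := res_eq hS hσ y
  generalize Res S σ *ᵥ y = x at h ⊢
  rw [le_inv_mul_iff₀ hσ, h]
  simp only [add_dotProduct, dotProduct_add, smul_dotProduct, dotProduct_smul, smul_eq_mul]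
  rw [dotProduct_comm (S *ᵥ x) x]
  have h1 := hS.nonneg x
  have h2 := dot_self_nonneg (S *ᵥ x)
  nlinarith [mul_nonneg hσ.le h1]

theorem res_Cm_dot {P : Matrix ι ι ℝ} (hP : IsProj P) (w x : ι → ℝ) :
    x ⬝ᵥ (Cm w P *ᵥ x) = (P *ᵥ (diagonal w *ᵥ x)) ⬝ᵥ (P *ᵥ (diagonal w *ᵥ x)) := by
  rw [res_dot_proj hP, ← res_dot_symm (diagonal_transpose w), Cm, mulVec_mulVec, mulVec_mulVec]


theorem IsProj.psd_Cm {P : Matrix ι ι ℝ} (hP : IsProj P) (w : ι → ℝ) : PSD (Cm w P) := by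
  refine ⟨?_, fun x => ?_⟩
  · rw [Cm, transpose_mul, transpose_mul, diagonal_transpose, hP.symm, Matrix.mul_assoc]
  · rw [res_Cm_dot hP]
    exact dot_self_nonneg _

theorem isProj_of_coiso {M : Matrix δ ι ℝ} (hM : M * Mᵀ = 1) : IsProj (Mᵀ * M) := by
  refine ⟨by rw [transpose_mul, transpose_transpose], ?_⟩
  rw [Matrix.mul_assoc, ← Matrix.mul_assoc M, hM, Matrix.one_mul]

theorem IsProj.nrm_Wm_sq {P : Matrix ι ι ℝ} (hP : IsProj P) (w : ι → ℝ) (σ : ℝ) (z : ι → ℝ) :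
    nrm (Wm w σ P *ᵥ z) ^ 2 = (Rm w σ P *ᵥ z) ⬝ᵥ (Cm w P *ᵥ (Rm w σ P *ᵥ z)) := by
  rw [nrm_sq, res_Cm_dot hP, Wm, ← mulVec_mulVec, ← mulVec_mulVec]

theorem IsProj.Gm_mul_diag {P : Matrix ι ι ℝ} (hP : IsProj P) (w : ι → ℝ) {σ : ℝ} (hσ : 0 < σ) :
    Gm w σ P * diagonal w = P * diagonal w - σ • Wm w σ P := by
  have h := (hP.psd_Cm w).res_mul hσ
  rw [Matrix.mul_add, Matrix.mul_smul, Matrix.mul_one] at h
  have h2 : Rm w σ P * Cm w P = 1 - σ • Rm w σ P := eq_sub_of_add_eq h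
  calc Gm w σ P * diagonal w = P * diagonal w * (Rm w σ P * Cm w P) := by
        simp only [Gm, Wm, Cm, Matrix.mul_assoc]
    _ = _ := by rw [h2, Matrix.mul_sub, Matrix.mul_one, Matrix.mul_smul, Wm]

section add
variable {P : Matrix ι ι ℝ} (hP : IsProj P) {e : ι → ℝ} (he : e ⬝ᵥ e = 1) (hPe : P *ᵥ e = 0)
include hP he hPe

omit hP hPe [DecidableEq ι] in
theorem res_EE : vecMulVec e e * vecMulVec e e = vecMulVec e e := by
  rw [vecMulVec_mul_vecMulVec, he, one_smul]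

omit [DecidableEq ι] in
theorem res_PE : P * vecMulVec e e = 0 := by
  rw [mul_vecMulVec, hPe, zero_vecMulVec]

omit [DecidableEq ι] in
theorem res_EP : vecMulVec e e * P = 0 := by
  rw [vecMulVec_mul, res_vecMul_symm hP.symm, hPe, vecMulVec_zero]

omit hP he hPe in
theorem res_DE {w : ι → ℝ} {a : ℝ} (hD : diagonal w *ᵥ e = a • e) :
    diagonal w * vecMulVec e e = a • vecMulVec e e := by
  rw [mul_vecMulVec, hD, smul_vecMulVec]

omit hP he hPe in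
theorem res_ED {w : ι → ℝ} {a : ℝ} (hD : diagonal w *ᵥ e = a • e) :
    vecMulVec e e * diagonal w = a • vecMulVec e e := by
  rw [vecMulVec_mul, res_vecMul_symm (diagonal_transpose w), hD, vecMulVec_smul]

theorem res_CE {w : ι → ℝ} {a : ℝ} (hD : diagonal w *ᵥ e = a • e) :
    Cm w P * vecMulVec e e = 0 := by
  rw [Cm, Matrix.mul_assoc, res_DE hD, Matrix.mul_smul, Matrix.mul_assoc, res_PE hP he hPe,
    Matrix.mul_zero, smul_zero]

theorem res_EC {w : ι → ℝ} {a : ℝ} (hD : diagonal w *ᵥ e = a • e) :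
    vecMulVec e e * Cm w P = 0 := by
  rw [Cm, ← Matrix.mul_assoc, ← Matrix.mul_assoc, res_ED hD, Matrix.smul_mul, res_EP hP he hPe,
    smul_zero, Matrix.zero_mul]

theorem res_RE {w : ι → ℝ} {a : ℝ} (hD : diagonal w *ᵥ e = a • e) {σ : ℝ} (hσ : 0 < σ) :
    Rm w σ P * vecMulVec e e = σ⁻¹ • vecMulVec e e := by
  have h := congrArg (· * vecMulVec e e) ((hP.psd_Cm w).res_mul hσ)
  simp only [Matrix.mul_assoc, Matrix.add_mul, res_CE hP he hPe hD, zero_add, Matrix.smul_mul,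
    Matrix.one_mul, Matrix.mul_smul] at h
  conv_rhs => rw [← h]
  rw [smul_smul, inv_mul_cancel₀ hσ.ne', one_smul, Rm]

theorem res_ER {w : ι → ℝ} {a : ℝ} (hD : diagonal w *ᵥ e = a • e) {σ : ℝ} (hσ : 0 < σ) :
    vecMulVec e e * Rm w σ P = σ⁻¹ • vecMulVec e e := by
  have h := congrArg transpose (res_RE hP he hPe hD hσ)
  rwa [transpose_mul, transpose_smul, transpose_vecMulVec, Rm, (hP.psd_Cm w).res_symm] at h


theorem IsProj.add_proj : IsProj (P + vecMulVec e e) := by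
  refine ⟨by rw [transpose_add, hP.symm, transpose_vecMulVec], ?_⟩
  rw [Matrix.add_mul, Matrix.mul_add, Matrix.mul_add, hP.idem, res_PE hP he hPe, res_EP hP he hPe,
    res_EE he, add_zero, zero_add]

theorem IsProj.add_Rm {w : ι → ℝ} {a : ℝ} (hD : diagonal w *ᵥ e = a • e) {σ : ℝ} (hσ : 0 < σ) :
    Rm w σ (P + vecMulVec e e) = Rm w σ P - (σ⁻¹ - (σ + a ^ 2)⁻¹) • vecMulVec e e := by
  have hC : Cm w (P + vecMulVec e e) = Cm w P + a ^ 2 • vecMulVec e e := by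
    rw [Cm, Cm, Matrix.mul_add, Matrix.add_mul, res_DE hD, Matrix.smul_mul, res_ED hD, smul_smul,
      sq]
  have h1 := (hP.psd_Cm w).mul_res hσ
  rw [Rm, Res, hC]
  refine Matrix.inv_eq_right_inv ?_
  rw [add_right_comm, Matrix.mul_sub, Matrix.add_mul, Rm, h1, ← Rm, Matrix.smul_mul,
    res_ER hP he hPe hD hσ, Matrix.mul_smul, Matrix.add_mul, Matrix.add_mul, res_CE hP he hPe hD,
    Matrix.smul_mul, Matrix.smul_mul, Matrix.one_mul, res_EE he, zero_add, ← add_smul, smul_smul,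
    smul_smul, add_sub_assoc, ← sub_smul]
  have h2 : 0 < σ + a ^ 2 := by positivity
  have h3 : a ^ 2 * σ⁻¹ - (σ⁻¹ - (σ + a ^ 2)⁻¹) * (σ + a ^ 2) = 0 := by
    field_simp
    ring
  rw [h3, zero_smul, add_zero]

theorem IsProj.add_Gm {w : ι → ℝ} {a : ℝ} (hD : diagonal w *ᵥ e = a • e) {σ : ℝ} (hσ : 0 < σ) :
    Gm w σ (P + vecMulVec e e) = Gm w σ P + (a ^ 2 / (a ^ 2 + σ)) • vecMulVec e e := by
  have h2 : 0 < σ + a ^ 2 := by positivity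
  have hPD : (P + vecMulVec e e) * diagonal w = P * diagonal w + a • vecMulVec e e := by
    rw [Matrix.add_mul, res_ED hD]
  have hPDE : P * diagonal w * vecMulVec e e = 0 := by
    rw [Matrix.mul_assoc, res_DE hD, Matrix.mul_smul, res_PE hP he hPe, smul_zero]
  have hW : Wm w σ (P + vecMulVec e e) = Wm w σ P + (a * (σ + a ^ 2)⁻¹) • vecMulVec e e := by
    rw [Wm, Wm, hPD, hP.add_Rm he hPe hD hσ, Matrix.mul_sub, Matrix.add_mul, Matrix.smul_mul,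
      res_ER hP he hPe hD hσ, Matrix.mul_smul, Matrix.add_mul, hPDE, Matrix.smul_mul, res_EE he,
      zero_add, smul_smul, smul_smul, add_sub_assoc, ← sub_smul]
    congr 2
    ring
  have hWE : Wm w σ P * vecMulVec e e = 0 := by
    rw [Wm, Matrix.mul_assoc, res_RE hP he hPe hD hσ, Matrix.mul_smul, hPDE, smul_zero]
  rw [Gm, Gm, hW, Matrix.add_mul, Matrix.smul_mul, res_ED hD, Matrix.mul_add, Matrix.add_mul,
    Matrix.add_mul, Matrix.mul_assoc _ (diagonal w) (vecMulVec e e), res_DE hD, Matrix.mul_smul,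
    hWE, smul_smul, Matrix.smul_mul, Matrix.smul_mul, res_EP hP he hPe, res_EE he, smul_zero,
    smul_zero, add_zero, zero_add]
  congr 2
  rw [add_comm (a ^ 2) σ]
  field_simp

end add

section erase
variable {P : Matrix ι ι ℝ} (hP : IsProj P) {h : ι → ℝ} (hh : h ⬝ᵥ h = 1) (hPh : P *ᵥ h = h)
include hP hh hPh

theorem IsProj.erase_proj : IsProj (P - vecMulVec h h) := by
  refine ⟨by rw [transpose_sub, hP.symm, transpose_vecMulVec], ?_⟩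
  rw [Matrix.sub_mul, Matrix.mul_sub, Matrix.mul_sub, hP.idem, mul_vecMulVec, hPh, vecMulVec_mul,
    res_vecMul_symm hP.symm, hPh, res_EE hh, sub_self, sub_zero]

theorem res_erase (w : ι → ℝ) {σ : ℝ} (hσ : 0 < σ) :
    Rm w σ (P - vecMulVec h h) - Rm w σ P
      = vecMulVec (Rm w σ (P - vecMulVec h h) *ᵥ (diagonal w *ᵥ h)) (Rm w σ P *ᵥ (diagonal w *ᵥ h))
    ∧ Rm w σ (P - vecMulVec h h) - Rm w σ P
      = vecMulVec (Rm w σ P *ᵥ (diagonal w *ᵥ h))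
          (Rm w σ (P - vecMulVec h h) *ᵥ (diagonal w *ᵥ h)) := by
  have hn := (hP.erase_proj hh hPh).psd_Cm w
  have hs := hP.psd_Cm w
  have hRn : (Rm w σ (P - vecMulVec h h))ᵀ = Rm w σ (P - vecMulVec h h) := hn.res_symm σ
  have hRs : (Rm w σ P)ᵀ = Rm w σ P := hs.res_symm σ
  have hC : Cm w P + σ • (1 : Matrix ι ι ℝ) = (Cm w (P - vecMulVec h h) + σ • (1 : Matrix ι ι ℝ))
      + vecMulVec (diagonal w *ᵥ h) (diagonal w *ᵥ h) := by
    rw [Cm, Cm, Matrix.mul_sub, Matrix.sub_mul, mul_vecMulVec, vecMulVec_mul,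
      res_vecMul_symm (diagonal_transpose w)]
    abel
  have h1 : Rm w σ (P - vecMulVec h h) - Rm w σ P
      = vecMulVec (Rm w σ (P - vecMulVec h h) *ᵥ (diagonal w *ᵥ h))
        (Rm w σ P *ᵥ (diagonal w *ᵥ h)) := by
    have e1 : Rm w σ (P - vecMulVec h h) * ((Cm w P + σ • (1 : Matrix ι ι ℝ)) * Rm w σ P)
        = Rm w σ (P - vecMulVec h h) := by
      rw [Rm, Rm, hs.mul_res hσ, Matrix.mul_one]
    rw [hC, Matrix.add_mul, Matrix.mul_add, ← Matrix.mul_assoc, Rm, hn.res_mul hσ, ← Rm,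
      Matrix.one_mul, vecMulVec_mul, mul_vecMulVec, res_vecMul_symm hRs] at e1
    exact sub_eq_of_eq_add' e1.symm
  refine ⟨h1, ?_⟩
  have h2 := congrArg transpose h1
  rwa [transpose_sub, hRn, hRs, transpose_vecMulVec] at h2


theorem IsProj.erase_Rm (w : ι → ℝ) {σ : ℝ} (hσ : 0 < σ) (u : ι → ℝ) :
    ((Rm w σ P *ᵥ (diagonal w *ᵥ h)) ⬝ᵥ u) ^ 2
      ≤ u ⬝ᵥ (Rm w σ (P - vecMulVec h h) *ᵥ u) - u ⬝ᵥ (Rm w σ P *ᵥ u) := by
  have hn := (hP.erase_proj hh hPh).psd_Cm w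
  have hs := hP.psd_Cm w
  obtain ⟨h1, h2⟩ := res_erase hP hh hPh w hσ
  have hRn : (Rm w σ (P - vecMulVec h h))ᵀ = Rm w σ (P - vecMulVec h h) := hn.res_symm σ
  have ht := hn.res_nonneg hσ (diagonal w *ᵥ h)
  rw [← Rm] at ht
  have h3 := congrArg (· *ᵥ (diagonal w *ᵥ h)) h2
  simp only [sub_mulVec, vecMulVec_mulVec] at h3
  rw [← dotProduct_sub, ← sub_mulVec, h1, vecMulVec_mulVec, eq_add_of_sub_eq h3]
  rw [res_dot_symm hRn] at ht
  simp only [op_smul_eq_smul, dotProduct_smul, dotProduct_add, smul_eq_mul]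
  rw [dotProduct_comm u]
  nlinarith [mul_nonneg ht (sq_nonneg ((Rm w σ P *ᵥ (diagonal w *ᵥ h)) ⬝ᵥ u))]

theorem res_erase_Wm (w : ι → ℝ) {σ : ℝ} (hσ : 0 < σ) (a y : ι → ℝ)
    (ha : a = Wm w σ (P - vecMulVec h h) *ᵥ (diagonal w *ᵥ h))
    (hy : y = Rm w σ P *ᵥ (diagonal w *ᵥ h)) :
    Wm w σ (P - vecMulVec h h) - Wm w σ P = vecMulVec a y - vecMulVec h y := by
  have hRs : (Rm w σ P)ᵀ = Rm w σ P := (hP.psd_Cm w).res_symm σ
  have h1 := (res_erase hP hh hPh w hσ).1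
  have e1 : Wm w σ (P - vecMulVec h h) - Wm w σ P
      = (P - vecMulVec h h) * diagonal w * (Rm w σ (P - vecMulVec h h) - Rm w σ P)
        - vecMulVec h h * diagonal w * Rm w σ P := by
    rw [Wm, Wm, Matrix.mul_sub, Matrix.sub_mul P, Matrix.sub_mul _ _ (Rm w σ P)]
    abel
  rw [e1, h1, mul_vecMulVec, mulVec_mulVec, ← Wm, ← ha, ← hy, vecMulVec_mul, vecMulVec_mul,
    res_vecMul_symm (diagonal_transpose w), res_vecMul_symm hRs, ← hy]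


/-- with `a = Wn z`, `bs = Ws z`, `b = bs - (h ⬝ bs) h`:  `Gn - Gs = a bᵀ - b hᵀ - h bsᵀ`. -/
theorem IsProj.erase_Gm (w : ι → ℝ) {σ : ℝ} (hσ : 0 < σ) (a bs b : ι → ℝ)
    (ha : a = Wm w σ (P - vecMulVec h h) *ᵥ (diagonal w *ᵥ h))
    (hbs : bs = Wm w σ P *ᵥ (diagonal w *ᵥ h)) (hb : b = bs - (h ⬝ᵥ bs) • h) :
    Gm w σ (P - vecMulVec h h) - Gm w σ P = vecMulVec a b - vecMulVec b h - vecMulVec h bs := by
  have hW := res_erase_Wm hP hh hPh w hσ a _ ha rfl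
  have hn := hP.erase_proj hh hPh
  have hbs' : bs = P *ᵥ (diagonal w *ᵥ (Rm w σ P *ᵥ (diagonal w *ᵥ h))) := by
    rw [hbs, Wm, ← mulVec_mulVec, ← mulVec_mulVec]
  have hb' : (P - vecMulVec h h) *ᵥ (diagonal w *ᵥ (Rm w σ P *ᵥ (diagonal w *ᵥ h))) = b := by
    rw [sub_mulVec, vecMulVec_mulVec, hb, ← hbs', op_smul_eq_smul]
    congr 2
    rw [hbs', res_dot_symm hP.symm, hPh]
  have e1 : Gm w σ (P - vecMulVec h h) - Gm w σ P
      = (Wm w σ (P - vecMulVec h h) - Wm w σ P) * diagonal w * (P - vecMulVec h h)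
        - Wm w σ P * diagonal w * vecMulVec h h := by
    rw [Gm, Gm, Matrix.sub_mul, Matrix.sub_mul, Matrix.mul_sub (Wm w σ P * diagonal w)]
    abel
  rw [e1, hW, mul_vecMulVec, ← mulVec_mulVec, ← hbs, Matrix.sub_mul, Matrix.sub_mul,
    vecMulVec_mul, vecMulVec_mul, vecMulVec_mul, vecMulVec_mul,
    res_vecMul_symm (diagonal_transpose w), res_vecMul_symm hn.symm, hb']
  have e2 : vecMulVec h b + vecMulVec bs h = vecMulVec b h + vecMulVec h bs := by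
    rw [hb, vecMulVec_sub, sub_vecMulVec, vecMulVec_smul, smul_vecMulVec]
    abel
  rw [sub_sub, sub_sub, e2]

/-- with `a = Wn z`, `y = Rs z`:  `Wn - Ws = a yᵀ - h yᵀ`. -/
theorem IsProj.erase_Wm (w : ι → ℝ) {σ : ℝ} (hσ : 0 < σ) (a y : ι → ℝ)
    (ha : a = Wm w σ (P - vecMulVec h h) *ᵥ (diagonal w *ᵥ h))
    (hy : y = Rm w σ P *ᵥ (diagonal w *ᵥ h)) :
    Wm w σ (P - vecMulVec h h) - Wm w σ P = vecMulVec a y - vecMulVec h y := by
  exact res_erase_Wm hP hh hPh w hσ a y ha hy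

end erase

theorem nrm_sub_proj_le {h : ι → ℝ} (hh : h ⬝ᵥ h = 1) (b : ι → ℝ) :
    nrm (b - (h ⬝ᵥ b) • h) ≤ nrm b := by
  refine basic_le_of_sq ?_ (nrm_nonneg _)
  rw [nrm_sq, nrm_sq]
  simp only [sub_dotProduct, dotProduct_sub, smul_dotProduct, dotProduct_smul, smul_eq_mul, hh]
  rw [dotProduct_comm b h]
  nlinarith [sq_nonneg (h ⬝ᵥ b)]

end Crest.Agent.R239
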