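import Crest.Agent.R239.Res
import Crest.Agent.R239.Phi

/-!
Row 239: spectral theorem for real PSD matrices and the level sums of resolvent forms.

`PSD.spectral`: `Matrix.IsHermitian.spectral_theorem` (over `ℝ`, `conjTranspose = transpose`);
`l i = u_i ⬝ S u_i ≥ 0` for the `i`-th column.  `res_spectral`: check a right inverse.
For the sums put `c = Uᵀ z`, `∑ c i ^ 2 = z ⬝ z`; each quadratic form is `∑ i, f (l i) * c i ^ 2`;
swap sums and use `tau_res_le`, `tau_res_le'`, `phi_eq'`, `phi_le_one`, `sum_phi_le_one`.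
-/

set_option autoImplicit false
set_option linter.unusedSectionVars false

namespace Crest.Agent.R239

open Matrix Finset

variable {ι δ : Type} [Fintype ι] [Fintype δ] [DecidableEq ι] [DecidableEq δ]

theorem PSD.spectral {S : Matrix ι ι ℝ} (hS : PSD S) :
    ∃ (U : Matrix ι ι ℝ) (l : ι → ℝ), Uᵀ * U = 1 ∧ U * Uᵀ = 1 ∧ (∀ i, 0 ≤ l i) ∧
      S = U * diagonal l * Uᵀ := by
  have hA : S.IsHermitian := by
    rw [Matrix.IsHermitian, Matrix.conjTranspose_eq_transpose_of_trivial]; exact hS.symm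
  have hP : S.PosSemidef := by
    refine Matrix.PosSemidef.of_dotProduct_mulVec_nonneg hA fun x => ?_
    simpa using hS.nonneg x
  refine ⟨hA.eigenvectorUnitary, hA.eigenvalues, ?_, ?_, hP.eigenvalues_nonneg, ?_⟩
  · exact (Matrix.mem_orthogonalGroup_iff' ι ℝ).1 hA.eigenvectorUnitary.2
  · exact (Matrix.mem_orthogonalGroup_iff ι ℝ).1 hA.eigenvectorUnitary.2
  · conv_lhs => rw [hA.spectral_theorem, Unitary.conjStarAlgAut_apply]
    simp [Matrix.star_eq_conjTranspose]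

theorem spec_mul {U : Matrix ι ι ℝ} (h1 : Uᵀ * U = 1) (a b : ι → ℝ) :
    U * diagonal a * Uᵀ * (U * diagonal b * Uᵀ) = U * diagonal (fun i => a i * b i) * Uᵀ := by
  calc _ = U * diagonal a * (Uᵀ * U) * diagonal b * Uᵀ := by simp only [Matrix.mul_assoc]
    _ = _ := by rw [h1, Matrix.mul_one, Matrix.mul_assoc U, diagonal_mul_diagonal]

theorem spec_dot {U : Matrix ι ι ℝ} (h1 : Uᵀ * U = 1) (a b z : ι → ℝ) :
    ((U * diagonal a * Uᵀ) *ᵥ z) ⬝ᵥ ((U * diagonal b * Uᵀ) *ᵥ z) =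
      ∑ i, a i * b i * (Uᵀ *ᵥ z) i ^ 2 := by
  rw [← mulVec_mulVec, ← mulVec_mulVec, ← mulVec_mulVec, ← mulVec_mulVec, dotProduct_mulVec,
    vecMul_mulVec, h1, vecMul_one]
  simp only [dotProduct, mulVec_diagonal]
  exact sum_congr rfl fun i _ => by ring

theorem spec_sum {U : Matrix ι ι ℝ} (h2 : U * Uᵀ = 1) (z : ι → ℝ) :
    ∑ i, (Uᵀ *ᵥ z) i ^ 2 = z ⬝ᵥ z := by
  rw [← dot_self_eq_sum, dotProduct_mulVec, vecMul_mulVec, transpose_transpose, h2, vecMul_one]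

theorem spec_bound {U : Matrix ι ι ℝ} (h2 : U * Uᵀ = 1) (z : ι → ℝ) (Q : ℕ) (g : ℕ → ι → ℝ) {C : ℝ}
    (hg : ∀ i, ∑ q ∈ range Q, g q i ≤ C) :
    ∑ q ∈ range Q, ∑ i, g q i * (Uᵀ *ᵥ z) i ^ 2 ≤ C * (z ⬝ᵥ z) := by
  rw [sum_comm, ← spec_sum h2 z, mul_sum]
  refine sum_le_sum fun i _ => ?_
  rw [← sum_mul]
  exact mul_le_mul_of_nonneg_right (hg i) (sq_nonneg _)

theorem res_spectral {U : Matrix ι ι ℝ} {l : ι → ℝ} (h1 : Uᵀ * U = 1) (h2 : U * Uᵀ = 1)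
    (hl : ∀ i, 0 ≤ l i) {σ : ℝ} (hσ : 0 < σ) :
    Res (U * diagonal l * Uᵀ) σ = U * diagonal (fun i => (l i + σ)⁻¹) * Uᵀ := by
  refine Matrix.inv_eq_right_inv ?_
  have e : U * diagonal l * Uᵀ + σ • (1 : Matrix ι ι ℝ) = U * diagonal (fun i => l i + σ) * Uᵀ := by
    rw [← h2, ← diagonal_add, Matrix.mul_add, Matrix.add_mul, ← smul_eq_mul_diagonal,
      Matrix.smul_mul]
  rw [e, spec_mul h1]
  have : (fun i => (l i + σ) * (l i + σ)⁻¹) = fun _ => 1 := by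
    funext i
    exact mul_inv_cancel₀ (by linarith [hl i])
  rw [this, diagonal_one, Matrix.mul_one, h2]

theorem PSD.sum_res_le {S : Matrix ι ι ℝ} (hS : PSD S) (Q : ℕ) (z : ι → ℝ) :
    ∑ q ∈ range Q, lev q * ((Res S (lev q) *ᵥ z) ⬝ᵥ (S *ᵥ (Res S (lev q) *ᵥ z)))
      ≤ 2 * (z ⬝ᵥ z) := by
  obtain ⟨U, l, h1, h2, hl, rfl⟩ := hS.spectral
  have e : ∀ q, lev q * ((Res (U * diagonal l * Uᵀ) (lev q) *ᵥ z) ⬝ᵥ ((U * diagonal l * Uᵀ) *ᵥ
      (Res (U * diagonal l * Uᵀ) (lev q) *ᵥ z))) =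
      ∑ i, (lev q * (l i * (l i + lev q)⁻¹ ^ 2)) * (Uᵀ *ᵥ z) i ^ 2 := by
    intro q
    rw [res_spectral h1 h2 hl (lev_pos q), mulVec_mulVec z, spec_mul h1, spec_dot h1, mul_sum]
    exact sum_congr rfl fun i _ => by ring
  simp only [e]
  refine spec_bound h2 z Q _ fun i => ?_
  calc _ ≤ ∑ q ∈ range Q, 2 * phi (lev q) (l i) := sum_le_sum fun q _ => tau_res_le (lev_pos q) (hl i)
    _ ≤ 2 := by rw [← mul_sum]; linarith [sum_phi_le_one Q (hl i)]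

theorem PSD.sum_res_le' {S : Matrix ι ι ℝ} (hS : PSD S) (Q : ℕ) (z : ι → ℝ) :
    ∑ q ∈ range Q, lev q * ((Res S (lev q / 16) *ᵥ z) ⬝ᵥ (S *ᵥ (Res S (lev q / 16) *ᵥ z)))
      ≤ 18 * (z ⬝ᵥ z) := by
  obtain ⟨U, l, h1, h2, hl, rfl⟩ := hS.spectral
  have e : ∀ q, lev q * ((Res (U * diagonal l * Uᵀ) (lev q / 16) *ᵥ z) ⬝ᵥ ((U * diagonal l * Uᵀ) *ᵥ
      (Res (U * diagonal l * Uᵀ) (lev q / 16) *ᵥ z))) =
      ∑ i, (lev q * (l i * (l i + lev q / 16)⁻¹ ^ 2)) * (Uᵀ *ᵥ z) i ^ 2 := by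
    intro q
    rw [res_spectral h1 h2 hl (div_pos (lev_pos q) (by norm_num)), mulVec_mulVec z, spec_mul h1,
      spec_dot h1, mul_sum]
    exact sum_congr rfl fun i _ => by ring
  simp only [e]
  refine spec_bound h2 z Q _ fun i => ?_
  calc _ ≤ ∑ q ∈ range Q, 18 * phi (lev q) (l i) :=
        sum_le_sum fun q _ => tau_res_le' (lev_pos q) (hl i)
    _ ≤ 18 := by rw [← mul_sum]; linarith [sum_phi_le_one Q (hl i)]

theorem PSD.sum_diff_le {S : Matrix ι ι ℝ} (hS : PSD S) (Q : ℕ) (z : ι → ℝ) :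
    ∑ q ∈ range Q, nrm (lev q • (Res S (lev q) *ᵥ z) - (lev q / 16) • (Res S (lev q / 16) *ᵥ z)) ^ 2
      ≤ z ⬝ᵥ z := by
  obtain ⟨U, l, h1, h2, hl, rfl⟩ := hS.spectral
  have e : ∀ q, nrm (lev q • (Res (U * diagonal l * Uᵀ) (lev q) *ᵥ z) -
      (lev q / 16) • (Res (U * diagonal l * Uᵀ) (lev q / 16) *ᵥ z)) ^ 2 =
      ∑ i, (phi (lev q) (l i) * phi (lev q) (l i)) * (Uᵀ *ᵥ z) i ^ 2 := by
    intro q
    rw [res_spectral h1 h2 hl (div_pos (lev_pos q) (by norm_num)), res_spectral h1 h2 hl (lev_pos q),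
      ← spec_dot h1, nrm_sq]
    have : lev q • ((U * diagonal (fun i => (l i + lev q)⁻¹) * Uᵀ) *ᵥ z) -
        (lev q / 16) • ((U * diagonal (fun i => (l i + lev q / 16)⁻¹) * Uᵀ) *ᵥ z) =
        (U * diagonal (fun i => phi (lev q) (l i)) * Uᵀ) *ᵥ z := by
      simp only [← mulVec_mulVec, ← mulVec_smul, ← mulVec_sub]
      congr 1
      funext i
      simp only [Pi.sub_apply, mulVec_smul, Pi.smul_apply, mulVec_diagonal, smul_eq_mul]
      rw [← phi_eq' (lev_pos q) (hl i)]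
      ring
    rw [this]
  simp only [e]
  have := spec_bound h2 z Q (fun q i => phi (lev q) (l i) * phi (lev q) (l i)) (C := 1) fun i =>
    (sum_le_sum fun q _ => mul_le_of_le_one_left (phi_nonneg (lev_pos q) (hl i))
      (phi_le_one (lev_pos q) (hl i))).trans (sum_phi_le_one Q (hl i))
  rwa [one_mul] at this

end Crest.Agent.R239
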